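import Mathlib.Analysis.Calculus.FDeriv.Basic
import Mathlib.Analysis.SpecialFunctions.Pow.Real
import Mathlib.Analysis.Asymptotics.Defs
import Mathlib.MeasureTheory.Integral.Bochner.Basic
import Mathlib.MeasureTheory.Measure.Lebesgue.Basic
import Mathlib.Algebra.Polynomial.AlgebraMap
import Mathlib.Analysis.Analytic.Basic

/-! Interface of the abstract Stokes obstruction theorem.

`f W (a, y)` is the reduced action with the cylindrical end `j` cut at height `W j`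
(weight `exp (-w)`), `a j` is the canonical parameter of the end `j` (tip position `1 / a j`). -/

open Set Filter Topology Function Asymptotics

namespace Vale.Agent.P218SQ

/-- parameter space: end parameters and the remaining (analytic) parameters -/
abbrev Pt (ι κ : Type*) := (ι → ℂ) × (κ → ℂ)

/-- real points -/
def ofReal {ι κ : Type*} (x : (ι → ℝ) × (κ → ℝ)) : Pt ι κ :=
  (fun j => (x.1 j : ℂ), fun k => (x.2 k : ℂ))

/-- radius of the excluded disc of tip positions -/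
noncomputable def lev (β K w : ℝ) : ℝ := w + β * Real.log w + K

/-- admissible values of the parameter of an end cut at height `w`: tip position outside the
disc of radius `lev`, or in a far sector around the negative axis -/
def endDom (β K w : ℝ) : Set ℂ :=
  {a | ‖a‖ * lev β K w < 1 ∨ (2 * a.re < -‖a‖ ∧ ‖a‖ * w < 5 / 4)}

/-- domain of `f W` -/
def dom {ι κ : Type*} [Fintype κ] (β K r : ℝ) (W : ι → ℝ) : Set (Pt ι κ) :=
  {z | (∀ j, z.1 j ∈ endDom β K (W j)) ∧ ‖z.2‖ < r}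

/-- admissible vectors of cuts: large and comparable -/
def Adm {ι : Type*} (w0 : ℝ) (W : ι → ℝ) : Prop := ∀ i, w0 ≤ W i ∧ ∀ j, W i ≤ 2 * W j

/-- unit increment of the cut of the end `j` -/
def inc {ι κ : Type*} [DecidableEq ι] (f : (ι → ℝ) → Pt ι κ → ℂ) (j : ι) (W : ι → ℝ)
    (z : Pt ι κ) : ℂ :=
  f (update W j (W j + 1)) z - f W z

/-- inner variable -/
noncomputable def sig (β w : ℝ) (a : ℂ) : ℂ := ((w + β * Real.log w : ℝ) : ℂ) - a⁻¹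

/-- the part of the hypotheses that does not see the tip -/
structure SeqData {ι κ : Type*} [Fintype ι] [Fintype κ] [DecidableEq ι]
    (f : (ι → ℝ) → Pt ι κ → ℂ) (β K r w0 C : ℝ) (B : ℕ) : Prop where
  r_pos : 0 < r
  holo : ∀ W, Adm w0 W → DifferentiableOn ℂ (f W) (dom β K r W)
  bdd : ∀ W, Adm w0 W → ∀ z ∈ dom β K r W, ‖f W z‖ ≤ C
  real : ∀ W, Adm w0 W → ∀ x, ofReal x ∈ dom β K r W → (f W (ofReal x)).im = 0
  step : ∀ W j w', W j ≤ w' → w' ≤ W j + 1 → Adm w0 W → Adm w0 (update W j w') →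
    ∀ z ∈ dom β K r (update W j w'),
      ‖f (update W j w') z - f W z‖ ≤ C * Real.exp (-W j) * W j ^ B

/-- all hypotheses of the obstruction theorem -/
structure EndData {ι κ : Type*} [Fintype ι] [Fintype κ] [DecidableEq ι]
    (f : (ι → ℝ) → Pt ι κ → ℂ) (β K r w0 C : ℝ) (B : ℕ) (b γ K' : ℝ) (S : ℂ) : Prop
    extends SeqData f β K r w0 C B where
  one_lt : 1 < γ
  margin : K + 1 < K'
  S_ne : S ≠ 0
  mixed : ∀ W i j w', i ≠ j → W i ≤ w' → w' ≤ W i + 1 → Adm w0 W → Adm w0 (update W i w') →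
    Adm w0 (update W j (W j + 1)) → Adm w0 (update (update W i w') j (W j + 1)) →
    ∀ z ∈ dom β K r (update (update W i w') j (W j + 1)),
      ‖inc f j (update W i w') z - inc f j W z‖ ≤ C * Real.exp (-W j - W i / 2) * W j ^ B
  near : ∀ W j, Adm w0 W → Adm w0 (update W j (W j + 1)) →
    ∀ z ∈ dom β K r (update W j (W j + 1)), (∀ i, i ≠ j → ‖z.1 i‖ * W i ≤ 9 / 10) →
      z.1 j ≠ 0 → ‖sig β (W j) (z.1 j)‖ ≤ W j / 2 →
      ‖inc f j W z‖ ≤ C * Real.exp (-W j) * W j ^ (-b) * (1 + ‖sig β (W j) (z.1 j)‖) ^ (-γ)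
  inner : ∀ (j : ι) (μ : ι → ℝ), (∀ i, |μ i| ≤ 1) → μ j = 1 →
    ∃ (R : ℝ → ℂ) (ρ : ℝ), 0 < ρ ∧
      ∫ η : ℝ, R η * Complex.exp (-(η * Complex.I)) = ρ * S ∧
      ∀ (W : ℕ → ι → ℝ) (z : ℕ → Pt ι κ) (η : ℝ),
        (∀ n, Adm w0 (W n) ∧ Adm w0 (update (W n) j (W n j + 1)) ∧
          z n ∈ dom β K r (update (W n) j (W n j + 1)) ∧
          (∀ i, i ≠ j → ‖(z n).1 i‖ * W n i ≤ 9 / 10) ∧ (z n).1 j ≠ 0) →
        Tendsto (fun n => W n j) atTop atTop → Tendsto z atTop (𝓝 0) →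
        (∀ i, Tendsto (fun n => (z n).1 i / (z n).1 j) atTop (𝓝 (μ i : ℂ))) →
        Tendsto (fun n => sig β (W n j) ((z n).1 j)) atTop (𝓝 (-K' + η * Complex.I)) →
        Tendsto (fun n => ((Real.exp (W n j) * W n j ^ b : ℝ) : ℂ) * inc f j (W n) (z n))
          atTop (𝓝 (R η))

/-- truncations `g N` of a real formal critical arc `a j = s ^ q * U j s + ...` -/
structure ArcData {ι κ : Type*} [Fintype ι] [Fintype κ]
    (f : (ι → ℝ) → Pt ι κ → ℂ) (q : ℕ) (U : ι → Polynomial ℝ) (g : ℕ → ℂ → Pt ι κ) : Prop where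
  one_le : 1 ≤ q
  le_one : ∀ j, |(U j).coeff 0| ≤ 1
  top : ∃ j, |(U j).coeff 0| = 1
  diff : ∀ N, Differentiable ℂ (g N)
  small : ∃ C : ℝ, ∀ᶠ N : ℕ in atTop, ∀ s : ℂ, ‖s‖ ^ q * N ≤ 4 →
    (∀ j, ‖(g N s).1 j - s ^ q * Polynomial.aeval s (U j)‖ ≤ C * ‖s‖ ^ (2 * q + 1)) ∧
      ‖(g N s).2‖ ≤ C * ‖s‖
  jet : ∀ᶠ N : ℕ in atTop, ∃ (D : ℕ) (c : ℕ → ℕ → ℂ), 11 * q * N ≤ 10 * D ∧
    (∀ n, 1 ≤ n → n ≤ D → Tendsto (fun w => c w n) atTop (𝓝 0)) ∧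
    ∀ᶠ w : ℕ in atTop, (fun s : ℂ => f (fun _ => (w : ℝ)) (g N s) -
      ∑ n ∈ Finset.range (D + 1), c w n * s ^ n) =O[𝓝 0] fun s : ℂ => s ^ (D + 1)

/-- failure of every polynomial lower bound for the gradient on real points -/
def Fails {ι κ : Type*} [Fintype ι] [Fintype κ] (f : (ι → ℝ) → Pt ι κ → ℂ) : Prop :=
  ∀ (n : ℕ) (δ : ℝ), 0 < δ → ∃ x : (ι → ℝ) × (κ → ℝ), ‖x‖ < δ ∧ x.1 ≠ 0 ∧
    ‖fderiv ℂ (f fun _ => 1 / (2 * ‖x.1‖)) (ofReal x)‖ < ‖x.1‖ ^ n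

/-- analytic truncations in `a` -/
def HasTrunc {ι κ : Type*} [Fintype ι] [Fintype κ] (f : (ι → ℝ) → Pt ι κ → ℂ) (F0 : ℝ) : Prop :=
  ∀ M : ℕ, ∃ G : (ι → ℝ) × (κ → ℝ) → ℝ, AnalyticAt ℝ G 0 ∧ G 0 = F0 ∧
    ∃ C δ w1 : ℝ, 0 < δ ∧ ∀ w, w1 ≤ w → ∀ x : (ι → ℝ) × (κ → ℝ), ‖x‖ < δ → ‖x.1‖ * w ≤ 1 / 2 →
      ‖f (fun _ => w) (ofReal x) - G x‖ ≤ C * (Real.exp (-w / 2) + ‖x.1‖ ^ M) ∧
      ‖fderiv ℝ G x‖ ≤ C * (‖fderiv ℂ (f fun _ => w) (ofReal x)‖ + Real.exp (-w / 2) + ‖x.1‖ ^ M)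

/-- the output: slaving of `a` and the gradient inequality, up to exponentially small errors -/
def LojOut {ι κ : Type*} [Fintype ι] [Fintype κ] (f : (ι → ℝ) → Pt ι κ → ℂ) : Prop :=
  ∃ (F0 θ : ℝ) (n : ℕ) (C δ w1 : ℝ), 1 / 2 ≤ θ ∧ θ < 1 ∧ 0 < C ∧ 0 < δ ∧
    Tendsto (fun w : ℝ => f (fun _ => w) 0) atTop (𝓝 (F0 : ℂ)) ∧
    ∀ w, w1 ≤ w → ∀ x : (ι → ℝ) × (κ → ℝ), ‖x‖ < δ → ‖x.1‖ * w ≤ 1 / 2 →
      ‖x.1‖ ^ n ≤ C * (‖fderiv ℂ (f fun _ => w) (ofReal x)‖ + Real.exp (-w / 4)) ∧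
      ‖f (fun _ => w) (ofReal x) - F0‖ ^ θ ≤
        C * (‖fderiv ℂ (f fun _ => w) (ofReal x)‖ + Real.exp (-w / 4))

end Vale.Agent.P218SQ
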