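import Vale.Agent.P218CH.Chart
import Vale.Agent.P218CO.Sys
import Vale.Agent.P218HB.Defs

/-! The canonical parameter: input and output for the core system. -/

open Set Filter Topology Metric MeasureTheory

namespace Vale.Agent.P218SQ.D7

open P218CH P218HB P218VA P218MP P272.K.LIN
open P218CO hiding Adm

variable {ι : Type} [Fintype ι]

/-- the tip functions of all ends -/
def gv (G : ℝ → ℂ → ℂ) (W : ι → ℝ) (α : ι → ℂ) : ι → ℂ := fun j => G (W j) (α j)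

/-- the error -/
noncomputable def er (W : ι → ℝ) : ℝ := ∑ i, W i ^ (-(2 + 1 / 8) : ℝ)

variable {σ M β ν : Type} [TopologicalSpace M] [ChartedSpace E2 M] [Fintype σ] [Fintype β]
  [Fintype ν] {𝒞 : Cov E2 M}

/-- closeness of collar data -/
def Cl (s : ℝ) (μ μ' : σ → ℝ × ℝ → ℂ) (n n' : ν → ℂ) (η : ℝ) : Prop :=
  (∀ j (p : ℝ × ℝ), p.1 ∈ Ioo s (s + 9) → ‖pj (μ j) p - pj (μ' j) p‖ ≤ η) ∧ ‖n - n'‖ ≤ η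

/-- real collar data -/
def Rl (s : ℝ) (μ : σ → ℝ × ℝ → ℂ) (n : ν → ℂ) : Prop :=
  star n = n ∧ ∀ j (p : ℝ × ℝ), p.1 ∈ Ioo s (s + 9) → (μ j p).im = 0

/-- holomorphic families of collar data -/
structure HolFam (s δ : ℝ) (Ω : Set (ι → ℂ)) (O' : (ι → ℂ) → VC 𝒞 → σ → ℝ × ℝ → ℂ)
    (m' : (ι → ℂ) → VC 𝒞 → ν → ℂ) : Prop where
  col : ∀ a ∈ Ω, ∀ v ∈ ball (0 : VC 𝒞) δ, ∀ j, Col s (O' a v j)
  hol : ∀ j (p : ℝ × ℝ), p.1 ∈ Ioo s (s + 9) →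
    DifferentiableOn ℂ (fun q : (ι → ℂ) × VC 𝒞 => (pj (O' q.1 q.2 j) p).1) (Ω ×ˢ ball 0 δ)
  holm : DifferentiableOn ℂ (fun q : (ι → ℂ) × VC 𝒞 => m' q.1 q.2) (Ω ×ˢ ball 0 δ)
  real : ∀ a ∈ Ω, (∀ i, (a i).im = 0) → ∀ v ∈ ball (0 : VC 𝒞) δ, v.im = 0 → Rl s (O' a v) (m' a v)

/-- The collar data `OW W α` of the ends cut at `W`, and their canonical approximation `Ob g`. -/
structure Fams (c : CoreOp σ β M) (s δ : ℝ) (bd : σ → ℝ → (ν → ℂ) →L[ℂ] ℂ)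
    (O : VC 𝒞 → σ → ℝ × ℝ → ℂ) (m : VC 𝒞 → ν → ℂ) (G : ℝ → ℂ → ℂ) (K w0 : ℝ)
    (OW : (ι → ℝ) → (ι → ℂ) → VC 𝒞 → σ → ℝ × ℝ → ℂ) (mW : (ι → ℝ) → (ι → ℂ) → VC 𝒞 → ν → ℂ)
    (Ob : (ι → ℂ) → VC 𝒞 → σ → ℝ × ℝ → ℂ) (mb : (ι → ℂ) → VC 𝒞 → ν → ℂ) : Prop where
  holW : ∀ W, Adm w0 W → HolFam s δ (DD W K) (OW W) (mW W)
  holb : HolFam s δ (ball 0 1) Ob mb
  base : ∃ C : ℝ, ∀ g ∈ ball (0 : ι → ℂ) 1, ∀ v ∈ ball (0 : VC 𝒞) δ,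
    Cl s (Ob g v) (O v) (mb g v) (m v) (C * ‖g‖)
  close : ∃ C : ℝ, ∀ W, Adm w0 W → ∀ α ∈ DD W K, ∀ v ∈ ball (0 : VC 𝒞) δ,
    Cl s (OW W α v) (Ob (gv G W α) v) (mW W α v) (mb (gv G W α) v) (C * er W)
  lip : ∀ W, Adm w0 W → ∃ L : ℝ, ∀ᶠ W' in 𝓝 W, Adm w0 W' → ∀ α ∈ DD W K, α ∈ DD W' K →
    ∀ v ∈ ball (0 : VC 𝒞) δ, Cl s (OW W' α v) (OW W α v) (mW W' α v) (mW W α v) (L * ‖W' - W‖)
  lin : ∀ g : ι → ℝ, ∃ (y : σ → ℝ × ℝ → ℝ) (m₁ : ν → ℝ),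
    (∀ j, LinEnd (c.op j) s 0 fun p => (y j p : ℂ)) ∧
    (∀ j θ, (y j (s, θ) : ℂ) = bd j θ fun i => (m₁ i : ℂ)) ∧
    (∀ j (p : ℝ × ℝ), p.1 ∈ Ioo s (s + 9) → HasDerivAt
      (fun t : ℂ => (pj (Ob (t • fun i => (g i : ℂ)) 0 j) p).1) (pj (fun q => (y j q : ℂ)) p).1 0) ∧
    HasDerivAt (fun t : ℂ => mb (t • fun i => (g i : ℂ)) 0) (fun i => (m₁ i : ℂ)) 0 ∧
    (∃ C L : ℝ, ∀ j (p : ℝ × ℝ), L ≤ p.1 → |y j p| ≤ C * p.1) ∧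
    ((∃ C L : ℝ, ∀ j (p : ℝ × ℝ), L ≤ p.1 → |y j p| ≤ C * p.1 ^ (1 / 2 : ℝ)) → g = 0)

/-- solutions of the linearised problem with vanishing moments grow at most like `√w` -/
def Sep [MeasurableSpace M] (c : CoreOp σ β M) (μ0 : Measure M) {Λ : Type} [Fintype Λ]
    (e : Λ → M → ℝ) : Prop :=
  ∀ (U : M → ℝ) (B : β → ℝ) (l : Λ → ℝ), c.LinSol U B (fun x => ∑ k, l k * e k x) →
    c.𝓔.Gr 1 U → (∀ k, ∫ x, e k x * U x ∂μ0 = 0) → c.𝓔.Gr (1 / 2) U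

variable {τ X : Type} [Fintype τ] [NormedAddCommGroup X] [NormedSpace ℂ X]

/-- The profile parameters `al W z` and the solutions `x W z` in the canonical parameter `z`. -/
structure Red (G : ℝ → ℂ → ℂ) (K ρ : ℝ) (c : Cst) (al : (ι → ℝ) → Pt ι τ → ι → ℂ)
    (x : (ι → ℝ) → Pt ι τ → X) (xb : Pt ι τ → X) : Prop where
  K_eq : c.K = 5 * K
  k_eq : c.k = 1 / 8
  r_le : c.r ≤ ρ
  sub : ∀ (W : ι → ℝ) (z : Pt ι τ), c.Ok W z → ‖z‖ < c.r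
  mem : ∀ W z, c.Ok W z → al W z ∈ DD W (3 * K) ∧ ‖x W z‖ < ρ
  g_lt : ∀ W : ι → ℝ, Adm c.w1 W → ∀ α ∈ DD W K, ‖gv G W α‖ < c.r
  memb : ∀ z ∈ ball (0 : Pt ι τ) c.r, ‖xb z‖ < ρ
  holo : ∀ W, Adm c.w1 W → DifferentiableOn ℂ (al W) (c.dom W)
  tip : ∃ C : ℝ, ∀ W z, c.Ok W z → ‖z.1 - gv G W (al W z)‖ ≤ C * er W
  lp : Lp c univ fun W z (_ : Unit) => al W z
  real : ∀ W y, c.Ok W (ofReal y) → ∀ i, (al W (ofReal y) i).im = 0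
  hb : HB c univ (fun W z (_ : Unit) => x W z) fun z _ => xb z
  close : ∃ C : ℝ, ∀ W z, c.Ok W z → ‖x W z - xb z‖ ≤ C * er W
  lpx : Lp c univ fun W z (_ : Unit) => x W z

/-- `HW W (α, x) y` is approximated by `Hb (g, x) y`, uniformly for `y ∈ U` -/
structure App (G : ℝ → ℂ → ℂ) (K R w0 : ℝ) {D E : Type} [NormedAddCommGroup E] [NormedSpace ℂ E]
    (U : Set D) (HW : (ι → ℝ) → (ι → ℂ) × X → D → E) (Hb : (ι → ℂ) × X → D → E) : Prop where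
  holo : ∀ W, Adm w0 W → ∀ y ∈ U, DifferentiableOn ℂ (fun q => HW W q y) (DD W K ×ˢ ball 0 R)
  holob : ∀ y ∈ U, DifferentiableOn ℂ (fun q => Hb q y) (ball 0 R)
  bdd : ∃ C : ℝ, ∀ q ∈ ball (0 : (ι → ℂ) × X) R, ∀ y ∈ U, ‖Hb q y‖ ≤ C
  close : ∃ C : ℝ, ∀ W, Adm w0 W → ∀ q ∈ DD W K ×ˢ ball (0 : X) R, ∀ y ∈ U,
    ‖HW W q y - Hb (gv G W q.1, q.2) y‖ ≤ C * er W

/-- `HW W q y` is locally Lipschitz in `W`, uniformly in `q` and `y ∈ U` -/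
def LpA (K R w0 : ℝ) {D E : Type} [NormedAddCommGroup E] (U : Set D)
    (HW : (ι → ℝ) → (ι → ℂ) × X → D → E) : Prop :=
  ∀ W, Adm w0 W → ∃ L : ℝ, ∀ᶠ W' in 𝓝 W, Adm w0 W' → ∀ q ∈ DD W K ×ˢ ball (0 : X) R,
    q.1 ∈ DD W' K → ∀ y ∈ U, ‖HW W' q y - HW W q y‖ ≤ L * ‖W' - W‖

end Vale.Agent.P218SQ.D7
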