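import Vale.Agent.P218SQ.D7e
import Vale.Agent.P218CJ.Fam
import Vale.Agent.P218CL.Lin

/-! The canonical parameter for the solutions of the core system. -/

open Set Filter Topology Metric MeasureTheory

namespace Vale.Agent.P218SQ.D7

open P218CH P218HB P218VA P218MP P272.K.LIN
open P218CO hiding Adm

set_option linter.unusedSectionVars false

variable {ι τ σ M β ν Λ : Type} [Fintype ι] [Fintype τ] [TopologicalSpace M] [ChartedSpace E2 M]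
  [Fintype σ] [Fintype β] [Fintype ν] [Fintype Λ] {𝒞 : Cov E2 M} [MeasurableSpace M]
  [BorelSpace M] [CompactSpace M] {c : CoreOp σ β M} {s δ r : ℝ} {μ0 : Measure M}
  {bd : σ → ℝ → (ν → ℂ) →L[ℂ] ℂ} {O : VC 𝒞 → σ → ℝ × ℝ → ℂ} {m : VC 𝒞 → ν → ℂ}

theorem Cl.mono {μ μ' : σ → ℝ × ℝ → ℂ} {n n' : ν → ℂ} {η η' : ℝ} (h : Cl s μ μ' n n' η)
    (h' : η ≤ η') : Cl s μ μ' n n' η' := ⟨fun j p hp => (h.1 j p hp).trans h', h.2.trans h'⟩

theorem Cl.trans {μ μ' μ'' : σ → ℝ × ℝ → ℂ} {n n' n'' : ν → ℂ} {η η' : ℝ} (h : Cl s μ μ' n n' η)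
    (h' : Cl s μ' μ'' n' n'' η') : Cl s μ μ'' n n'' (η + η') :=
  ⟨fun j p hp => (norm_sub_le_norm_sub_add_norm_sub _ _ _).trans
    (add_le_add (h.1 j p hp) (h'.1 j p hp)),
    (norm_sub_le_norm_sub_add_norm_sub _ _ _).trans (add_le_add h.2 h'.2)⟩

section
variable {Ω : Set (ι → ℂ)} {O' : (ι → ℂ) → VC 𝒞 → σ → ℝ × ℝ → ℂ} {m' : (ι → ℂ) → VC 𝒞 → ν → ℂ}
  {ε : ℝ}

theorem HolFam.adm (h : HolFam s δ Ω O' m') {a : ι → ℂ} (ha : a ∈ Ω)
    (hc : ∀ v ∈ ball (0 : VC 𝒞) δ, Cl s (O' a v) (O v) (m' a v) (m v) ε) :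
    P218CO.Adm s δ ε O m (O' a) (m' a) :=
  ⟨h.col a ha, fun j p hp => (h.hol j p hp).comp ((differentiableOn_const a).prodMk
      differentiableOn_id) fun _ hv => ⟨ha, hv⟩,
    h.holm.comp ((differentiableOn_const a).prodMk differentiableOn_id) fun _ hv => ⟨ha, hv⟩,
    fun v hv => (hc v hv).1, fun v hv => (hc v hv).2⟩

theorem HolFam.admFam {P : Type} [NormedAddCommGroup P] [NormedSpace ℂ P] (h : HolFam s δ Ω O' m')
    {T : Set P} (hT : IsOpen T) {a : P → ι → ℂ} {z : P → τ → ℂ} (ha : Differentiable ℂ a)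
    (hz : Differentiable ℂ z) (h1 : ∀ t ∈ T, a t ∈ Ω ∧ ‖z t‖ ≤ ε ∧
      P218CO.Adm s δ ε O m (O' (a t)) (m' (a t))) :
    AdmFam s δ ε O m T (fun t => O' (a t)) (fun t => m' (a t)) z :=
  have d : DifferentiableOn ℂ (fun q : P × VC 𝒞 => (a q.1, q.2)) (T ×ˢ ball 0 δ) :=
    ((ha.comp differentiable_fst).prodMk differentiable_snd).differentiableOn
  ⟨hT, fun t ht => (h1 t ht).2.2, fun t ht => (h1 t ht).2.1,
    fun j p hp => (h.hol j p hp).comp d fun _ hq => ⟨(h1 _ hq.1).1, hq.2⟩,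
    h.holm.comp d fun _ hq => ⟨(h1 _ hq.1).1, hq.2⟩, hz.differentiableOn⟩

end

theorem sol_sub_le {e : Λ → M → ℝ} {e' : τ → M → ℝ} (S : Solver c s μ0 e e' δ bd O m)
    {O1 O2 : VC 𝒞 → σ → ℝ × ℝ → ℂ} {m1 m2 : VC 𝒞 → ν → ℂ} (h1 : P218CO.Adm s δ S.ε O m O1 m1)
    (h2 : P218CO.Adm s δ S.ε O m O2 m2) {z : τ → ℂ} (hz : ‖z‖ ≤ S.ε) {η : ℝ}
    (h : ∀ v ∈ ball (0 : VC 𝒞) δ, Cl s (O1 v) (O2 v) (m1 v) (m2 v) η) :
    ‖S.sol O1 m1 z - S.sol O2 m2 z‖ ≤ S.C * 2 * η := by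
  obtain ⟨a1, a2, a3, a4⟩ := S.spec O1 m1 z h1 hz
  have a5 : (S.sol O1 m1 z).1 ∈ ball (0 : VC 𝒞) δ := mem_ball_zero_iff.2
    (((norm_fst_le _).trans_lt (mem_ball_zero_iff.1 a1)).trans_le S.ρ_le)
  obtain ⟨b1, b2⟩ := h _ a5
  rw [a3, zero_sub, norm_neg] at b2
  have := S.cmp O2 m2 z h2 hz _ a1 _ (h1.col _ a5) a2 η ((norm_nonneg _).trans b2) b1
  rw [a4, sub_self, norm_zero, norm_sub_rev] at this
  nlinarith [S.C_nonneg]

variable {G : ℝ → ℂ → ℂ} {K w0 : ℝ} {OW : (ι → ℝ) → (ι → ℂ) → VC 𝒞 → σ → ℝ × ℝ → ℂ}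
  {mW : (ι → ℝ) → (ι → ℂ) → VC 𝒞 → ν → ℂ} {Ob : (ι → ℂ) → VC 𝒞 → σ → ℝ × ℝ → ℂ}
  {mb : (ι → ℂ) → VC 𝒞 → ν → ℂ} {e : τ ⊕ ι → M → ℝ}

theorem gr_glue (hc : c.Good s) (B : c.BaseFam s δ r bd O m) (v : VR 𝒞) {y : σ → ℝ × ℝ → ℝ}
    (hy : ∀ j, Per fun p => (y j p : ℂ)) (j : σ) {p : ℝ × ℝ} (hp : s + 6 ≤ p.1) :
    |c.𝓔.glue s (fnR v) (fun j p => dO O v j p + y j p) (c.𝓔.Y j p) - y j p| ≤ r / δ * ‖v‖ := by
  have h1 : Per fun p => dO O v j p + y j p := fun a θ => by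
    simp only [B.per_dO v j a θ, Complex.ofReal_injective (hy j a θ)]
  rw [Ends.glue_Y h1 (by linarith [hc.lev]), st_one (by linarith), st_one (by linarith)]
  simpa using B.abs_dO_le v j (p := p) (by linarith)

theorem lin_nd (h : Setup c s μ0 e (fun i => e (.inl i)) δ r bd O m)
    (S : Solver c s μ0 e (fun i => e (.inl i)) δ bd O m)
    (F : Fams c s δ bd O m G K w0 OW mW Ob mb) (hs : Sep c μ0 e) {R : ℝ} (hR : 0 < R) (h1 : R ≤ 1)
    (ab : ∀ g ∈ ball (0 : ι → ℂ) R, P218CO.Adm s δ S.ε O m (Ob g) (mb g)) (g : ι → ℝ) :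
    ∃ (v : VR 𝒞) (d : (β → ℂ) × (τ ⊕ ι → ℂ)), HasDerivAt (fun t : ℂ =>
      S.sol (Ob (t • fun i => (g i : ℂ))) (mb (t • fun i => (g i : ℂ))) 0) (Cx.ofR v, d) 0 ∧
      ((∀ i, ∫ x, e (.inr i) x * fnR v x ∂μ0 = 0) → g = 0) := by
  obtain ⟨y, m₁, a1, a2, a3, a4, ⟨C, L, a5⟩, a6⟩ := F.lin g
  obtain ⟨C0, h0⟩ := F.base
  have hd : Differentiable ℂ fun t : ℂ => t • fun i => (g i : ℂ) := by fun_prop
  obtain ⟨v, B, l, b1, b2, b3, -⟩ := S.lin _ _ _ (fun _ => 0)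
    (F.holb.admFam (isOpen_ball.preimage hd.continuous) hd (differentiable_const _) fun t ht =>
      ⟨ball_subset_ball h1 ht, by simpa using S.ε_pos.le, ab _ ht⟩) (by simpa using hR)
    (F.holb.adm (by simp) fun v hv => (h0 _ (by simp) v hv).mono (by simp)) rfl y m₁ 0 a1 a2 a3 a4
    (hasDerivAt_const _ _ |>.congr_deriv (by funext i; simp))
  refine ⟨v, _, b1, fun hv => a6 ?_⟩
  have gl := fun j p => gr_glue h.good h.fam v (fun j => (a1 j).per) j (p := p)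
  obtain ⟨C', L', c1⟩ := hs _ B l b2 ⟨C + |r / δ * ‖v‖|, max (max L 1) (s + 6), fun j p hp => by
    simp only [max_le_iff] at hp
    rw [Real.rpow_one]
    nlinarith [gl j p hp.2, a5 j p hp.1.1, le_abs_self (r / δ * ‖v‖), abs_nonneg (r / δ * ‖v‖),
      abs_sub_abs_le_abs_sub (c.𝓔.glue s (fnR v) (fun j p => dO O v j p + y j p) (c.𝓔.Y j p))
        (y j p)]⟩ fun k => by
    rw [show (fun x => e k x * c.𝓔.glue s (fnR v) (fun j p => dO O v j p + y j p) x) =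
      fun x => e k x * fnR v x from funext fun x => ?_]
    · rcases k with i | i
      exacts [b3 i, hv i]
    · by_cases hx : x ∈ c.𝓔.below (s + 2)
      · rw [Ends.glue_below (Ends.below_mono (by linarith) hx)]
      · simp [(h.src k).2 x hx]
  refine ⟨C' + |r / δ * ‖v‖|, max (max L' 1) (s + 6), fun j p hp => ?_⟩
  simp only [max_le_iff] at hp
  have := gl j p hp.2
  rw [abs_sub_comm] at this
  nlinarith [c1 j p hp.1.1, le_abs_self (r / δ * ‖v‖), abs_nonneg (r / δ * ‖v‖),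
    Real.one_le_rpow hp.1.2 (z := 1 / 2) (by norm_num), abs_sub_abs_le_abs_sub (y j p)
      (c.𝓔.glue s (fnR v) (fun j p => dO O v j p + y j p) (c.𝓔.Y j p))]

theorem ev_gv (hK : 2020 ≤ K) (hG : ∀ W, 0 < W → ∀ α ∈ D W K, ‖G W α - g0 W α‖ ≤ 100 / W ^ 2)
    {ε : ℝ} (hε : 0 < ε) : ∀ᶠ w : ℝ in atTop, ∀ W : ι → ℝ, Adm w W → (∀ j, 0 < W j) ∧
      ∀ α ∈ DD W K, gv G W α ∈ ball (0 : ι → ℂ) ε := by
  filter_upwards [ev_big K hε] with w h W hW
  refine ⟨fun j => (h _ (hW j).1).1.pos, fun α hα => mem_ball_zero_iff.2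
    ((pi_norm_lt_iff hε).2 fun j => ?_)⟩
  obtain ⟨d1, d2, d3⟩ := h _ (hW j).1
  have d6 : 100 / W j ^ 2 ≤ 2 / W j := by
    rw [div_le_div_iff₀ (by positivity) d1.pos]; nlinarith [d1.1]
  have d7 : 10 / W j = 8 / W j + 2 / W j := by ring
  rw [gv]
  linarith [norm_le_insert' (G (W j) (α j)) (g0 (W j) (α j)), hG _ d1.pos _ (hα j),
    d1.norm_g0_le (by linarith) (by linarith) (hα j)]

/-- The solutions of the core system in the canonical parameter. -/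
structure Out (S : Solver c s μ0 e (fun i => e (.inl i)) δ bd O m) (G : ℝ → ℂ → ℂ) (K ρ : ℝ)
    (OW : (ι → ℝ) → (ι → ℂ) → VC 𝒞 → σ → ℝ × ℝ → ℂ) (mW : (ι → ℝ) → (ι → ℂ) → VC 𝒞 → ν → ℂ)
    (cs : Cst) (al : (ι → ℝ) → Pt ι τ → ι → ℂ) (x : (ι → ℝ) → Pt ι τ → XX 𝒞 β (τ ⊕ ι))
    (xb : Pt ι τ → XX 𝒞 β (τ ⊕ ι)) (mo : Pt ι τ → τ ⊕ ι → ℂ) : Prop where
  red : Red G K ρ cs al x xb
  small : ∀ W z, cs.Ok W z → x W z ∈ ball (0 : XX 𝒞 β (τ ⊕ ι)) S.ρ
  sys : ∀ W z, cs.Ok W z → ∀ y, c.sysFun s e (fnC (x W z).1) (x W z).2.1 (x W z).2.2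
    (OW W (al W z) (x W z).1) y = 0
  bdry : ∀ W z, cs.Ok W z → mW W (al W z) (x W z).1 = 0
  zero : xb 0 = 0
  pin : ∀ W z, cs.Ok W z → mom μ0 e (fnC (x W z).1) = mo z
  mo_holo : DifferentiableOn ℂ mo (ball 0 cs.r)
  mo_inj : Function.Injective (fderiv ℂ mo 0)
  real : ∀ W y, cs.Ok W (ofReal y) →
    (x W (ofReal y)).1.im = 0 ∧ star (x W (ofReal y)).2 = (x W (ofReal y)).2

/-- **The canonical parameter for the core system.** -/
theorem exists_red [T2Space M] [RSm E2 M] (h : Setup c s μ0 e (fun i => e (.inl i)) δ r bd O m)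
    (S : Solver c s μ0 e (fun i => e (.inl i)) δ bd O m)
    (F : Fams c s δ bd O m G K w0 OW mW Ob mb) (hs : Sep c μ0 e) (hK : 2020 ≤ K)
    (hG : ∀ W, 0 < W → ∀ α ∈ D W K, ‖G W α - g0 W α‖ ≤ 100 / W ^ 2) {ρ : ℝ} (hρ : 0 < ρ)
    (w : ℝ) : ∃ cs al x xb mo, w ≤ cs.w1 ∧ w0 ≤ cs.w1 ∧ Out S G K ρ OW mW cs al x xb mo := by
  have := h.fin
  obtain ⟨Cb, hb⟩ := F.base
  obtain ⟨Cc, hc⟩ := F.close
  have hε := S.ε_pos
  obtain ⟨R, hR, r1, r2, r3⟩ : ∃ R > 0, R ≤ 1 ∧ R ≤ S.ε ∧ |Cb| * R ≤ S.ε / 2 :=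
    ⟨min (min 1 S.ε) (S.ε / 2 / (|Cb| + 1)), by positivity, (min_le_left _ _).trans
      (min_le_left _ _), (min_le_left _ _).trans (min_le_right _ _), by
      have := (le_div_iff₀ (by positivity)).1 (min_le_right (min 1 S.ε) (S.ε / 2 / (|Cb| + 1)))
      nlinarith [show 0 < min (min 1 S.ε) (S.ε / 2 / (|Cb| + 1)) by positivity]⟩
  have s1 : ball (0 : ι → ℂ) R ⊆ ball 0 1 := ball_subset_ball r1
  have sz : ∀ z ∈ ball (0 : τ → ℂ) R, ‖z‖ ≤ S.ε := fun z hz => (mem_ball_zero_iff.1 hz).le.trans r2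
  have cb : ∀ g ∈ ball (0 : ι → ℂ) R, ∀ v ∈ ball (0 : VC 𝒞) δ,
      Cl s (Ob g v) (O v) (mb g v) (m v) (S.ε / 2) := fun g hg v hv => (hb g (s1 hg) v hv).mono
    ((mul_le_mul (le_abs_self _) (mem_ball_zero_iff.1 hg).le (norm_nonneg _)
      (abs_nonneg _)).trans r3)
  have ab : ∀ g ∈ ball (0 : ι → ℂ) R, P218CO.Adm s δ S.ε O m (Ob g) (mb g) := fun g hg =>
    F.holb.adm (s1 hg) fun v hv => (cb g hg v hv).mono (half_le_self hε.le)
  obtain ⟨w1, c0, c1, c2, c3⟩ := ((eventually_ge_atTop w).and ((eventually_ge_atTop w0).and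
    ((ev_gv (ι := ι) hK hG hR).and (ev_er (ι := ι) Cc (half_pos hε))))).exists
  have aW : ∀ W, Adm w1 W → ∀ α ∈ DD W K, P218CO.Adm s δ S.ε O m (OW W α) (mW W α) :=
    fun W hW α hα => (F.holW W (adm_mono hW c1)).adm hα fun v hv =>
      ((hc W (adm_mono hW c1) α hα v hv).trans (cb _ ((c2 W hW).2 α hα) v hv)).mono
        (by linarith [(c3 W hW).1])
  let xW : (ι → ℝ) → Pt ι τ → XX 𝒞 β (τ ⊕ ι) := fun W q => S.sol (OW W q.1) (mW W q.1) q.2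
  let xb : Pt ι τ → XX 𝒞 β (τ ⊕ ι) := fun q => S.sol (Ob q.1) (mb q.1) q.2
  have pb : ∀ q ∈ ball (0 : Pt ι τ) R, q.1 ∈ ball (0 : ι → ℂ) R ∧ q.2 ∈ ball (0 : τ → ℂ) R :=
    fun q hq => by simpa using mem_ball_pair.1 hq
  have hxb : DifferentiableOn ℂ xb (ball 0 R) := S.hol _ _ _ _ (F.holb.admFam isOpen_ball
    differentiable_fst differentiable_snd fun q hq =>
      ⟨s1 (pb q hq).1, sz _ (pb q hq).2, ab _ (pb q hq).1⟩)
  have hd := (hxb.differentiableAt (ball_mem_nhds _ hR)).hasFDerivAt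
  have z0 : xb 0 = 0 := by
    have d := hb 0 (by simp) 0 (mem_ball_self h.fam.pos)
    have := S.cmp _ _ 0 (ab 0 (mem_ball_self hR)) (by simpa using hε.le) 0 (mem_ball_self S.ρ_pos) _
      ((ab 0 (mem_ball_self hR)).col 0 (mem_ball_self h.fam.pos)) (fun y => P218CL.sysJ_zero h.good
        (fun j p hp => by
          have := d.1 j p hp
          rw [h.fam.pj_zero j hp.1] at this
          rw [show pj (Ob 0 0 j) p = 0 by simpa using this]; rfl) y) 0 le_rfl fun _ _ _ => by simp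
    have d2 := d.2
    rw [h.fam.mzero] at d2
    rw [Prod.fst_zero, show mb 0 0 = 0 by simpa using d2, fnC_zero,
      show mom μ0 (fun i => e (.inl i)) (fun _ => 0) = 0 from funext fun i => by simp [mom]] at this
    simpa [xb] using this
  obtain ⟨P, hP, hP'⟩ := P218CL.exists_momL μ0 (fun k => ckFn_continuous (h.src k).1) 𝒞
  let p : XX 𝒞 β (τ ⊕ ι) →L[ℂ] ι → ℂ := (ContinuousLinearMap.pi fun i =>
    (ContinuousLinearMap.proj (.inr i)).comp P).comp (.fst ℂ _ _)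
  have key : ∀ g : ι → ℝ, ∃ t : ι → ℝ, (∀ i, p (fderiv ℂ xb 0 (fun i => g i, 0)) i = t i) ∧
      (t = 0 → g = 0) := fun g => by
    obtain ⟨v, d, a1, a2⟩ := lin_nd h S F hs hR r1 ab g
    have a3 := P218CL.comp_zero hd (P218CL.hasDerivAt_ray ((fun i => (g i : ℂ)), (0 : τ → ℂ)))
      (zero_smul _ _)
    simp only [xb, Prod.smul_mk, smul_zero] at a3
    refine ⟨_, fun i => ?_, fun ht => a2 (congrFun ht)⟩
    rw [a3.unique a1]
    simpa [p] using hP' (Cx.ofR v) (.inr i)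
  have nd : ∀ g, p (fderiv ℂ xb 0 (g, 0)) = 0 → g = 0 := fun g hg => by
    obtain ⟨t, a1, a2⟩ := key fun i => (g i).re
    obtain ⟨u, b1, b2⟩ := key fun i => (g i).im
    have d1 : ((g, 0) : Pt ι τ) = (fun i => ((g i).re : ℂ), 0) +
        Complex.I • (fun i => ((g i).im : ℂ), 0) := by
      ext i
      · apply Complex.ext <;> simp
      · simp
    have d2 : ∀ i, t i = 0 ∧ u i = 0 := fun i => by
      have := congrFun hg i
      rw [d1, map_add, map_smul, map_add, map_smul, Pi.add_apply, Pi.smul_apply, a1, b1] at this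
      simpa [Complex.ext_iff] using this
    exact funext fun i => Complex.ext (congrFun (a2 (funext fun i => (d2 i).1)) i)
      (congrFun (b2 (funext fun i => (d2 i).2)) i)
  have st : ∀ z : Pt ι τ, IsRe z → star z.2 = z.2 := fun z hz =>
    funext fun k => Complex.conj_eq_iff_im.2 (hz.2 k)
  have pr : ∀ x : XX 𝒞 β (τ ⊕ ι), x.1.im = 0 → ∀ j, (p x j).im = 0 := fun x hx j => by
    have := hP' x.1 (.inr j)
    rw [hx] at this
    simpa [p] using congrArg Complex.im this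
  have rW : ∀ W, Adm w1 W → ∀ q ∈ DD W K ×ˢ ball (0 : τ → ℂ) R, IsRe q →
      (xW W q).1.im = 0 ∧ star (xW W q).2 = (xW W q).2 := fun W hW q hq hr =>
    S.real _ _ _ (aW W hW _ hq.1) (sz _ hq.2) (st q hr)
      ((F.holW W (adm_mono hW c1)).real _ hq.1 hr.1)
  obtain ⟨cs, al, e1, e2, e3, e4⟩ := App.red (G := G) (K := K) (R := R) (w0 := w1) (xW := xW)
    (xb := xb) ⟨fun W hW _ _ => S.hol _ _ _ _ ((F.holW W (adm_mono hW c1)).admFam
      ((isOpen_DD (c2 W hW).1 K).prod isOpen_ball) differentiable_fst differentiable_snd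
        fun q hq => ⟨hq.1, sz _ hq.2, aW W hW _ hq.1⟩), fun _ _ => hxb,
      ⟨S.ρ, fun q hq _ _ => (mem_ball_zero_iff.1
        (S.spec _ _ _ (ab _ (pb q hq).1) (sz _ (pb q hq).2)).1).le⟩,
      ⟨S.C * 2 * Cc, fun W hW q hq _ _ => (sol_sub_le S (aW W hW _ hq.1)
        (ab _ ((c2 W hW).2 _ hq.1)) (sz _ hq.2) (hc W (adm_mono hW c1) _ hq.1)).trans_eq
          (mul_assoc _ _ _).symm⟩⟩
    (fun W hW => (F.lip W (adm_mono hW c1)).imp' (fun L => S.C * 2 * L) fun L hL =>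
      hL.mono fun W' a hW' q hq hq' _ _ => (sol_sub_le S (aW W' hW' _ hq') (aW W hW _ hq.1)
        (sz _ hq.2) (a (adm_mono hW' c1) _ hq.1 hq')).trans_eq (mul_assoc _ _ _).symm)
    hR hK hG z0 p nd (fun W hW q hq hr => pr _ (rW W hW q hq hr).1)
    (fun q hq hr => pr _ (S.real _ _ _ (ab _ (pb q hq).1) (sz _ (pb q hq).2) (st q hr)
      (F.holb.real _ (s1 (pb q hq).1) hr.1)).1) hρ
  have hr : cs.r ≤ R := by linarith [cs.r_pos]
  have mq : ∀ W z, cs.Ok W z → (al W z, z.2) ∈ DD W K ×ˢ ball (0 : τ → ℂ) R := fun W z hz =>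
    ⟨DD_anti (c2 W (adm_mono hz.1 e1)).1 (by linarith) (e3.mem W z hz).1,
      mem_ball_zero_iff.2 (((norm_snd_le z).trans_lt (e3.sub W z hz)).trans_le hr)⟩
  have sp := fun W z (hz : cs.Ok W z) =>
    S.spec _ _ _ (aW W (adm_mono hz.1 e1) _ (mq W z hz).1) (sz _ (mq W z hz).2)
  have mi : ∀ z ∈ ball (0 : Pt ι τ) R, ∀ i, P (xb z).1 (.inl i) = z.2 i := fun z hz i =>
    (congrFun (hP _) _).symm.trans
      (congrFun (S.spec _ _ _ (ab _ (pb z hz).1) (sz _ (pb z hz).2)).2.2.2 i)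
  have dm := (P.comp (.fst ℂ _ _)).hasFDerivAt.comp 0 hd
  refine ⟨cs, al, _, xb, fun z => P (xb z).1, c0.trans e1, c1.trans e1, e3,
    fun W z hz => (sp W z hz).1, fun W z hz => (sp W z hz).2.1, fun W z hz => (sp W z hz).2.2.1, z0,
    fun W z hz => funext fun k => ?_, P.differentiable.comp_differentiableOn
      (hxb.mono (ball_subset_ball hr)).fst, (injective_iff_map_eq_zero _).2 fun z hz => ?_,
    fun W y hy => rW W (adm_mono hy.1 e1) _ (mq W _ hy) ⟨e3.real W y hy, (isRe_ofReal y).2⟩⟩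
  · rcases k with i | i
    · exact (congrFun (sp W z hz).2.2.2 i).trans
        (mi z (mem_ball_zero_iff.2 ((e3.sub W z hz).trans_le hr)) i).symm
    · exact (congrFun (hP _) _).trans (congrFun (e4 W z hz) i)
  · rw [show fderiv ℂ (fun z => P (xb z).1) 0 = _ from dm.fderiv] at hz
    have d1 : z.2 = 0 := funext fun i => by
      have := (hasFDerivAt_pi'.1 dm (.inl i)).unique
        (((ContinuousLinearMap.proj i).comp (ContinuousLinearMap.snd ℂ (ι → ℂ) (τ → ℂ))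
          ).hasFDerivAt.congr_of_eventuallyEq
          (eventually_of_mem (ball_mem_nhds _ hR) fun z hz => mi z hz i))
      exact (congrArg (fun L => L z) this).symm.trans (congrFun hz (.inl i))
    obtain ⟨g, z2⟩ := z
    obtain rfl : z2 = 0 := d1
    rw [nd g (funext fun i => congrFun hz (.inr i))]; rfl

end Vale.Agent.P218SQ.D7
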