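import Vale.Agent.P218SQ.D7d
import Vale.Agent.P218CO.IFT

/-! The canonical parameter: observables and the inversion of the moment chart. -/

open Set Filter Topology Metric

namespace Vale.Agent.P218SQ.D7

open P218CH P218HB
open P218CO hiding Adm

set_option linter.unusedSectionVars false

variable {ι κ X Z E : Type} [Fintype ι] [Fintype κ] [NormedAddCommGroup X] [NormedSpace ℂ X]
  [NormedAddCommGroup E] [NormedSpace ℂ E] {G : ℝ → ℂ → ℂ} {K R w0 ρ : ℝ} {W : ι → ℝ}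

/-- real points -/
def IsRe (z : Pt ι κ) : Prop := (∀ j, (z.1 j).im = 0) ∧ ∀ k, (z.2 k).im = 0

theorem isRe_ofReal (p : (ι → ℝ) × (κ → ℝ)) : IsRe (ofReal p) :=
  ⟨fun _ => Complex.ofReal_im _, fun _ => Complex.ofReal_im _⟩

theorem adm_mono {w0 w1 : ℝ} (h : Adm w1 W) (h0 : w0 ≤ w1) : Adm w0 W :=
  fun i => ⟨h0.trans (h i).1, (h i).2⟩

theorem er_nonneg (h : ∀ j, 0 ≤ W j) : 0 ≤ er W :=
  Finset.sum_nonneg fun i _ => Real.rpow_nonneg (h i) _

theorem er_le_sum (h : ∀ j, 1 ≤ W j) : er W ≤ ∑ i, W i ^ (-1 - 1 / 8 : ℝ) :=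
  Finset.sum_le_sum fun i _ => Real.rpow_le_rpow_of_exponent_le (h i) (by norm_num)

theorem er_le_card (h : ∀ j, 1 ≤ W j) : er W ≤ Fintype.card ι := by
  have := Finset.sum_le_card_nsmul Finset.univ _ 1 fun i _ =>
    Real.rpow_le_one_of_one_le_of_nonpos (z := -(2 + 1 / 8)) (h i) (by norm_num)
  rwa [nsmul_eq_mul, Finset.card_univ, mul_one] at this

theorem er_le (h : Adm w0 W) (h0 : 0 < w0) (j : ι) :
    er W ≤ 8 * Fintype.card ι * W j ^ (-(1 / 8) : ℝ) / W j ^ 2 := by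
  have hj : 0 < W j := h0.trans_le (h j).1
  have h1 : (W j / 2) ^ (-(2 + 1 / 8) : ℝ) ≤ 8 * (W j ^ (-(1 / 8) : ℝ) / W j ^ 2) := by
    rw [Real.div_rpow hj.le zero_le_two, ← Real.rpow_two, ← Real.rpow_sub hj, div_eq_mul_inv,
      ← Real.rpow_neg zero_le_two, mul_comm, show (-(1 / 8) - 2 : ℝ) = -(2 + 1 / 8) by norm_num]
    refine mul_le_mul_of_nonneg_right ((Real.rpow_le_rpow_of_exponent_le one_le_two
      (z := (3 : ℕ)) (by norm_num)).trans_eq ?_) (by positivity)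
    rw [Real.rpow_natCast]; norm_num
  have h2 := Finset.sum_le_card_nsmul Finset.univ _ _ fun i _ => (Real.rpow_le_rpow_of_nonpos
    (z := -(2 + 1 / 8)) (half_pos hj) (show W j / 2 ≤ W i by linarith [(h j).2 i])
    (by norm_num)).trans h1
  rw [nsmul_eq_mul, Finset.card_univ] at h2
  exact h2.trans_eq (by ring)

theorem ev_er (C : ℝ) {ε : ℝ} (hε : 0 < ε) : ∀ᶠ w : ℝ in atTop, ∀ W : ι → ℝ, Adm w W →
    C * er W ≤ ε ∧ ∀ j, C * er W ≤ ε / W j ^ 2 := by
  have h := ((tendsto_rpow_neg_atTop (y := 1 / 8) (by norm_num)).const_mul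
    (|C| * (8 * Fintype.card ι))).eventually (eventually_le_nhds (by simpa using hε))
  filter_upwards [h, eventually_ge_atTop 1] with w h1 h2 W hW
  have h3 : ∀ j, C * er W ≤ ε / W j ^ 2 := fun j => by
    have hj := (hW j).1
    have h4 : W j ^ (-(1 / 8) : ℝ) ≤ w ^ (-(1 / 8) : ℝ) :=
      Real.rpow_le_rpow_of_nonpos (by linarith) hj (by norm_num)
    calc C * er W ≤ |C| * (8 * Fintype.card ι * W j ^ (-(1 / 8) : ℝ) / W j ^ 2) :=
          mul_le_mul (le_abs_self C) (er_le hW (by linarith) j)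
            (er_nonneg fun i => by linarith [(hW i).1]) (abs_nonneg C)
      _ ≤ |C| * (8 * Fintype.card ι * w ^ (-(1 / 8) : ℝ) / W j ^ 2) := by gcongr
      _ ≤ _ := by rw [← mul_div_assoc, ← mul_assoc]; gcongr
  refine ⟨?_, h3⟩
  rcases isEmpty_or_nonempty ι with h | ⟨⟨j⟩⟩
  · simp [er, hε.le]
  · exact (h3 j).trans (div_le_self hε.le (one_le_pow₀ (h2.trans (hW j).1)))

theorem DD_near {K' : ℝ} (hW : ∀ j, 0 < W j) (h0 : 0 ≤ K') (h : K < K') :
    ∀ᶠ W' in 𝓝 W, DD W K' ⊆ DD W' K := by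
  filter_upwards [eventually_all.2 fun j => ContinuousAt.eventually_lt
    (f := fun W' : ι → ℝ => K / W' j + 7 / W j * |W' j - W j|) (g := fun _ => K' / W j) (x₀ := W)
    ((continuousAt_const.div (continuousAt_apply j W) (hW j).ne').add (continuousAt_const.mul
      ((continuousAt_apply j W).sub continuousAt_const).abs)) continuousAt_const
    (by simpa using div_lt_div_of_pos_right h (hW j))] with W' h1 α hα j
  have h2 := norm_lt (hW j) h0 (hα j)
  have h3 : ‖1 - α j * W j - 4‖ < 4 - K' / W j := hα j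
  have h4 := norm_sub_le (1 - α j * W j - 4) (α j * ((W' j - W j : ℝ) : ℂ))
  rw [norm_mul, Complex.norm_real, Real.norm_eq_abs,
    show 1 - α j * W j - 4 - α j * ((W' j - W j : ℝ) : ℂ) = 1 - α j * W' j - 4 by
      push_cast; ring] at h4
  show ‖1 - α j * W' j - 4‖ < 4 - K / W' j
  linarith [h1 j, mul_le_mul_of_nonneg_right h2.le (abs_nonneg (W' j - W j))]

theorem mem_ball_pair {A B : Type*} [SeminormedAddCommGroup A] [SeminormedAddCommGroup B] {a : A}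
    {b : B} {R : ℝ} : (a, b) ∈ ball (0 : A × B) R ↔ ‖a‖ < R ∧ ‖b‖ < R := by
  rw [mem_ball_zero_iff, Prod.norm_mk, max_lt_iff]

theorem one_le_W (c : Cst) (h : Adm c.w1 W) (j : ι) : 1 ≤ W j := by
  linarith [(c.big _ (h j).1).1]

section
variable {c : Cst} {al : (ι → ℝ) → Pt ι κ → ι → ℂ} {x : (ι → ℝ) → Pt ι κ → X} {xb : Pt ι κ → X}
  {U : Set Z} {HW : (ι → ℝ) → (ι → ℂ) × X → Z → E} {Hb : (ι → ℂ) × X → Z → E} {z : Pt ι κ}

theorem Red.K_pos (h : Red G K ρ c al x xb) : 0 < K := by linarith [h.K_eq, c.one_le]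

theorem Red.mem' (h : Red G K ρ c al x xb) (hz : c.Ok W z) (hρ : ρ ≤ R) :
    (al W z, x W z) ∈ DD W K ×ˢ ball (0 : X) R :=
  ⟨DD_anti (fun j => one_pos.trans_le (one_le_W c hz.1 j)) (by linarith [h.K_pos]) (h.mem W z hz).1,
    mem_ball_zero_iff.2 ((h.mem W z hz).2.trans_le hρ)⟩

/-- the form of the bound for the tip function which is used for the residual -/
theorem Red.tip' (h : Red G K ρ c al x xb) : ∃ C : ℝ, ∀ W z, c.Ok W z → ∀ i,
    ‖z.1 i - G (W i) (al W z i)‖ ≤ C * W i ^ (-c.k) / W i ^ 2 := by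
  obtain ⟨C, hC⟩ := h.tip
  refine ⟨|C| * (8 * Fintype.card ι), fun W z hz i => ?_⟩
  have h1 := mul_le_mul (le_abs_self C) (er_le hz.1 (c.big _ le_rfl).pos i)
    (er_nonneg fun j => zero_le_one.trans (one_le_W c hz.1 j)) (abs_nonneg C)
  rw [h.k_eq]
  exact (norm_le_pi_norm (z.1 - gv G W (al W z)) i).trans ((hC W z hz).trans
    (h1.trans_eq (by ring)))

theorem Red.obs_close (h : Red G K ρ c al x xb) (H : App G K R w0 U HW Hb) (hw : w0 ≤ c.w1)
    (hρ : 2 * ρ ≤ R) : ∃ C : ℝ, ∀ W z, c.Ok W z → ∀ y ∈ U,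
      ‖HW W (al W z, x W z) y - Hb (z.1, xb z) y‖ ≤ C * er W := by
  have hr := c.r_pos
  have hrρ := h.r_le
  obtain ⟨M, hM⟩ := H.bdd
  obtain ⟨C, hC⟩ := H.close
  obtain ⟨C1, h1⟩ := h.tip
  obtain ⟨C2, h2⟩ := h.close
  refine ⟨C + M / (R / 2) * max C1 C2, fun W z hz y hy => ?_⟩
  have hM0 : 0 ≤ M := (norm_nonneg _).trans (hM 0 (mem_ball_self (by linarith)) y hy)
  have a1 := h.mem' hz (show ρ ≤ R by linarith)
  have a2 := er_nonneg fun j => zero_le_one.trans (one_le_W c hz.1 j)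
  have b1 := hC W (adm_mono hz.1 hw) _ a1 y hy
  have b2 := h.sub W z hz
  have b3 := lip_inner (x := (gv G W (al W z), x W z)) (y := (z.1, xb z))
    (show 0 < R / 2 by linarith) (H.holob y hy) (fun q hq => hM q hq y hy)
    (mem_ball_pair.2 ⟨(h.g_lt W hz.1 _ a1.1).trans_le (by linarith),
      (h.mem W z hz).2.trans_le (by linarith)⟩)
    (mem_ball_pair.2 ⟨((norm_fst_le z).trans_lt b2).trans_le (by linarith),
      (h.memb z (mem_ball_zero_iff.2 b2)).trans_le (by linarith)⟩)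
  have b4 : ‖(gv G W (al W z), x W z) - (z.1, xb z)‖ ≤ max C1 C2 * er W :=
    max_le ((norm_sub_rev _ _).trans_le ((h1 W z hz).trans (by gcongr; exact le_max_left _ _)))
      ((h2 W z hz).trans (by gcongr; exact le_max_right _ _))
  have b5 := mul_le_mul_of_nonneg_left b4 (show 0 ≤ M / (R / 2) by
    have : 0 < R := by linarith
    positivity)
  linarith [norm_sub_le_norm_sub_add_norm_sub (HW W (al W z, x W z) y)
    (Hb (gv G W (al W z), x W z) y) (Hb (z.1, xb z) y)]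

/-- **Observables** -/
theorem Red.obs (h : Red G K ρ c al x xb) (H : App G K R w0 U HW Hb) (hw : w0 ≤ c.w1)
    (hρ : 2 * ρ ≤ R) :
    HB c U (fun W z y => HW W (al W z, x W z) y) fun z y => Hb (z.1, xb z) y := by
  have hr := c.r_pos
  have hrρ := h.r_le
  obtain ⟨M, hM⟩ := H.bdd
  obtain ⟨C, hC⟩ := h.obs_close H hw hρ
  have m : ∀ z ∈ ball (0 : Pt ι κ) c.r, (z.1, xb z) ∈ ball (0 : (ι → ℂ) × X) R := fun z hz =>
    mem_ball_pair.2 ⟨((norm_fst_le z).trans_lt (mem_ball_zero_iff.1 hz)).trans_le (by linarith),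
      (h.memb z hz).trans_le (by linarith)⟩
  refine ⟨fun W hW y hy => (H.holo W (adm_mono hW hw) y hy).comp ((h.holo W hW).prodMk
      (h.hb.holo W hW () trivial)) fun z hz => h.mem' ⟨hW, hz⟩ (by linarith),
    fun y hy => (H.holob y hy).comp (differentiableOn_fst.prodMk (h.hb.holob () trivial)) m,
    ⟨M, fun z hz y hy => hM _ (m z hz) y hy⟩, |C|, fun W z hz y hy => (hC W z hz y hy).trans ?_⟩
  rw [h.k_eq]
  exact mul_le_mul (le_abs_self C) (er_le_sum (one_le_W c hz.1))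
    (er_nonneg fun j => zero_le_one.trans (one_le_W c hz.1 j)) (abs_nonneg C)

theorem Red.obs_lp (h : Red G K ρ c al x xb) (H : App G K R w0 U HW Hb) (HL : LpA K R w0 U HW)
    (hw : w0 ≤ c.w1) (hρ : 2 * ρ ≤ R) : Lp c U fun W z y => HW W (al W z, x W z) y := by
  intro W hW
  have hr := c.r_pos
  have hrρ := h.r_le
  have hK := h.K_pos
  obtain ⟨M, hM⟩ := H.bdd
  obtain ⟨C, hC⟩ := H.close
  obtain ⟨L1, h1⟩ := h.lp W hW
  obtain ⟨L2, h2⟩ := h.lpx W hW
  obtain ⟨L3, h3⟩ := HL W (adm_mono hW hw)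
  obtain ⟨ε, hε, e1, e2⟩ : ∃ ε > 0, ε ≤ K / (‖W‖ + 1) ^ 2 ∧ ε ≤ ρ :=
    ⟨min _ _, lt_min (by positivity) (by linarith), min_le_left _ _, min_le_right _ _⟩
  have t : Tendsto (fun W' => ‖W' - W‖) (𝓝 W) (𝓝 0) := tendsto_norm_sub_self W
  refine ⟨(|C| * Fintype.card ι + |M|) / (ε / 2) * max L1 L2 + L3, ?_⟩
  filter_upwards [h1, h2, h3, DD_near (fun j => one_pos.trans_le (one_le_W c hW j))
    (by linarith) (show 2 * K < 3 * K by linarith), t.eventually (eventually_lt_nhds one_pos),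
    (t.const_mul (max L1 L2)).eventually (eventually_lt_nhds (show _ < ε / 2 by simpa using hε))]
    with W' a1 a2 a3 a4 a5 a6 z hz hz' y hy
  have p' := fun j => one_pos.trans_le (one_le_W c hz'.1 j)
  have b1 := a4 (h.mem W z hz).1
  have b2 : ball (al W z, x W z) ε ⊆ DD W' K ×ˢ ball (0 : X) R := fun q hq => by
    rw [← ball_prod_same] at hq
    refine ⟨fun j => ball_sub_D (p' j) (b1 j) (mem_ball_iff_norm.2 (((norm_le_pi_norm
      (q.1 - al W z) j).trans_lt (mem_ball_iff_norm.1 hq.1)).trans_le (e1.trans ?_))),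
      mem_ball_zero_iff.2 ?_⟩
    · have := (le_abs_self _).trans (norm_le_pi_norm (W' - W) j)
      have := (le_abs_self _).trans (norm_le_pi_norm W j)
      have := p' j
      rw [show 2 * K - K = K by ring]
      gcongr
      simp only [Pi.sub_apply] at *
      linarith
    · linarith [mem_ball_iff_norm.1 hq.2, norm_le_insert' q.2 (x W z), (h.mem W z hz).2]
  have b3 : ‖(al W' z, x W' z) - (al W z, x W z)‖ ≤ max L1 L2 * ‖W' - W‖ :=
    max_le ((a1 z hz hz' () trivial).trans (by gcongr; exact le_max_left _ _))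
      ((a2 z hz hz' () trivial).trans (by gcongr; exact le_max_right _ _))
  have b4 := lip_inner (x := (al W' z, x W' z)) (y := (al W z, x W z)) (half_pos hε)
    ((H.holo W' (adm_mono hz'.1 hw) y hy).mono b2) (M := |C| * Fintype.card ι + |M|)
    (fun q hq => by
      have c1 := hC W' (adm_mono hz'.1 hw) q (b2 hq) y hy
      have c2 := hM (gv G W' q.1, q.2) (mem_ball_pair.2 ⟨(h.g_lt W' hz'.1 _ (b2 hq).1).trans_le
        (by linarith), mem_ball_zero_iff.1 (b2 hq).2⟩) y hy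
      have c3 := mul_le_mul (le_abs_self C) (er_le_card (one_le_W c hz'.1))
        (er_nonneg fun j => (p' j).le) (abs_nonneg C)
      linarith [norm_le_insert' (HW W' q y) (Hb (gv G W' q.1, q.2) y), le_abs_self M])
    (mem_ball_iff_norm.2 (b3.trans_lt (by linarith))) (mem_ball_self (by linarith))
  have b5 := mul_le_mul_of_nonneg_left b3
    (show 0 ≤ (|C| * Fintype.card ι + |M|) / (ε / 2) by positivity)
  linarith [a3 (adm_mono hz'.1 hw) _ (h.mem' hz (by linarith)) (DD_anti p' (by linarith) b1) y hy,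
    norm_sub_le_norm_sub_add_norm_sub (HW W' (al W' z, x W' z) y) (HW W' (al W z, x W z) y)
      (HW W (al W z, x W z) y)]

end

theorem im_fderiv {A : Type*} [NormedAddCommGroup A] [NormedSpace ℂ A] {f : A → ℂ} {h : A}
    (hf : DifferentiableAt ℂ f 0) (hr : ∀ᶠ t : ℝ in 𝓝 0, (f ((t : ℂ) • h)).im = 0) :
    (fderiv ℂ f 0 h).im = 0 := by
  have h1 : HasDerivAt (fun t : ℂ => f (t • h)) (fderiv ℂ f 0 h) ((0 : ℝ) : ℂ) := by
    have := HasFDerivAt.comp_hasDerivAt (f := fun t : ℂ => t • h) (0 : ℂ)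
      (by simpa using hf.hasFDerivAt) ((hasDerivAt_id (0 : ℂ)).smul_const h)
    rw [one_smul] at this
    exact this
  have h2 := Complex.imCLM.hasFDerivAt.comp_hasDerivAt (0 : ℝ) h1.comp_ofReal
  exact h2.unique ((hasDerivAt_const (0 : ℝ) (0 : ℝ)).congr_of_eventuallyEq hr)

theorem im_symm {T : (ι → ℂ) ≃L[ℂ] (ι → ℂ)}
    (hT : ∀ h : ι → ℝ, ∀ j, (T (fun i => h i) j).im = 0) {y : ι → ℂ} (hy : ∀ j, (y j).im = 0)
    (j : ι) : (T.symm y j).im = 0 := by
  have h1 : T.symm y = (fun i => (((T.symm y i).re : ℝ) : ℂ)) +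
      Complex.I • fun i => (((T.symm y i).im : ℝ) : ℂ) := by
    funext i; apply Complex.ext <;> simp
  have h2 : T (fun i => (((T.symm y i).im : ℝ) : ℂ)) = 0 := by
    funext i
    have h3 := congrArg (fun v => (T v i).im) h1
    simp only [T.apply_symm_apply, map_add, map_smul, Pi.add_apply, Pi.smul_apply, smul_eq_mul,
      Complex.add_im, Complex.I_mul_im, hT, hy, zero_add] at h3
    exact Complex.ext h3.symm (hT _ i)
  exact Complex.ofReal_eq_zero.1 (congrFun (T.map_eq_zero_iff.1 h2) j)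

/-- inversion of the limit chart -/
theorem exists_psi {F : Pt ι κ → ι → ℂ} {M : ℝ} (hR : 0 < R) (hF : DifferentiableOn ℂ F (ball 0 R))
    (hM : ∀ z ∈ ball (0 : Pt ι κ) R, ‖F z‖ ≤ M) (h0 : F 0 = 0)
    (nd : ∀ g, fderiv ℂ F 0 (g, 0) = 0 → g = 0)
    (hre : ∀ z ∈ ball (0 : Pt ι κ) R, IsRe z → ∀ j, (F z j).im = 0) :
    ∃ (Ψ : Pt ι κ → ι → ℂ) (ρ r c : ℝ), 0 < r ∧ r ≤ ρ ∧ 4 * ρ ≤ R ∧ 0 ≤ c ∧
      DifferentiableOn ℂ Ψ (ball 0 r) ∧
      (∀ z ∈ ball (0 : Pt ι κ) r, ‖Ψ z‖ < ρ ∧ F (Ψ z, z.2) = z.1 ∧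
        (IsRe z → ∀ j, (Ψ z j).im = 0)) ∧
      ∀ y : κ → ℂ, ‖y‖ < r → ∀ g g' : ι → ℂ, ‖g‖ < ρ → ‖g'‖ < ρ →
        ‖g - g'‖ ≤ c * ‖F (g, y) - F (g', y)‖ := by
  have hd := hF.differentiableAt (ball_mem_nhds _ hR)
  have hM0 : 0 ≤ M := (norm_nonneg _).trans (hM 0 (mem_ball_self hR))
  let A : (ι → ℂ) →L[ℂ] (ι → ℂ) := (fderiv ℂ F 0).comp (ContinuousLinearMap.inl ℂ _ _)
  let T : (ι → ℂ) ≃L[ℂ] (ι → ℂ) := (LinearEquiv.ofInjectiveEndo (A : (ι → ℂ) →ₗ[ℂ] (ι → ℂ))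
    ((injective_iff_map_eq_zero _).2 nd)).toContinuousLinearEquiv
  have m1 : ∀ g ∈ ball (0 : ι → ℂ) R, ∀ y : κ → ℂ, ‖y‖ < R → (g, y) ∈ ball (0 : Pt ι κ) R :=
    fun g hg y hy => mem_ball_pair.2 ⟨mem_ball_zero_iff.1 hg, hy⟩
  have d1 : ∀ y : κ → ℂ, ‖y‖ < R → DifferentiableOn ℂ (fun g => F (g, y)) (ball 0 R) :=
    fun y hy => hF.comp (differentiableOn_id.prodMk (differentiableOn_const _))
      fun g hg => m1 g hg y hy
  have hT : fderiv ℂ (fun g : ι → ℂ => F (g, 0)) 0 = T :=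
    (HasFDerivAt.comp (f := fun g : ι → ℂ => (g, (0 : κ → ℂ))) 0 hd.hasFDerivAt
      (hasFDerivAt_prodMk_left 0 0)).fderiv
  obtain ⟨ρ, hρ, hρR, ε, hε, H⟩ := uniform_ift hR (d1 0 (by simpa))
    (fun g hg => hM _ (m1 g hg 0 (by simpa))) hT h0
  obtain ⟨r, hr, h1, h2⟩ : ∃ r > 0, r ≤ ρ ∧ (M / (R / 2) + 1) * r ≤ ε := by
    have : 0 < M / (R / 2) + 1 := by positivity
    exact ⟨min ρ (ε / (M / (R / 2) + 1)), by positivity, min_le_left _ _,
      (le_div_iff₀' this).1 (min_le_right _ _)⟩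
  have key : ∀ z ∈ ball (0 : Pt ι κ) r, Near (fun g => F (g, z.2) - z.1) T ρ ∧
      2 * ‖T.symm (F (0, z.2) - z.1)‖ < ρ := by
    intro z hz
    obtain ⟨a1, a2⟩ := mem_ball_pair.1 hz
    refine H _ ((d1 _ (by linarith)).sub_const _) fun g hg => ?_
    have a3 := lip_inner (f := fun y => F (g, y)) (x := z.2) (y := 0) (c := 0) (half_pos hR)
      (hF.comp ((differentiableOn_const _).prodMk differentiableOn_id)
        fun y hy => m1 g hg y (mem_ball_zero_iff.1 hy))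
      (fun y hy => hM _ (m1 g hg y (mem_ball_zero_iff.1 hy)))
      (mem_ball_zero_iff.2 (by linarith)) (mem_ball_self (by linarith))
    rw [sub_zero] at a3
    have a4 := mul_le_mul_of_nonneg_left a2.le (show 0 ≤ M / (R / 2) by positivity)
    rw [sub_right_comm]
    linarith [norm_sub_le (F (g, z.2) - F (g, 0)) z.1]
  refine ⟨fun z => zeroOf (fun g => F (g, z.2) - z.1) ρ, ρ, r, 2 * ‖(T.symm : (ι → ℂ) →L[ℂ] (ι → ℂ))‖,
    hr, h1, by linarith, by positivity, differentiableOn_zeroOf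
      (G := fun q : Pt ι κ × (ι → ℂ) => F (q.2, q.1.2) - q.1.1) isOpen_ball
      ((hF.comp (by fun_prop) fun q hq => m1 _ (ball_subset_ball (by linarith) hq.2) _
        ((mem_ball_pair.1 hq.1).2.trans_le (by linarith))).sub (by fun_prop)) key,
    fun z hz => ?_, fun y hy g g' hg hg' => ?_⟩
  · obtain ⟨a1, a2⟩ := (key z hz).1.zeroOf_spec (key z hz).2
    refine ⟨mem_ball_zero_iff.1 a1, sub_eq_zero.1 a2, fun hz' => (key z hz).1.zeroOf_mem (key z hz).2
      (S := {g | ∀ j, (g j).im = 0}) ?_ (fun _ => rfl) fun g h3 h4 j => ?_⟩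
    · rw [Set.ofPred_forall]
      exact isClosed_iInter fun j => isClosed_eq (by fun_prop) continuous_const
    · rw [Pi.sub_apply, Complex.sub_im, h3 j, zero_sub, neg_eq_zero]
      refine im_symm (fun h i => ?_) (fun i => ?_) j
      · have e1 : T (fun i => (h i : ℂ)) i =
            fderiv ℂ (fun z => F z i) 0 ((fun i => (h i : ℂ)), 0) := by
          rw [fderiv_apply hd]; rfl
        rw [e1]
        refine im_fderiv (differentiableAt_pi.1 hd i) ?_
        have t : Tendsto (fun t : ℝ => (t : ℂ) • (((fun i => (h i : ℂ)), 0) : Pt ι κ)) (𝓝 0)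
            (𝓝 0) := Continuous.tendsto' (by fun_prop) _ _ (by simp)
        filter_upwards [t.eventually (ball_mem_nhds _ hR)] with t ht
        exact hre _ ht ⟨fun j => by simp, fun k => by simp⟩ i
      · rw [Pi.sub_apply, Complex.sub_im, hz'.1 i, hre _ (m1 g (ball_subset_ball (by linarith) h4) _
          ((mem_ball_pair.1 hz).2.trans_le (by linarith))) ⟨h3, hz'.2⟩ i, sub_zero]
  · have := (key (0, y) (mem_ball_pair.2 ⟨by simpa, hy⟩)).1.sub_le (mem_ball_zero_iff.2 hg)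
      (mem_ball_zero_iff.2 hg')
    simp only [sub_zero] at this
    exact this.trans (by rw [mul_assoc]; gcongr; exact (T.symm : (ι → ℂ) →L[ℂ] (ι → ℂ)).le_opNorm _)

theorem ev_big (K : ℝ) {ε : ℝ} (hε : 0 < ε) : ∀ᶠ w : ℝ in atTop, ∀ W, w ≤ W → Big K W ∧
    1 ≤ W ∧ 10 / W < ε := by
  obtain ⟨w0, h⟩ := exists_big K
  filter_upwards [eventually_ge_atTop w0, eventually_ge_atTop 1, eventually_gt_atTop (10 / ε)]
    with w a1 a2 a3 W hW
  refine ⟨h W (a1.trans hW), a2.trans hW, ?_⟩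
  rw [div_lt_iff₀ hε] at a3
  rw [div_lt_iff₀ (by linarith)]; nlinarith

/-- **The canonical parameter.** -/
theorem App.red {xW : (ι → ℝ) → Pt ι κ → X} {xb : Pt ι κ → X}
    (h : App G K R w0 univ (fun W q (_ : Unit) => xW W q) fun q _ => xb q)
    (hL : LpA K R w0 univ fun W q (_ : Unit) => xW W q) (hR : 0 < R) (hK : 2020 ≤ K)
    (hG : ∀ W, 0 < W → ∀ α ∈ D W K, ‖G W α - g0 W α‖ ≤ 100 / W ^ 2) (h0 : xb 0 = 0)
    (p : X →L[ℂ] ι → ℂ) (nd : ∀ g, p (fderiv ℂ xb 0 (g, 0)) = 0 → g = 0)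
    (re : ∀ W, Adm w0 W → ∀ q ∈ DD W K ×ˢ ball (0 : κ → ℂ) R, IsRe q → ∀ j, (p (xW W q) j).im = 0)
    (reb : ∀ z ∈ ball (0 : Pt ι κ) R, IsRe z → ∀ j, (p (xb z) j).im = 0) (hρ : 0 < ρ) :
    ∃ (c : Cst) (al : (ι → ℝ) → Pt ι κ → ι → ℂ), w0 ≤ c.w1 ∧ 2 * c.r ≤ R ∧
      Red G K ρ c al (fun W z => xW W (al W z, z.2)) xb ∧
      ∀ W z, c.Ok W z → p (xW W (al W z, z.2)) = p (xb z) := by
  obtain ⟨M, hM⟩ := h.bdd
  obtain ⟨C, hC⟩ := h.close
  have hb := h.holob () trivial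
  have hd := hb.differentiableAt (ball_mem_nhds _ hR)
  obtain ⟨Ψ, ρ', r', c, a1, a2, a3, a4, a5, a6, a7⟩ := exists_psi (F := fun z => p (xb z))
    (M := ‖p‖ * M) hR (p.differentiable.comp_differentiableOn hb)
    (fun z hz => (p.le_opNorm _).trans (by gcongr; exact hM z hz () trivial)) (by simp [h0])
    (fun g hg => nd g ((congrArg (fun L => L (g, 0))
      (p.hasFDerivAt.comp 0 hd.hasFDerivAt).fderiv).symm.trans hg)) reb
  obtain ⟨r, hr, b1, b2, b3⟩ : ∃ r > 0, r ≤ r' ∧ r ≤ ρ ∧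
      ∀ z : Pt ι κ, ‖z‖ < r → ‖p (xb z)‖ < r' / 2 ∧ ‖xb z‖ < ρ / 2 := by
    have t := hd.continuousAt.tendsto
    rw [h0] at t
    have t' := (p.continuous.tendsto 0).comp t
    rw [map_zero] at t'
    obtain ⟨r, hr, h1⟩ := Metric.eventually_nhds_iff_ball.1
      ((t'.eventually (ball_mem_nhds _ (half_pos a1))).and
        (t.eventually (ball_mem_nhds _ (half_pos hρ))))
    refine ⟨min r (min r' ρ), by positivity, (min_le_right _ _).trans (min_le_left _ _),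
      (min_le_right _ _).trans (min_le_right _ _), fun z hz => ?_⟩
    have := h1 z (mem_ball_zero_iff.2 (hz.trans_le (min_le_left _ _)))
    exact ⟨mem_ball_zero_iff.1 this.1, mem_ball_zero_iff.1 this.2⟩
  obtain ⟨w1, c0, c1, c2, c3, c3', c4, c5⟩ := ((eventually_ge_atTop w0).and
    ((eventually_ge_atTop (2 / r)).and ((ev_er (ι := ι) (c * (‖p‖ * C)) one_pos).and
    ((ev_big K hr).and ((ev_big (5 * K) hr).and ((ev_er (ι := ι) (‖p‖ * C) (half_pos a1)).and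
      (ev_er (ι := ι) C (half_pos hρ)))))))).exists
  let cs : Cst := ⟨5 * K, r, w1, 1 / 8, by linarith, hr, by norm_num, fun w hw => (c3' w hw).1,
    (div_le_iff₀' hr).1 c1⟩
  have adm : ∀ W : ι → ℝ, Adm w1 W → Adm w0 W := fun W hW => adm_mono hW c0
  have big := fun (W : ι → ℝ) (hW : Adm w1 W) j => c3 (W j) (hW j).1
  have pos : ∀ W : ι → ℝ, Adm w1 W → ∀ j, 0 < W j := fun W hW j => (big W hW j).1.pos
  have sb : ball (0 : κ → ℂ) r ⊆ ball 0 R := ball_subset_ball (by linarith)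
  have glt : ∀ W : ι → ℝ, Adm w1 W → ∀ α ∈ DD W K, ‖gv G W α‖ < r := fun W hW α hα => by
    refine (pi_norm_lt_iff hr).2 fun j => ?_
    obtain ⟨d1, d2, d3⟩ := big W hW j
    have d4 := d1.norm_g0_le (by linarith) (by linarith) (hα j)
    have d5 := hG _ d1.pos _ (hα j)
    have d6 : 100 / W j ^ 2 ≤ 2 / W j := by
      rw [div_le_div_iff₀ (by positivity) d1.pos]; nlinarith [d1.1]
    have d7 : 10 / W j = 8 / W j + 2 / W j := by ring
    rw [gv]
    linarith [norm_le_insert' (G (W j) (α j)) (g0 (W j) (α j))]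
  have cl : ∀ W, Adm w1 W → ∀ q ∈ DD W K ×ˢ ball (0 : κ → ℂ) r,
      ‖p (xW W q) - p (xb (gv G W q.1, q.2))‖ ≤ ‖p‖ * C * er W := fun W hW q hq => by
    rw [← map_sub, mul_assoc]
    exact (p.le_opNorm _).trans (mul_le_mul_of_nonneg_left
      (hC W (adm W hW) q ⟨hq.1, sb hq.2⟩ () trivial) (norm_nonneg _))
  have glt' : ∀ W, Adm w1 W → ∀ q ∈ DD W K ×ˢ ball (0 : κ → ℂ) r, ‖(gv G W q.1, q.2)‖ < r :=
    fun W hW q hq => max_lt (glt W hW _ hq.1) (mem_ball_zero_iff.1 hq.2)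
  have mem : ∀ W, Adm w1 W → ∀ q ∈ DD W K ×ˢ ball (0 : κ → ℂ) r,
      (p (xW W q), q.2) ∈ ball (0 : Pt ι κ) r' := fun W hW q hq => by
    refine mem_ball_pair.2 ⟨?_, (mem_ball_zero_iff.1 hq.2).trans_le b1⟩
    linarith [cl W hW q hq, (b3 _ (glt' W hW q hq)).1,
      norm_le_insert' (p (xW W q)) (p (xb (gv G W q.1, q.2))), (c4 W hW).1]
  let a : (ι → ℝ) → Pt ι κ → ι → ℂ := fun W q => Ψ (p (xW W q), q.2)
  have ag : ∀ W, Adm w1 W → ∀ q ∈ DD W K ×ˢ ball (0 : κ → ℂ) r,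
      ‖a W q - gv G W q.1‖ ≤ c * (‖p‖ * C) * er W := fun W hW q hq => by
    obtain ⟨e1, e2, -⟩ := a6 _ (mem W hW q hq)
    refine (a7 q.2 ((mem_ball_zero_iff.1 hq.2).trans_le b1) _ _ e1
      ((glt W hW _ hq.1).trans_le (b1.trans a2))).trans ?_
    rw [e2, mul_assoc]
    exact mul_le_mul_of_nonneg_left (cl W hW q hq) a4
  have ch : ∀ W, Adm w1 W → ChartIn (a W) W K 101 (ball 0 r) := fun W hW => by
    refine ⟨⟨by linarith, by norm_num, by linarith, fun j => (big W hW j).1,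
      fun i j => (hW i).2 j⟩, isOpen_ball, a5.comp ((p.differentiable.comp_differentiableOn
        ((h.holo W (adm W hW) () trivial).mono (prod_mono le_rfl sb))).prodMk differentiableOn_snd)
        (mem W hW), fun α hα y hy j => ?_⟩
    have d1 := (norm_le_pi_norm _ j).trans (ag W hW (α, y) ⟨hα, hy⟩)
    have d4 : 101 / W j ^ 2 = 1 / W j ^ 2 + 100 / W j ^ 2 := by ring
    linarith [norm_sub_le_norm_sub_add_norm_sub (a W (α, y) j) (G (W j) (α j)) (g0 (W j) (α j)),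
      hG _ (pos W hW j) _ (hα j), (c2 W hW).2 j,
      show ‖(a W (α, y) - gv G W α) j‖ = ‖a W (α, y) j - G (W j) (α j)‖ from rfl]
  have dm : ∀ (W : ι → ℝ) (z : Pt ι κ), cs.Ok W z → z ∈ AD W (5 * K) ×ˢ ball (0 : κ → ℂ) r := fun W z hz =>
    (dom_eq (ι := ι) (κ := κ) (5 * K) r W).subset hz.2
  have spec : ∀ W z, cs.Ok W z → inv (a W) W K z ∈ DD W (3 * K) ∧
      a W (inv (a W) W K z, z.2) = z.1 ∧ (inv (a W) W K z, z.2) ∈ DD W K ×ˢ ball (0 : κ → ℂ) r :=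
    fun W z hz => by
      have := (ch W hz.1).inv_spec (dm W z hz)
      exact ⟨this.1, this.2, DD_anti (pos W hz.1) (by linarith) this.1, (dm W z hz).2⟩
  have R0 : Red G K r cs (fun W => inv (a W) W K) (fun _ z => z.2) fun z => z.2 := by
    refine ⟨rfl, rfl, le_rfl, fun W z hz => max_lt ((pi_norm_lt_iff hr).2 fun j => ?_)
      hz.2.2, fun W z hz => ⟨(spec W z hz).1, hz.2.2⟩, glt, fun z hz => (mem_ball_pair.1 hz).2,
      fun W hW => ?_, ⟨c * (‖p‖ * C), fun W z hz => ?_⟩, fun W hW => ?_, fun W y hz => ?_,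
      ⟨fun _ _ _ _ => differentiableOn_snd, fun _ _ => differentiableOn_snd,
        ⟨r, fun z hz _ _ => (mem_ball_pair.1 hz).2.le⟩, 0, fun _ _ _ _ _ => by simp⟩,
      ⟨0, fun _ _ _ => by simp⟩, fun _ _ => ⟨0, .of_forall fun _ _ _ _ _ _ => by simp⟩⟩
    · refine (endDom_norm (big W hz.1 j).1 (by linarith) ((dm W z hz).1 j)).trans_lt
        (lt_of_le_of_lt ?_ (big W hz.1 j).2.2)
      have := pos W hz.1 j
      gcongr; norm_num
    · exact (ch W hW).differentiableOn_inv.mono fun z hz => dm W z ⟨hW, hz⟩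
    · simpa only [(spec W z hz).2.1] using ag W hz.1 _ (spec W z hz).2.2
    · obtain ⟨L, h1⟩ := hL W (adm W hW)
      refine ⟨3 * (c * (‖p‖ * L)), ?_⟩
      filter_upwards [h1, DD_near (pos W hW) (by linarith) (show 2 * K < 3 * K by linarith)]
        with W' f1 f2 z hz hz' _ _
      obtain ⟨e1, e2, e3⟩ := spec W z hz
      have f3 := DD_anti (pos W' hz'.1) (show K ≤ 2 * K by linarith) (f2 e1)
      have f4 := (ch W' hz'.1).inv_sub_le (dm W' z hz') (f2 e1)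
      obtain ⟨g1, g2, -⟩ := a6 _ (mem W hW _ e3)
      obtain ⟨g3, g4, -⟩ := a6 _ (mem W' hz'.1 (inv (a W) W K z, z.2) ⟨f3, e3.2⟩)
      have f5 := a7 z.2 (hz.2.2.trans_le b1) _ _ g1 g3
      rw [g2, g4, ← map_sub] at f5
      have f6 := mul_le_mul_of_nonneg_left ((p.le_opNorm _).trans (mul_le_mul_of_nonneg_left
        ((norm_sub_rev _ _).trans_le (f1 (adm W' hz'.1) _ ⟨e3.1, sb e3.2⟩ f3 () trivial))
        (norm_nonneg p))) a4
      have f7 : ‖a W (inv (a W) W K z, z.2) - a W' (inv (a W) W K z, z.2)‖ ≤ _ := f5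
      rw [e2] at f7
      linarith
    · have hz' := isRe_ofReal y
      refine (ch W hz.1).inv_real (dm W _ hz) hz'.1 fun α hα hα' => ?_
      have e3 : (α, (ofReal y).2) ∈ DD W K ×ˢ ball (0 : κ → ℂ) r := ⟨hα, (dm W _ hz).2⟩
      exact (a6 _ (mem W hz.1 _ e3)).2.2 ⟨re W (adm W hz.1) _ ⟨hα, sb e3.2⟩ ⟨hα', hz'.2⟩, hz'.2⟩
  have hrR : 2 * r ≤ R := by linarith
  refine ⟨cs, fun W => inv (a W) W K, c0, hrR, ⟨rfl, rfl, b2, R0.sub,
    fun W z hz => ⟨(spec W z hz).1, ?_⟩, glt,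
    fun z hz => by linarith [(b3 z (mem_ball_zero_iff.1 hz)).2], R0.holo, R0.tip, R0.lp, R0.real,
    R0.obs h c0 hrR, (R0.obs_close h c0 hrR).imp fun C hC W z hz => hC W z hz () trivial,
    R0.obs_lp h hL c0 hrR⟩, fun W z hz => ?_⟩
  · obtain ⟨-, -, e3⟩ := spec W z hz
    linarith [hC W (adm W hz.1) _ ⟨e3.1, sb e3.2⟩ () trivial,
      (b3 _ (glt' W hz.1 _ e3)).2, (c5 W hz.1).1, norm_le_insert' (xW W (inv (a W) W K z, z.2))
        (xb (gv G W (inv (a W) W K z), z.2))]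
  · obtain ⟨-, e2, e3⟩ := spec W z hz
    have := (a6 _ (mem W hz.1 _ e3)).2.1
    exact this.symm.trans (congrArg (fun g => p (xb (g, z.2))) e2)

end Vale.Agent.P218SQ.D7
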