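import Mathlib.Analysis.Complex.HasPrimitives
import Mathlib.Analysis.Complex.CauchyIntegral

/-! Residue at infinity: independence of the radius, decay, change of variables. -/

open Set Filter Topology Metric Bornology Asymptotics

namespace Vale.Agent.P218SQ

/-- holomorphic near infinity -/
def Ext (G : ℂ → ℂ) : Prop := ∃ R : ℝ, ∀ ω : ℂ, R ≤ ‖ω‖ → DifferentiableAt ℂ G ω

/-- integral over large circles -/
noncomputable def res (G : ℂ → ℂ) : ℂ := limUnder atTop fun R : ℝ => ∮ z in C(0, R), G z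

theorem circ_eq {G : ℂ → ℂ} {ρ R : ℝ} (hρ : 0 < ρ) (hR : ρ ≤ R)
    (h : ∀ ω : ℂ, ρ ≤ ‖ω‖ → DifferentiableAt ℂ G ω) :
    ∮ z in C(0, R), G z = ∮ z in C(0, ρ), G z := by
  refine Complex.circleIntegral_eq_of_differentiable_on_annulus_off_countable hρ hR
    countable_empty (fun z hz => (h z ?_).continuousAt.continuousWithinAt) fun z hz => h z ?_
  · simpa using hz.2
  · have := hz.1.2
    simp only [mem_closedBall, dist_zero_right, not_le] at this
    exact this.le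

theorem res_eq {G : ℂ → ℂ} {ρ : ℝ} (hρ : 0 < ρ)
    (h : ∀ ω : ℂ, ρ ≤ ‖ω‖ → DifferentiableAt ℂ G ω) : res G = ∮ z in C(0, ρ), G z := by
  refine Tendsto.limUnder_eq (tendsto_const_nhds.congr' ?_)
  filter_upwards [eventually_ge_atTop ρ] with R hR using (circ_eq hρ hR h).symm

theorem Ext.ev {G : ℂ → ℂ} (h : Ext G) :
    ∀ᶠ R : ℝ in atTop, 0 < R ∧ (∀ ω : ℂ, R ≤ ‖ω‖ → DifferentiableAt ℂ G ω) ∧
      CircleIntegrable G 0 R ∧ res G = ∮ z in C(0, R), G z := by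
  obtain ⟨R0, h⟩ := h
  filter_upwards [eventually_ge_atTop R0, eventually_gt_atTop 0] with R h1 h2
  have h3 : ∀ ω : ℂ, R ≤ ‖ω‖ → DifferentiableAt ℂ G ω := fun ω hω => h ω (h1.trans hω)
  refine ⟨h2, h3, ContinuousOn.circleIntegrable h2.le fun z hz => ?_, res_eq h2 h3⟩
  exact (h3 z (by simpa using (mem_sphere_zero_iff_norm.1 hz).ge)).continuousAt.continuousWithinAt

theorem Ext.add {G H : ℂ → ℂ} (hG : Ext G) (hH : Ext H) : Ext fun z => G z + H z := by
  obtain ⟨R, h1, h2⟩ := (hG.ev.and hH.ev).exists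
  exact ⟨R, fun ω hω => (h1.2.1 ω hω).add (h2.2.1 ω hω)⟩

theorem Ext.sub {G H : ℂ → ℂ} (hG : Ext G) (hH : Ext H) : Ext fun z => G z - H z := by
  obtain ⟨R, h1, h2⟩ := (hG.ev.and hH.ev).exists
  exact ⟨R, fun ω hω => (h1.2.1 ω hω).sub (h2.2.1 ω hω)⟩

theorem Ext.mul {G H : ℂ → ℂ} (hG : Ext G) (hH : Ext H) : Ext fun z => G z * H z := by
  obtain ⟨R, h1, h2⟩ := (hG.ev.and hH.ev).exists
  exact ⟨R, fun ω hω => (h1.2.1 ω hω).mul (h2.2.1 ω hω)⟩

theorem Ext.of_diff {G : ℂ → ℂ} (hG : Differentiable ℂ G) : Ext G := ⟨0, fun ω _ => hG ω⟩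

theorem Ext.sum {α : Type*} (s : Finset α) {G : α → ℂ → ℂ} (h : ∀ i ∈ s, Ext (G i)) :
    Ext fun z => ∑ i ∈ s, G i z := by
  classical
  induction s using Finset.induction_on with
  | empty => simpa using Ext.of_diff (differentiable_const _)
  | insert a s ha ih =>
    simp only [Finset.sum_insert ha]
    exact (h a (by simp)).add (ih fun i hi => h i (by simp [hi]))

theorem res_add {G H : ℂ → ℂ} (hG : Ext G) (hH : Ext H) :
    res (fun z => G z + H z) = res G + res H := by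
  obtain ⟨R, h1, h2, h3⟩ := (hG.ev.and (hH.ev.and (hG.add hH).ev)).exists
  rw [h1.2.2.2, h2.2.2.2, h3.2.2.2, circleIntegral.integral_add h1.2.2.1 h2.2.2.1]

theorem res_sub {G H : ℂ → ℂ} (hG : Ext G) (hH : Ext H) :
    res (fun z => G z - H z) = res G - res H := by
  obtain ⟨R, h1, h2, h3⟩ := (hG.ev.and (hH.ev.and (hG.sub hH).ev)).exists
  rw [h1.2.2.2, h2.2.2.2, h3.2.2.2, circleIntegral.integral_sub h1.2.2.1 h2.2.2.1]

theorem res_const_mul (c : ℂ) {G : ℂ → ℂ} (hG : Ext G) :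
    res (fun z => c * G z) = c * res G := by
  obtain ⟨R, h1, h2⟩ := (hG.ev.and ((Ext.of_diff (differentiable_const c)).mul hG).ev).exists
  rw [h1.2.2.2, h2.2.2.2, circleIntegral.integral_const_mul]

theorem res_of_diff {G : ℂ → ℂ} (hG : Differentiable ℂ G) : res G = 0 := by
  rw [res_eq one_pos fun ω _ => hG ω]
  exact (hG.diffContOnCl).circleIntegral_eq_zero zero_le_one

theorem res_sum {α : Type*} (s : Finset α) {G : α → ℂ → ℂ} (h : ∀ i ∈ s, Ext (G i)) :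
    res (fun z => ∑ i ∈ s, G i z) = ∑ i ∈ s, res (G i) := by
  classical
  induction s using Finset.induction_on with
  | empty => simpa using res_of_diff (differentiable_const _)
  | insert a s ha ih =>
    simp only [Finset.sum_insert ha]
    rw [res_add (h a (by simp)) (Ext.sum s fun i hi => h i (by simp [hi])),
      ih fun i hi => h i (by simp [hi])]

theorem norm_res_le {G : ℂ → ℂ} {ρ c : ℝ} (hρ : 0 < ρ)
    (h : ∀ ω : ℂ, ρ ≤ ‖ω‖ → DifferentiableAt ℂ G ω) (hc : ∀ ω : ℂ, ‖ω‖ = ρ → ‖G ω‖ ≤ c) :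
    ‖res G‖ ≤ 2 * Real.pi * ρ * c := by
  rw [res_eq hρ h]
  exact circleIntegral.norm_integral_le_of_norm_le_const hρ.le fun z hz =>
    hc z (mem_sphere_zero_iff_norm.1 hz)

theorem res_of_decay {G : ℂ → ℂ} (hG : Ext G) {c R1 : ℝ}
    (hc : ∀ ω : ℂ, R1 ≤ ‖ω‖ → ‖G ω‖ ≤ c / ‖ω‖ ^ 2) : res G = 0 := by
  have h1 : ∀ᶠ R : ℝ in atTop, ‖res G‖ ≤ 2 * Real.pi * c * R⁻¹ := by
    filter_upwards [hG.ev, eventually_ge_atTop R1] with R h2 h3
    refine (norm_res_le (c := c / R ^ 2) h2.1 h2.2.1 fun ω hω => ?_).trans (le_of_eq ?_)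
    · simpa [hω] using hc ω (hω ▸ h3)
    · have := h2.1
      field_simp
  have h2 : Tendsto (fun R : ℝ => 2 * Real.pi * c * R⁻¹) atTop (𝓝 (2 * Real.pi * c * 0)) :=
    tendsto_inv_atTop_zero.const_mul _
  rw [mul_zero] at h2
  exact norm_le_zero_iff.1 (ge_of_tendsto h2 h1)

/-- change of variables close to the identity -/
theorem res_comp {G τ τ1 : ℂ → ℂ} (hG : Ext G) {ρ A : ℝ}
    (hτ : ∀ v : ℂ, ρ ≤ ‖v‖ → HasDerivAt τ (τ1 v) v ∧ DifferentiableAt ℂ τ1 v ∧ ‖τ v - v‖ ≤ A) :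
    Ext (fun v => G (τ v) * τ1 v) ∧ res (fun v => G (τ v) * τ1 v) = res G := by
  obtain ⟨R1, hR1⟩ := hG
  have hE : Ext fun v => G (τ v) * τ1 v := by
    refine ⟨max ρ (R1 + A), fun v hv => ?_⟩
    obtain ⟨h1, h2, h3⟩ := hτ v ((le_max_left _ _).trans hv)
    refine ((hR1 _ ?_).comp v h1.differentiableAt).mul h2
    have h4 := (le_max_right _ _).trans hv
    have h5 : ‖v‖ ≤ ‖τ v‖ + ‖τ v - v‖ := by
      simpa using norm_sub_le (τ v) (τ v - v)
    linarith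
  refine ⟨hE, ?_⟩
  have hG : Ext G := ⟨R1, hR1⟩
  obtain ⟨R, h1, h2, h3, h4⟩ := (hE.ev.and (hG.ev.and ((eventually_ge_atTop (ρ + 1)).and
    (eventually_ge_atTop (R1 + A + 2))))).exists
  rw [h1.2.2.2, h2.2.2.2, ← sub_eq_zero, ← circleIntegral.integral_sub h1.2.2.1 h2.2.2.1]
  refine circleIntegral.integral_eq_zero_of_hasDerivWithinAt
    (f := fun v => ∫ t in (0 : ℝ)..1, G (v + t * (τ v - v)) * (τ v - v)) h1.1.le fun v0 hv0 => ?_
  have hv0' : ‖v0‖ = R := mem_sphere_zero_iff_norm.1 hv0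
  have hA : 0 ≤ A := (norm_nonneg _).trans (hτ v0 (by linarith)).2.2
  have hd : DifferentiableOn ℂ G (ball v0 (A + 2)) := by
    refine fun ω hω => (hR1 ω ?_).differentiableWithinAt
    have h5 : ‖v0‖ ≤ ‖ω‖ + ‖ω - v0‖ := by simpa using norm_sub_le ω (ω - v0)
    rw [mem_ball, dist_eq_norm] at hω
    linarith
  obtain ⟨F, hF⟩ := hd.isExactOn_ball
  have hnear : ∀ v ∈ ball v0 1, ρ ≤ ‖v‖ := by
    intro v hv
    have h5 : ‖v0‖ ≤ ‖v‖ + ‖v - v0‖ := by simpa using norm_sub_le v (v - v0)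
    rw [mem_ball, dist_eq_norm] at hv
    linarith
  have hseg : ∀ v ∈ ball v0 1, ∀ t ∈ Icc (0 : ℝ) 1, v + t * (τ v - v) ∈ ball v0 (A + 2) := by
    intro v hv t ht
    have h5 := (hτ v (hnear v hv)).2.2
    rw [mem_ball, dist_eq_norm] at hv ⊢
    have h6 : v + t * (τ v - v) - v0 = (v - v0) + t * (τ v - v) := by ring
    have h7 : ‖(t : ℂ) * (τ v - v)‖ ≤ A := by
      rw [norm_mul, Complex.norm_real, Real.norm_of_nonneg ht.1]
      nlinarith [ht.1, ht.2, norm_nonneg (τ v - v)]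
    rw [h6]
    linarith [norm_add_le (v - v0) (t * (τ v - v))]
  have heq : ∀ v ∈ ball v0 1,
      (∫ t in (0 : ℝ)..1, G (v + t * (τ v - v)) * (τ v - v)) = F (τ v) - F v := by
    intro v hv
    have h5 : ∀ t ∈ uIcc (0 : ℝ) 1, HasDerivAt (fun t : ℝ => F (v + t * (τ v - v)))
        (G (v + t * (τ v - v)) * (τ v - v)) t := by
      intro t ht
      rw [uIcc_of_le zero_le_one] at ht
      have h6 : HasDerivAt (fun u : ℂ => v + u * (τ v - v)) (τ v - v) t := by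
        simpa using ((hasDerivAt_id (t : ℂ)).mul_const (τ v - v)).const_add v
      exact ((hF _ (hseg v hv t ht)).comp (t : ℂ) h6).comp_ofReal
    rw [intervalIntegral.integral_eq_sub_of_hasDerivAt h5]
    · simp
    · refine ContinuousOn.intervalIntegrable (ContinuousOn.mul ?_ continuousOn_const)
      rw [uIcc_of_le zero_le_one]
      exact hd.continuousOn.comp (by fun_prop) fun t ht => hseg v hv t ht
  have hm : τ v0 ∈ ball v0 (A + 2) := by
    simpa using hseg v0 (mem_ball_self one_pos) 1 ⟨zero_le_one, le_rfl⟩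
  have h8 : HasDerivAt (fun v => F (τ v) - F v) (G (τ v0) * τ1 v0 - G v0) v0 :=
    ((hF _ hm).comp v0 (hτ v0 (by linarith)).1).sub (hF _ (mem_ball_self (by linarith)))
  refine (h8.congr_of_eventuallyEq ?_).hasDerivWithinAt
  filter_upwards [ball_mem_nhds v0 one_pos] with v hv using heq v hv

/-- the residue computed on a uniformised contour -/
theorem res_eq_contour {G τ τ1 : ℂ → ℂ} (hG : Ext G) {ρ A : ℝ} (hρ : 0 < ρ)
    (hτ : ∀ v : ℂ, ρ ≤ ‖v‖ → HasDerivAt τ (τ1 v) v ∧ DifferentiableAt ℂ τ1 v ∧ ‖τ v - v‖ ≤ A)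
    (hd : ∀ v : ℂ, ρ ≤ ‖v‖ → DifferentiableAt ℂ G (τ v)) :
    res G = ∮ v in C(0, ρ), G (τ v) * τ1 v := by
  rw [← (res_comp hG hτ).2]
  exact res_eq hρ fun v hv => ((hd v hv).comp v (hτ v hv).1.differentiableAt).mul (hτ v hv).2.1

end Vale.Agent.P218SQ
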