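import Vale.Agent.P218SQ.Poly
import Mathlib.Analysis.Calculus.Deriv.Polynomial
import Mathlib.Analysis.Calculus.Deriv.Inv
import Mathlib.Algebra.Polynomial.FieldDivision
import Mathlib.RingTheory.EuclideanDomain

/-! Expansion of the tip position. -/

open Set Filter Topology Polynomial

namespace Vale.Agent.P218SQ

/-- real polynomial of degree less than `q` -/
noncomputable def Dp (d : ℕ → ℝ) (q : ℕ) (v : ℂ) : ℂ := ∑ r ∈ Finset.range q, (d r : ℂ) * v ^ r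

theorem ev_small {q : ℕ} (c : ℝ) {η : ℝ} (hη : 0 < η) :
    ∀ᶠ N : ℕ in atTop, ∀ x : ℝ, x ^ q * N ≤ c → x < η := by
  filter_upwards [tendsto_natCast_atTop_atTop.eventually (eventually_gt_atTop (c / η ^ q))]
    with N hN x hx
  by_contra hh
  have h1 : η ^ q ≤ x ^ q := pow_le_pow_left₀ hη.le (not_lt.1 hh) q
  rw [div_lt_iff₀ (by positivity)] at hN
  have h2 : η ^ q * N ≤ x ^ q * N := by gcongr
  linarith

theorem ev_large {q : ℕ} {c : ℝ} (hc : 0 < c) (R : ℝ) :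
    ∀ᶠ N : ℕ in atTop, ∀ x : ℝ, 0 ≤ x → c * N ≤ x ^ q → R < x := by
  filter_upwards [tendsto_natCast_atTop_atTop.eventually
    (eventually_gt_atTop (max R 0 ^ q / c))] with N hN x hx0 hx
  by_contra hh
  have h1 : x ^ q ≤ max R 0 ^ q :=
    pow_le_pow_left₀ hx0 ((not_lt.1 hh).trans (le_max_left _ _)) q
  rw [div_lt_iff₀ hc] at hN
  linarith

theorem exists_inv {q : ℕ} {U : ℝ[X]} {e : ℝ} (he : e = 1 ∨ e = -1) (hU : U.coeff 0 = e) :
    ∃ T : ℝ[X], X ^ (q + 1) ∣ T * U - 1 ∧ ∀ n, n ≤ q + 1 → X ^ n ∣ U - C e →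
      X ^ n ∣ T - C e ∧ (1 ≤ n → n ≤ q → (T - C e).coeff n = -(U - C e).coeff n) := by
  have he2 : e * e = 1 := by rcases he with rfl | rfl <;> norm_num
  have hC : (C e : ℝ[X]) * C e = 1 := by rw [← C_mul, he2, C_1]
  have h1 : IsCoprime (X ^ (q + 1) : ℝ[X]) U := by
    refine IsCoprime.pow_left ((irreducible_X (R := ℝ)).coprime_iff_not_dvd.2 ?_)
    rw [X_dvd_iff, hU]
    rcases he with rfl | rfl <;> norm_num
  obtain ⟨a, T, h⟩ := h1
  have h2 : X ^ (q + 1) ∣ T * U - 1 := ⟨-a, by linear_combination h⟩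
  refine ⟨T, h2, fun n hn hd => ?_⟩
  have h3 : X ^ n ∣ T - C e := by
    have e1 : T - C e = C e * (T * U - 1) - C e * T * (U - C e) := by
      linear_combination (-T) * hC
    rw [e1]
    exact dvd_sub (((pow_dvd_pow _ hn).trans h2).mul_left _) (hd.mul_left _)
  refine ⟨h3, fun hn1 hnq => ?_⟩
  have e2 : T - C e = C e * (T * U - 1) - C e * ((T - C e) * (U - C e)) - (U - C e) := by
    linear_combination (C e - T - U) * hC
  have h4 : X ^ (n + n) ∣ (T - C e) * (U - C e) := by rw [pow_add]; exact mul_dvd_mul h3 hd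
  rw [e2, coeff_sub, coeff_sub, coeff_C_mul, coeff_C_mul, X_pow_dvd_iff.1 h2 n (by omega),
    X_pow_dvd_iff.1 h4 n (by omega)]
  ring

theorem tip_exp {q : ℕ} {e : ℝ} {U T : ℝ[X]} (hT0 : T.coeff 0 = e)
    (hT : X ^ (q + 1) ∣ T * U - 1) {a : ℕ → ℂ → ℂ} {C0 : ℝ} (hC0 : 0 ≤ C0)
    (ha : ∀ᶠ N : ℕ in atTop, ∀ s : ℂ, ‖s‖ ^ q * N ≤ 7 / 2 →
      ‖a N s - s ^ q * aeval s U‖ ≤ C0 * ‖s‖ ^ (2 * q + 1)) :
    ∃ C : ℝ, 0 ≤ C ∧ ∀ᶠ N : ℕ in atTop, ∀ v : ℂ, 2 * N ≤ 7 * ‖v‖ ^ q → a N v⁻¹ ≠ 0 ∧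
      ‖(a N v⁻¹)⁻¹ - (e * v ^ q + Dp (fun r => T.coeff (q - r)) q v)‖ ≤ C / ‖v‖ := by
  obtain ⟨C2, hC2, h2⟩ := poly_bound (P := T) (n := 0) (by simp)
  obtain ⟨C3, hC3, h3⟩ := poly_bound hT
  obtain ⟨C4, hC4, h4⟩ := poly_bound (poly_trunc T (q + 1))
  refine ⟨2 * C2 * (C2 * C0 + C3) + C4, by positivity, ?_⟩
  filter_upwards [ha, ev_large (q := q) (show (0 : ℝ) < 2 / 7 by norm_num)
    (1 + 2 * (C2 * C0 + C3))] with N hN hl v hv
  have b8 := hl ‖v‖ (norm_nonneg _) (by linarith)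
  have hp : 0 ≤ C2 * C0 + C3 := by positivity
  have b5 : 0 < ‖v‖ := by linarith
  have b0 : v ≠ 0 := norm_pos_iff.1 b5
  have b1 : ‖v⁻¹‖ ≤ 1 := by rw [norm_inv]; exact inv_le_one_of_one_le₀ (by linarith)
  have b2 := hN v⁻¹ (by rw [norm_inv, inv_pow, inv_mul_le_iff₀ (by positivity)]; linarith)
  have e0 : v ^ q * aeval v⁻¹ (∑ k ∈ Finset.range (q + 1), monomial k (T.coeff k)) =
      e * v ^ q + Dp (fun r => T.coeff (q - r)) q v := by
    rw [map_sum, Finset.mul_sum, ← Finset.sum_range_reflect, Finset.sum_range_succ, Dp, add_comm]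
    congr 1
    · simp [hT0, mul_comm]
    · refine Finset.sum_congr rfl fun r hr => ?_
      have hr' : r ≤ q := (Finset.mem_range.1 hr).le
      have e2 : v ^ q = v ^ r * v ^ (q - r) := by rw [← pow_add, Nat.add_sub_cancel' hr']
      simp only [add_tsub_cancel_right, aeval_monomial, Complex.coe_algebraMap, e2, inv_pow]
      field_simp
  have b6 := h2 _ b1
  have b7 := h3 _ b1
  have b9 := h4 _ b1
  rw [map_sub] at b9
  rw [map_sub, map_mul, map_one] at b7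
  rw [pow_zero, mul_one] at b6
  rw [← e0]
  generalize aeval v⁻¹ (∑ k ∈ Finset.range (q + 1), monomial k (T.coeff k)) = t0 at *
  generalize aeval v⁻¹ T = t at *
  generalize aeval v⁻¹ U = u at *
  generalize a N v⁻¹ = A at *
  rw [norm_inv, inv_pow] at b7 b9
  rw [inv_pow] at b2
  have e2 : A * v ^ q * t - 1 = t * ((A - (v ^ q)⁻¹ * u) * v ^ q) + (t * u - 1) := by
    field_simp; ring
  have b3 : ‖A * v ^ q * t - 1‖ ≤ (C2 * C0 + C3) / ‖v‖ ^ (q + 1) := by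
    rw [e2]
    refine (norm_add_le_of_le (norm_mul_le_of_le b6 (norm_mul_le_of_le b2 (norm_pow v q).le))
      b7).trans (le_of_eq ?_)
    rw [norm_inv, inv_pow]
    field_simp
    ring
  have b4 : (C2 * C0 + C3) / ‖v‖ ^ (q + 1) ≤ 1 / 2 := by
    have : ‖v‖ ≤ ‖v‖ ^ (q + 1) := le_self_pow₀ (by linarith) (by omega)
    rw [div_le_iff₀ (by positivity)]; linarith
  have b10 : 1 / 2 ≤ ‖A * v ^ q * t‖ := by
    have := norm_sub_le (A * v ^ q * t) (A * v ^ q * t - 1)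
    rw [sub_sub_cancel, norm_one] at this
    linarith
  have b11 : A * v ^ q * t ≠ 0 := norm_pos_iff.1 (by linarith)
  have hA : A ≠ 0 := left_ne_zero_of_mul (left_ne_zero_of_mul b11)
  have ht : t ≠ 0 := right_ne_zero_of_mul b11
  refine ⟨hA, ?_⟩
  have e3 : A⁻¹ - v ^ q * t0 = -(v ^ q * t * (A * v ^ q * t - 1)) / (A * v ^ q * t) +
      v ^ q * (t - t0) := by
    field_simp; ring
  have b12 : ‖-(v ^ q * t * (A * v ^ q * t - 1)) / (A * v ^ q * t)‖ ≤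
      ‖v‖ ^ q * C2 * ((C2 * C0 + C3) / ‖v‖ ^ (q + 1)) / (1 / 2) := by
    rw [norm_div, norm_neg, norm_mul, norm_mul, norm_pow]; gcongr
  rw [e3]
  refine (norm_add_le_of_le b12 (norm_mul_le_of_le (norm_pow v q).le b9)).trans (le_of_eq ?_)
  field_simp
  ring

end Vale.Agent.P218SQ
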