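import Vale.Agent.P218SQ.Defs
import Vale.Agent.P218SQ.Unif
import Vale.Agent.P218SQ.Res

/-! Normalisation of the arc: reference end, uniformisers, vanishing of the residue functional. -/

open Set Filter Topology Polynomial Asymptotics

namespace Vale.Agent.P218SQ

variable {ι κ : Type*} [Fintype ι] [Fintype κ]

theorem isOpen_endDom (β K w : ℝ) : IsOpen (endDom β K w) := by
  unfold endDom
  simp only [ofPred_or, ofPred_and]
  exact (isOpen_lt (by fun_prop) continuous_const).union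
    ((isOpen_lt (by fun_prop) (by fun_prop)).inter (isOpen_lt (by fun_prop) continuous_const))

theorem isOpen_dom (β K r : ℝ) (W : ι → ℝ) : IsOpen (dom β K r W : Set (Pt ι κ)) := by
  have h : (dom β K r W : Set (Pt ι κ)) =
      (⋂ j, (fun z : Pt ι κ => z.1 j) ⁻¹' endDom β K (W j)) ∩ {z | ‖z.2‖ < r} := by
    ext z; simp [dom]
  rw [h]
  exact (isOpen_iInter_of_finite fun j => (isOpen_endDom _ _ _).preimage (by fun_prop)).inter
    (isOpen_lt (by fun_prop) continuous_const)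

omit [Fintype ι] in
theorem zero_mem_dom (β K : ℝ) {r : ℝ} (hr : 0 < r) (W : ι → ℝ) :
    (0 : Pt ι κ) ∈ dom β K r W := ⟨fun j => Or.inl (by simp), by simpa using hr⟩

/-- size of the truncated arcs on the disc `‖s‖ ^ q * N ≤ c` -/
def Small (q : ℕ) (c : ℝ) (U : ι → ℝ[X]) (g : ℕ → ℂ → Pt ι κ) (C : ℝ) : Prop :=
  ∀ᶠ N : ℕ in atTop, ∀ s : ℂ, ‖s‖ ^ q * N ≤ c →
    (∀ j, ‖(g N s).1 j - s ^ q * aeval s (U j)‖ ≤ C * ‖s‖ ^ (2 * q + 1)) ∧ ‖(g N s).2‖ ≤ C * ‖s‖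

omit [Fintype ι] in
theorem Small.comp {q : ℕ} {c c' C : ℝ} {U : ι → ℝ[X]} {g : ℕ → ℂ → Pt ι κ}
    (h : Small q c U g C) (hc : c' < c) {Z : ℝ[X]} (hZ : Z.coeff 0 = 1) :
    Small q c' (fun j => Z ^ q * (U j).comp (X * Z)) (fun N s => g N (s * aeval s Z))
      (|C| * 2 ^ (2 * q + 1)) := by
  have h0 : aeval (0 : ℂ) Z = 1 := by
    rw [← coeff_zero_eq_aeval_zero', hZ, map_one]
  have h1 : Tendsto (fun s : ℂ => ‖aeval s Z‖) (𝓝 0) (𝓝 1) := by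
    simpa [h0] using ((Z.continuous_aeval (A := ℂ)).tendsto 0).norm
  have h2 := (h1.pow q).mul_const c'
  rw [one_pow, one_mul] at h2
  obtain ⟨η, hη, h3⟩ := Metric.eventually_nhds_iff.1 ((h2.eventually (gt_mem_nhds hc)).and
    (h1.eventually (gt_mem_nhds one_lt_two)))
  filter_upwards [h, ev_small (q := q) c' hη] with N hN hs s hs'
  obtain ⟨h4, h5⟩ := h3 (y := s) (by simpa using hs _ hs')
  obtain ⟨h6, h7⟩ := hN (s * aeval s Z) (by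
    rw [norm_mul, mul_pow, mul_right_comm]
    have := mul_le_mul_of_nonneg_right hs' (pow_nonneg (norm_nonneg (aeval s Z)) q)
    linarith)
  have h8 : ‖s * aeval s Z‖ ≤ 2 * ‖s‖ := by
    rw [norm_mul, mul_comm]; gcongr
  have h9 : (2 : ℝ) ≤ 2 ^ (2 * q + 1) := le_self_pow₀ one_le_two (by omega)
  refine ⟨fun j => ?_, h7.trans ?_⟩
  · have e : s ^ q * aeval s (Z ^ q * (U j).comp (X * Z)) =
        (s * aeval s Z) ^ q * aeval (s * aeval s Z) (U j) := by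
      simp only [map_mul, map_pow, aeval_comp, aeval_X]; ring
    rw [e]
    refine (h6 j).trans ?_
    rw [mul_assoc, ← mul_pow]
    gcongr
    exact le_abs_self C
  · calc _ ≤ |C| * (2 * ‖s‖) := by gcongr; exact le_abs_self C
      _ ≤ _ := by rw [mul_assoc]; gcongr

theorem tendsto_inv_mul_aeval (Z : ℝ[X]) :
    Tendsto (fun ω : ℂ => ω⁻¹ * aeval ω⁻¹ Z) (Bornology.cobounded ℂ) (𝓝 0) := by
  have h1 : Tendsto (fun ω : ℂ => ω⁻¹) (Bornology.cobounded ℂ) (𝓝 0) := tendsto_inv₀_cobounded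
  simpa using h1.mul (((Z.continuous_aeval (A := ℂ)).tendsto 0).comp h1)

theorem diffAt_inv_mul_aeval (Z : ℝ[X]) {ω : ℂ} (hω : ω ≠ 0) :
    DifferentiableAt ℂ (fun ω : ℂ => ω⁻¹ * aeval ω⁻¹ Z) ω :=
  (differentiableAt_inv hω).mul ((Z.differentiableAt_aeval).comp ω (differentiableAt_inv hω))

theorem Ext.of_ev {G : ℂ → ℂ} (h : ∀ᶠ ω in Bornology.cobounded ℂ, DifferentiableAt ℂ G ω) :
    Ext G := by
  rw [← comap_norm_atTop, eventually_comap] at h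
  obtain ⟨R, hR⟩ := eventually_atTop.1 h
  exact ⟨R, fun ω hω => hR _ hω ω rfl⟩

theorem ext_comp {H : ℂ → ℂ} (hH : ∀ᶠ s in 𝓝 0, DifferentiableAt ℂ H s) (Z : ℝ[X]) :
    Ext fun ω => H (ω⁻¹ * aeval ω⁻¹ Z) := by
  refine Ext.of_ev ?_
  filter_upwards [(tendsto_inv_mul_aeval Z).eventually hH,
    Bornology.eventually_ne_cobounded 0] with ω h1 h2
  exact h1.comp ω (diffAt_inv_mul_aeval Z h2)

theorem res_jet {H Φ : ℂ → ℂ} (hH : ∀ᶠ s in 𝓝 0, DifferentiableAt ℂ H s) (Z : ℝ[X])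
    {D k : ℕ} {c : ℕ → ℂ} (hk : k + 1 ≤ D) (hΦ : Differentiable ℂ Φ) {c1 : ℝ}
    (hΦ1 : ∀ ω : ℂ, 1 ≤ ‖ω‖ → ‖Φ ω‖ ≤ c1 * ‖ω‖ ^ k)
    (hj : (fun s : ℂ => H s - ∑ n ∈ Finset.range (D + 1), c n * s ^ n) =O[𝓝 0]
      fun s : ℂ => s ^ (D + 1)) :
    res (fun ω => H (ω⁻¹ * aeval ω⁻¹ Z) * Φ ω) =
      ∑ n ∈ Finset.range (D + 1), c n * res fun ω => (ω⁻¹ * aeval ω⁻¹ Z) ^ n * Φ ω := by
  have e1 : ∀ n, Ext fun ω : ℂ => (ω⁻¹ * aeval ω⁻¹ Z) ^ n * Φ ω := fun n =>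
    (ext_comp (H := fun s => s ^ n) (Eventually.of_forall fun s => by fun_prop) Z).mul
      (Ext.of_diff hΦ)
  have e2 : ∀ n, Ext fun ω : ℂ => c n * ((ω⁻¹ * aeval ω⁻¹ Z) ^ n * Φ ω) := fun n =>
    (Ext.of_diff (differentiable_const _)).mul (e1 n)
  have e3 := (ext_comp hH Z).mul (Ext.of_diff hΦ)
  have e4 := Ext.sum (Finset.range (D + 1)) fun n _ => e2 n
  simp only [← res_const_mul _ (e1 _)]
  rw [← res_sum _ fun n _ => e2 n, ← sub_eq_zero, ← res_sub e3 e4]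
  obtain ⟨C1, h1⟩ := (hj.comp_tendsto (tendsto_inv_mul_aeval Z)).bound
  obtain ⟨C2, hC2, h2⟩ := poly_bound (P := Z) (n := 0) (by simp)
  rw [← comap_norm_atTop, eventually_comap] at h1
  obtain ⟨R, hR⟩ := eventually_atTop.1 h1
  refine res_of_decay (e3.sub e4) (c := |C1| * C2 ^ (D + 1) * |c1|) (R1 := max R 1)
    fun ω hω => ?_
  have h3 : 1 ≤ ‖ω‖ := (le_max_right _ _).trans hω
  have h4 := hR _ ((le_max_left _ _).trans hω) ω rfl
  have h5 : ‖ω⁻¹ * aeval ω⁻¹ Z‖ ≤ ‖ω‖⁻¹ * C2 := by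
    rw [norm_mul, norm_inv]
    gcongr
    simpa using h2 ω⁻¹ (by rw [norm_inv]; exact inv_le_one_of_one_le₀ h3)
  simp only [Function.comp_def, norm_pow] at h4
  simp only [← mul_assoc, ← Finset.sum_mul, ← sub_mul]
  rw [norm_mul]
  calc _ ≤ |C1| * (‖ω‖⁻¹ * C2) ^ (D + 1) * (|c1| * ‖ω‖ ^ (D - 1)) := by
        refine mul_le_mul (h4.trans ?_) ((hΦ1 ω h3).trans ?_) (norm_nonneg _) (by positivity)
        · gcongr; exact le_abs_self _
        · gcongr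
          · exact le_abs_self _
          · omega
    _ = _ := by
        obtain ⟨D', rfl⟩ : ∃ D', D = D' + 1 := ⟨D - 1, by omega⟩
        rw [Nat.add_sub_cancel, mul_pow, inv_pow]
        field_simp
        ring

/-- normalised arcs, in the variable `ω = 1 / s` -/
structure NArc (f : (ι → ℝ) → Pt ι κ → ℂ) (q : ℕ) (lam : ι → ℝ) (G : ℕ → ℂ → Pt ι κ) (C : ℝ) :
    Prop where
  one_le : 1 ≤ q
  nonneg : 0 ≤ C
  le_one : ∀ j, |lam j| ≤ 1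
  diff : ∀ N ω, ω ≠ 0 → DifferentiableAt ℂ (G N) ω
  small : ∀ᶠ N : ℕ in atTop, ∀ ω : ℂ, 2 * N ≤ 7 * ‖ω‖ ^ q →
    (∀ j, ‖(G N ω).1 j * ω ^ q - lam j‖ ≤ C / ‖ω‖) ∧ ‖(G N ω).2‖ ≤ C / ‖ω‖
  lim : ∀ᶠ N : ℕ in atTop, ∀ Φ : ℂ → ℂ, Differentiable ℂ Φ →
    (∃ c : ℝ, ∀ ω : ℂ, 1 ≤ ‖ω‖ → ‖Φ ω‖ ≤ c * ‖ω‖ ^ (q * (N + N / 20))) →
    Tendsto (fun w : ℕ => res fun ω => f (fun _ => (w : ℝ)) (G N ω) * Φ ω) atTop (𝓝 0)

/-- expansion of the tip position of an end -/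
def Tip (q : ℕ) (e : ℝ) (a : ℕ → ℂ → ℂ) (d : ℕ → ℝ) : Prop :=
  ∃ C : ℝ, 0 ≤ C ∧ ∀ᶠ N : ℕ in atTop, ∀ v : ℂ, 2 * N ≤ 7 * ‖v‖ ^ q → a N v ≠ 0 ∧
    ‖(a N v)⁻¹ - (e * v ^ q + Dp d q v)‖ ≤ C / ‖v‖

theorem small_narc {q : ℕ} {U : ι → ℝ[X]} {g : ℕ → ℂ → Pt ι κ} {C : ℝ} (hC : 0 ≤ C)
    (h : Small q (7 / 2) U g C) : ∃ C' : ℝ, 0 ≤ C' ∧ ∀ᶠ N : ℕ in atTop, ∀ ω : ℂ,
      2 * N ≤ 7 * ‖ω‖ ^ q → (∀ j, ‖(g N ω⁻¹).1 j * ω ^ q - (U j).coeff 0‖ ≤ C' / ‖ω‖) ∧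
        ‖(g N ω⁻¹).2‖ ≤ C' / ‖ω‖ := by
  have h1 : ∀ j, ∃ C1 : ℝ, 0 ≤ C1 ∧ ∀ s : ℂ, ‖s‖ ≤ 1 →
      ‖aeval s (U j - Polynomial.C ((U j).coeff 0))‖ ≤ C1 * ‖s‖ ^ 1 := fun j =>
    poly_bound (by rw [pow_one, X_dvd_iff]; simp)
  choose C1 h0 h1 using h1
  have hS : 0 ≤ ∑ j, C1 j := Finset.sum_nonneg fun j _ => h0 j
  refine ⟨C + ∑ j, C1 j, by positivity, ?_⟩
  filter_upwards [h, ev_large (q := q) (show (0 : ℝ) < 2 / 7 by norm_num) 1] with N hN hl ω hω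
  have b8 := hl ‖ω‖ (norm_nonneg _) (by linarith)
  have b5 : 0 < ‖ω‖ := by linarith
  have b0 : ω ≠ 0 := norm_pos_iff.1 b5
  have b1 : ‖ω⁻¹‖ ≤ 1 := by rw [norm_inv]; exact inv_le_one_of_one_le₀ b8.le
  obtain ⟨b2, b3⟩ := hN ω⁻¹ (by
    rw [norm_inv, inv_pow, inv_mul_le_iff₀ (by positivity)]; linarith)
  refine ⟨fun j => ?_, b3.trans ?_⟩
  · have e : (g N ω⁻¹).1 j * ω ^ q - (U j).coeff 0 =
        ((g N ω⁻¹).1 j - ω⁻¹ ^ q * aeval ω⁻¹ (U j)) * ω ^ q +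
          aeval ω⁻¹ (U j - Polynomial.C ((U j).coeff 0)) := by
      simp only [map_sub, aeval_C, Complex.coe_algebraMap, inv_pow]
      generalize aeval ω⁻¹ (U j) = z
      generalize (g N ω⁻¹).1 j = a
      field_simp
      ring
    rw [e]
    refine (norm_add_le_of_le (norm_mul_le_of_le (b2 j) (norm_pow ω q).le) (h1 j _ b1)).trans ?_
    have b6 : C1 j ≤ ∑ j, C1 j := Finset.single_le_sum (fun j _ => h0 j) (Finset.mem_univ j)
    have b7 : ‖ω‖⁻¹ ^ (2 * q + 1) * ‖ω‖ ^ q ≤ ‖ω‖⁻¹ := by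
      have : ‖ω‖⁻¹ ^ (2 * q + 1) * ‖ω‖ ^ q = ‖ω‖⁻¹ ^ (q + 1) := by
        rw [inv_pow, inv_pow]; field_simp; ring
      rw [this]
      exact pow_le_of_le_one (by positivity) (inv_le_one_of_one_le₀ b8.le) (by omega)
    rw [norm_inv, pow_one, mul_assoc, div_eq_mul_inv, add_mul]
    gcongr
  · rw [norm_inv, div_eq_mul_inv]
    gcongr
    linarith

theorem normalise [DecidableEq ι] {f : (ι → ℝ) → Pt ι κ → ℂ} {β K r w0 C0 : ℝ} {B : ℕ}
    (hf : SeqData f β K r w0 C0 B) {q : ℕ} {U : ι → ℝ[X]} {g : ℕ → ℂ → Pt ι κ}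
    (hg : ArcData f q U g) :
    ∃ (e : ℝ) (lam : ι → ℝ) (G : ℕ → ℂ → Pt ι κ) (C : ℝ) (d : ι → ℕ → ℝ),
      (e = 1 ∨ e = -1) ∧ NArc f q lam G C ∧
      (∀ j, lam j = e → Tip q e (fun N ω => (G N ω).1 j) (d j) ∧
        ((∀ r < q, d j r = 0) ∨
          ∃ r0 < q, (∀ r, r0 < r → r < q → d j r = 0) ∧ 0 < e * d j r0)) ∧
      ∃ j0, lam j0 = e ∧ ∀ r < q, d j0 r = 0 := by
  obtain ⟨j1, hj1⟩ := hg.top
  have hq := hg.one_le
  set e := (U j1).coeff 0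
  have he : e = 1 ∨ e = -1 := (abs_eq zero_le_one).1 hj1
  have he0 : e ≠ 0 := by rcases he with h | h <;> rw [h] <;> norm_num
  obtain ⟨j0, hj0, hlex⟩ := exists_ref q U he0 ⟨j1, rfl⟩
  obtain ⟨Z0, hZ0, hZ0'⟩ := exists_unif hq he0 hj0 q
  obtain ⟨C1, hs⟩ := hg.small
  have hs1 := Small.comp (q := q) (U := U) (g := g) hs (show (7 : ℝ) / 2 < 4 by norm_num) hZ0
  set U' : ι → ℝ[X] := fun j => Z0 ^ q * (U j).comp (X * Z0) with hU'
  set g' : ℕ → ℂ → Pt ι κ := fun N s => g N (s * aeval s Z0) with hg'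
  have hc0 : ∀ j, (U' j).coeff 0 = (U j).coeff 0 := fun j =>
    (lead_comp hZ0 q (n := 0) (by simp)).2
  obtain ⟨C2, hC2, hs2⟩ := small_narc (by positivity) hs1
  have hT : ∀ j, ∃ T : ℝ[X], (U j).coeff 0 = e → X ^ (q + 1) ∣ T * U' j - 1 ∧
      ∀ n, n ≤ q + 1 → X ^ n ∣ U' j - C e → X ^ n ∣ T - C e ∧
        (1 ≤ n → n ≤ q → (T - C e).coeff n = -(U' j - C e).coeff n) := by
    intro j
    by_cases h : (U j).coeff 0 = e
    · obtain ⟨T, h1⟩ := exists_inv (q := q) he ((hc0 j).trans h)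
      exact ⟨T, fun _ => h1⟩
    · exact ⟨1, fun h' => absurd h' h⟩
  choose T hT using hT
  have hlead : ∀ j n, (U j).coeff 0 = e → 1 ≤ n → n ≤ q + 1 → X ^ n ∣ U j - U j0 →
      (∀ m, 1 ≤ m → m < n → (T j).coeff m = 0) ∧
        (n ≤ q → (T j).coeff n = -(U j - U j0).coeff n) := by
    intro j n hj hn1 hn h
    obtain ⟨h1, h2⟩ := lead_comp hZ0 q h
    have e1 : U' j - C e = Z0 ^ q * (U j - U j0).comp (X * Z0) +
        (Z0 ^ q * (U j0).comp (X * Z0) - C e) := by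
      simp only [hU', sub_comp]; ring
    have h3 : X ^ n ∣ U' j - C e := by
      rw [e1]; exact dvd_add h1 ((pow_dvd_pow _ hn).trans hZ0')
    obtain ⟨h4, h5⟩ := (hT j hj).2 n hn h3
    refine ⟨fun m hm1 hm => ?_, fun hn' => ?_⟩
    · have := X_pow_dvd_iff.1 h4 m hm
      rwa [coeff_sub, coeff_C_of_ne_zero (by omega), sub_zero] at this
    · have h6 := h5 hn1 hn'
      rw [coeff_sub, coeff_C_of_ne_zero (by omega), sub_zero] at h6
      rw [h6, e1, coeff_add, h2, X_pow_dvd_iff.1 hZ0' n (by omega), add_zero]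
  refine ⟨e, fun j => (U j).coeff 0, fun N ω => g' N ω⁻¹, C2,
    fun j r => (T j).coeff (q - r), he, ⟨hq, hC2, hg.le_one, ?_, ?_, ?_⟩,
    fun j hj => ⟨?_, ?_⟩, j0, hj0, fun r hr => ?_⟩
  · exact fun N ω hω => (hg.diff N _).comp ω (diffAt_inv_mul_aeval Z0 hω)
  · simpa only [hc0] using hs2
  · filter_upwards [hg.jet, hs, eventually_ge_atTop 20] with N ⟨D, c, hD, hc, hj⟩ hN hN20 Φ hΦ
      ⟨c1, hc1⟩
    have hg0 : g N 0 = 0 := by
      obtain ⟨h1, h2⟩ := hN 0 (by simp [zero_pow (show q ≠ 0 by omega)])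
      refine Prod.ext (funext fun j => ?_) (by simpa using h2)
      simpa [zero_pow (show q ≠ 0 by omega)] using h1 j
    have hk : q * (N + N / 20) + 1 ≤ D := by
      have h1 : 20 * (N / 20) ≤ N := by omega
      have h2 : q * (20 * (N / 20)) ≤ q * N := Nat.mul_le_mul_left q h1
      have h3 : 20 ≤ q * N := by nlinarith
      nlinarith
    have hl : Tendsto (fun w : ℕ => ∑ n ∈ Finset.range (D + 1),
        c w n * res fun ω => (ω⁻¹ * aeval ω⁻¹ Z0) ^ n * Φ ω) atTop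
        (𝓝 (∑ n ∈ Finset.range (D + 1), 0)) := by
      refine tendsto_finsetSum _ fun n hn => ?_
      rcases Nat.eq_zero_or_pos n with rfl | hn0
      · simp [res_of_diff hΦ]
      · simpa using (hc n hn0 (by simpa [Nat.lt_succ_iff] using hn)).mul_const _
    rw [Finset.sum_const_zero] at hl
    refine hl.congr' ?_
    filter_upwards [hj, tendsto_natCast_atTop_atTop.eventually (eventually_ge_atTop (max w0 0))]
      with w hw hw0
    refine (res_jet (H := fun s => f (fun _ => (w : ℝ)) (g N s)) ?_ Z0 hk hΦ hc1 hw).symm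
    have hA : Adm w0 fun _ : ι => (w : ℝ) := fun _ =>
      ⟨(le_max_left _ _).trans hw0, fun _ => by linarith [(le_max_right _ _).trans hw0]⟩
    have h1 : ∀ᶠ s in 𝓝 (0 : ℂ), g N s ∈ dom β K r fun _ : ι => (w : ℝ) :=
      (hg.diff N).continuous.continuousAt.eventually
        ((isOpen_dom _ _ _ _).mem_nhds (hg0 ▸ zero_mem_dom β K hf.r_pos _))
    filter_upwards [h1] with s hs
    exact ((hf.holo _ hA).differentiableAt ((isOpen_dom _ _ _ _).mem_nhds hs)).comp s (hg.diff N s)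
  · refine tip_exp (a := fun N s => (g' N s).1 j) (C0 := |C1| * 2 ^ (2 * q + 1)) ?_ (hT j hj).1
      (by positivity) (hs1.mono fun N hN s hs => (hN s hs).1 j)
    have h1 := ((hT j hj).2 1 (by omega) (by
      rw [pow_one, X_dvd_iff, coeff_sub, hc0, coeff_C_zero, sub_eq_zero]; exact hj)).1
    rwa [pow_one, X_dvd_iff, coeff_sub, coeff_C_zero, sub_eq_zero] at h1
  · rcases hlex j hj with h | ⟨n, h1, h2, h3, h4⟩
    · exact Or.inl fun r hr => (hlead j _ hj (by omega) le_rfl h).1 (q - r) (by omega) (by omega)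
    · obtain ⟨h5, h6⟩ := hlead j n hj h1 (by omega) h3
      refine Or.inr ⟨q - n, by omega, fun r hr1 hr2 => h5 (q - r) (by omega) (by omega), ?_⟩
      simp only [Nat.sub_sub_self h2, h6 h2]
      linarith
  · exact (hlead j0 _ hj0 (by omega) le_rfl (by simp)).1 (q - r) (by omega) (by omega)

end Vale.Agent.P218SQ
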