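import Vale.Agent.P218SQ.Dpoly
import Vale.Agent.P218SQ.Defs
import Mathlib.Analysis.SpecialFunctions.Gaussian.FourierTransform

/-! The ray direction, ties between tip polynomials, cut vectors, telescoping. -/

open Set Filter Topology Function MeasureTheory

namespace Vale.Agent.P218SQ

theorem exists_ups {q : ℕ} (hq : 1 ≤ q) {e : ℝ} (he : e = 1 ∨ e = -1) :
    ∃ υ : ℂ, ‖υ‖ = 1 ∧ υ ^ q = e ∧ (∀ r, 2 * r < q → 0 < (υ ^ r).re) ∧
      ∀ r, q < 2 * r → r < q → 0 < e * (υ ^ r).re := by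
  rcases he with rfl | rfl
  · exact ⟨1, by simp, by simp, by simp, by simp⟩
  have hq0 : (0 : ℝ) < q := by exact_mod_cast hq
  have key : ∀ r : ℕ, Complex.exp ((Real.pi / q : ℝ) * Complex.I) ^ r =
      Complex.exp ((Real.pi * (r / q) : ℝ) * Complex.I) := fun r => by
    rw [← Complex.exp_nat_mul]; congr 1; push_cast; ring
  have hpi := Real.pi_pos
  refine ⟨Complex.exp ((Real.pi / q : ℝ) * Complex.I), Complex.norm_exp_ofReal_mul_I _, ?_,
    fun r hr => ?_, fun r h1 h2 => ?_⟩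
  · rw [key, div_self hq0.ne', mul_one, Complex.exp_pi_mul_I]; simp
  · rw [key, Complex.exp_ofReal_mul_I_re]
    have h : (r : ℝ) / q < 1 / 2 := by
      rw [div_lt_iff₀ hq0]
      have : (2 * r : ℝ) < q := by exact_mod_cast hr
      linarith
    have h0 : (0 : ℝ) ≤ r / q := by positivity
    exact Real.cos_pos_of_mem_Ioo ⟨by nlinarith, by nlinarith⟩
  · rw [key, Complex.exp_ofReal_mul_I_re]
    have h : 1 / 2 < (r : ℝ) / q := by
      rw [lt_div_iff₀ hq0]
      have : (q : ℝ) < 2 * r := by exact_mod_cast h1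
      linarith
    have h' : (r : ℝ) / q < 1 := by
      rw [div_lt_one hq0]; exact_mod_cast h2
    have := Real.cos_neg_of_pi_div_two_lt_of_lt (x := Real.pi * (r / q)) (by nlinarith)
      (by nlinarith)
    linarith

theorem re_Dp (d : ℕ → ℝ) (q : ℕ) (υ : ℂ) (y : ℝ) :
    (Dp d q (υ * y)).re = ∑ r ∈ Finset.range q, d r * (υ ^ r).re * y ^ r := by
  rw [Dp, Complex.re_sum]
  refine Finset.sum_congr rfl fun r _ => ?_
  rw [mul_pow, ← Complex.ofReal_pow, Complex.re_ofReal_mul, Complex.re_mul_ofReal, mul_assoc]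

/-- two tip polynomials have the same real part on the ray, up to a constant -/
def Tie (d d1 : ℕ → ℝ) (q : ℕ) (υ : ℂ) : Prop :=
  (mu d q υ).re = (mu d1 q υ).re ∧ ∀ y : ℝ, 0 ≤ y → Dp d q (υ * y) - Dp d1 q (υ * y) =
    ((d 0 - d1 0 : ℝ) : ℂ) + (((mu d q υ).im - (mu d1 q υ).im) * √(y ^ q) : ℝ) * Complex.I

theorem tie_of {d d1 : ℕ → ℝ} {q : ℕ} {υ : ℂ} (hq : 1 ≤ q) (hd : Half d q) (hd1 : Half d1 q)
    (hp : ∀ r, 2 * r < q → 0 < (υ ^ r).re)
    (h : ∀ r, 1 ≤ r → r < q → (d r - d1 r) * (υ ^ r).re = 0) : Tie d d1 q υ := by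
  have h1 : (mu d q υ).re = (mu d1 q υ).re := by
    rw [mu, mu, Complex.re_sum, Complex.re_sum]
    refine Finset.sum_congr rfl fun r hr => ?_
    split_ifs with h2
    · have := h r (by omega) (Finset.mem_range.1 hr)
      rw [Complex.re_ofReal_mul, Complex.re_ofReal_mul]; linarith
    · rfl
  refine ⟨h1, fun y hy => ?_⟩
  have h2 : ((((mu d q υ).im - (mu d1 q υ).im) * √(y ^ q) : ℝ) : ℂ) * Complex.I =
      (mu d q υ - mu d1 q υ) * (√(y ^ q) : ℝ) := by
    rw [← Complex.re_add_im (mu d q υ - mu d1 q υ), Complex.sub_re, h1, Complex.sub_im]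
    push_cast; ring
  have h3 : ((d 0 - d1 0 : ℝ) : ℂ) =
      ∑ r ∈ Finset.range q, if r = 0 then ((d 0 - d1 0 : ℝ) : ℂ) else 0 := by
    rw [Finset.sum_ite_eq', if_pos (Finset.mem_range.2 hq)]
  rw [h2, h3, mu, mu, Dp, Dp, ← Finset.sum_sub_distrib, ← Finset.sum_sub_distrib,
    Finset.sum_mul, ← Finset.sum_add_distrib]
  refine Finset.sum_congr rfl fun r hr => ?_
  have hr' := Finset.mem_range.1 hr
  rcases Nat.eq_zero_or_pos r with rfl | h0
  · rw [if_pos rfl, if_neg (by omega), if_neg (by omega)]; simp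
  rw [if_neg h0.ne']
  rcases lt_trichotomy (2 * r) q with h4 | h4 | h4
  · have : d r = d1 r := by
      have := (mul_eq_zero.1 (h r h0 hr')).resolve_right (hp r h4).ne'
      linarith
    rw [this]; simp
  · rw [if_pos h4, if_pos h4, ← h4, pow_mul', Real.sqrt_sq (pow_nonneg hy r)]
    push_cast; ring
  · rw [hd r h4 hr', hd1 r h4 hr']; simp

theorem Tie.re {d d1 : ℕ → ℝ} {q : ℕ} {υ : ℂ} (h : Tie d d1 q υ) {y : ℝ} (hy : 0 ≤ y) :
    (Dp d q (υ * y)).re - (Dp d1 q (υ * y)).re = d 0 - d1 0 := by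
  rw [← Complex.sub_re, h.2 y hy, Complex.add_re, Complex.ofReal_re, Complex.re_ofReal_mul]
  simp

theorem exists_ref_end {α : Type*} {d : α → ℕ → ℝ} {q : ℕ} {υ : ℂ} (hq : 1 ≤ q)
    (hp : ∀ r, 2 * r < q → 0 < (υ ^ r).re) (T : Finset α) (hT : T.Nonempty)
    (hd : ∀ j ∈ T, Half (d j) q) : ∃ j1 ∈ T, ∀ j ∈ T, Tie (d j) (d j1) q υ ∨
      Tendsto (fun y : ℝ => (Dp (d j) q (υ * y)).re - (Dp (d j1) q (υ * y)).re) atTop atTop := by
  obtain ⟨j1, h1, h2⟩ := exists_freq_min T hT fun j y => (Dp (d j) q (υ * y)).re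
  refine ⟨j1, h1, fun j hj => ?_⟩
  have e1 : ∀ y : ℝ, (Dp (d j) q (υ * y)).re - (Dp (d j1) q (υ * y)).re =
      ∑ r ∈ Finset.range q, (d j r - d j1 r) * (υ ^ r).re * y ^ r := fun y => by
    rw [re_Dp, re_Dp, ← Finset.sum_sub_distrib]
    exact Finset.sum_congr rfl fun r _ => by ring
  simp only [e1]
  exact (poly_dichotomy (h2.mono fun y hy => by rw [← e1]; linarith [hy j hj])).imp_left
    (tie_of hq (hd j hj) (hd j1 h1) hp)

section
variable {ι κ : Type*} [Fintype ι] [DecidableEq ι]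

/-- position of an end in a fixed enumeration -/
noncomputable def rk (i : ι) : ℕ := Fintype.equivFin ι i

/-- the first `k` cuts are moved from `w` to `w + 1` -/
noncomputable def cut (w : ℝ) (k : ℕ) : ι → ℝ := fun j => if rk j < k then w + 1 else w

omit [DecidableEq ι] in
theorem cut_self (w : ℝ) (i : ι) : cut w (rk i) i = w := if_neg (lt_irrefl _)

omit [DecidableEq ι] in
theorem cut_mem (w : ℝ) (k : ℕ) (i : ι) : cut w k i = w + 1 ∨ cut w k i = w := by
  unfold cut; split_ifs <;> simp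

theorem update_cut (w : ℝ) (i : ι) :
    update (cut w (rk i)) i (cut w (rk i) i + 1) = cut w (rk i + 1) := by
  funext j
  rcases eq_or_ne j i with rfl | h
  · rw [update_self, cut_self, cut, if_pos (Nat.lt_succ_self _)]
  · have : rk j ≠ rk i := fun h' => h ((Fintype.equivFin ι).injective (Fin.ext h'))
    rw [update_of_ne h, cut, cut]
    exact if_congr (by omega) rfl rfl

theorem sum_inc (f : (ι → ℝ) → Pt ι κ → ℂ) (w : ℝ) (z : Pt ι κ) :
    ∑ i, inc f i (cut w (rk i)) z = f (fun _ => w + 1) z - f (fun _ => w) z := by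
  simp only [inc, update_cut]
  simp only [rk]
  rw [(Fintype.equivFin ι).sum_comp fun k : Fin (Fintype.card ι) =>
      f (cut w (k + 1)) z - f (cut w k) z,
    Fin.sum_univ_eq_sum_range fun k => f (cut w (k + 1)) z - f (cut w k) z,
    Finset.sum_range_sub fun k => f (cut w k) z]
  congr 2
  · funext j; exact if_pos (Fintype.equivFin ι j).2

omit [DecidableEq ι] in
theorem adm_cut {w0 w : ℝ} (h0 : w0 ≤ w) (h1 : 1 ≤ w) (k : ℕ) : Adm w0 (cut w k : ι → ℝ) :=
  fun i => ⟨by rcases cut_mem w k i with h | h <;> linarith, fun j => by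
    rcases cut_mem w k i with h | h <;> rcases cut_mem w k j with h' | h' <;> linarith⟩

omit [DecidableEq ι] in
theorem dom_cut [Fintype κ] {β K r w : ℝ} (h : endDom β K (w + 1) ⊆ endDom β K w) (k : ℕ)
    {z : Pt ι κ} (hz : z ∈ dom β K r fun _ => w + 1) : z ∈ dom β K r (cut w k) :=
  ⟨fun j => by
    rcases cut_mem w k j with h' | h' <;> rw [h']
    exacts [hz.1 j, h (hz.1 j)], hz.2⟩

omit [DecidableEq ι] in
theorem telescope {T : ι → ℕ → ℕ → ℂ} {a : ℕ → ℕ → ℂ} {m : ι → ℕ → ℂ} {c : ι → ℂ} {s : ℕ → ℂ}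
    (h1 : ∀ᶠ N in atTop, (∀ k, a N (k + 1) - a N k = ∑ i, m i N * T i N k) ∧
      Tendsto (a N) atTop (𝓝 0))
    (h2 : ∀ i, (∀ᶠ N in atTop, Summable (T i N)) ∧
      Tendsto (fun N => s N * ∑' k, T i N k) atTop (𝓝 (c i)))
    (hm : ∀ i, ∃ D, ∀ N, ‖m i N‖ ≤ D) (h0 : Tendsto (fun N => s N * a N 0) atTop (𝓝 0)) :
    Tendsto (fun N => ∑ i, m i N * c i) atTop (𝓝 0) := by
  have h3 : Tendsto (fun N => ∑ i, m i N * (s N * ∑' k, T i N k - c i)) atTop (𝓝 0) := by
    rw [← Finset.sum_const_zero (s := (Finset.univ : Finset ι))]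
    refine tendsto_finsetSum _ fun i _ => ?_
    obtain ⟨D, hD⟩ := hm i
    have := ((h2 i).2.sub_const (c i)).norm.const_mul D
    simp only [sub_self, norm_zero, mul_zero] at this
    exact squeeze_zero_norm (fun N => by rw [norm_mul]; gcongr; exact hD N) this
  have h4 := h0.neg.sub h3
  simp only [neg_zero, sub_zero] at h4
  refine h4.congr' ?_
  filter_upwards [h1, eventually_all.2 fun i => (h2 i).1] with N hN hs
  have h5 : HasSum (fun k => a N (k + 1) - a N k) (∑ i, m i N * ∑' k, T i N k) := by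
    simp only [hN.1]
    exact hasSum_sum fun i _ => (hs i).hasSum.mul_left _
  have h6 := h5.tendsto_sum_nat
  simp only [Finset.sum_range_sub] at h6
  have h7 := tendsto_nhds_unique h6 (hN.2.sub_const _)
  have h8 : ∑ i, m i N * (s N * ∑' k, T i N k - c i) =
      s N * (∑ i, m i N * ∑' k, T i N k) - ∑ i, m i N * c i := by
    rw [Finset.mul_sum, ← Finset.sum_sub_distrib]
    exact Finset.sum_congr rfl fun i _ => by ring
  rw [h8, h7]; ring

end

/-- Gaussian profile in the cut variable -/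
noncomputable def gp (q : ℕ) (μ : ℂ) (u : ℝ) : ℂ :=
  Complex.exp (-(q / 2 * (q - 1 / 40)) * ((u - μ) / q) ^ 2 - μ * (q / 2 * ((u - μ) / q)))

theorem integral_gp_ne {q : ℕ} (hq : 1 ≤ q) (μ : ℂ) : ∫ u, gp q μ u ≠ 0 := by
  have hq1 : (1 : ℝ) ≤ q := by exact_mod_cast hq
  have hqc : (q : ℂ) ≠ 0 := by exact_mod_cast (by omega : q ≠ 0)
  set b : ℝ := -((q - 1 / 40) / (2 * q)) with hb
  have hb0 : b < 0 := neg_lt_zero.2 (div_pos (by linarith) (by positivity))
  have : gp q μ = fun u : ℝ =>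
      Complex.exp (b * u ^ 2 + (-2 * b * μ - μ / 2) * u + (b * μ ^ 2 + μ ^ 2 / 2)) := by
    funext u; rw [gp, hb]; congr 1; push_cast; field_simp; ring
  rw [this, integral_cexp_quadratic (by simpa using hb0)]
  refine mul_ne_zero ?_ (Complex.exp_ne_zero _)
  rw [Ne, Complex.cpow_eq_zero_iff]
  rintro ⟨h, -⟩
  rcases div_eq_zero_iff.1 h with h | h
  · exact Real.pi_pos.ne' (by exact_mod_cast h)
  · exact hb0.ne (by exact_mod_cast neg_eq_zero.1 h)

end Vale.Agent.P218SQ
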