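import Vale.Agent.P218SQ.Limit
import Vale.Agent.P218SQ.Ups
import Vale.Agent.P218SQ.Norm

/-! The normalised arc on the exterior of the contour. -/

open Set Filter Topology Function MeasureTheory

namespace Vale.Agent.P218SQ

variable {q : ℕ} {υ : ℂ} {e : ℝ}

theorem ev_Nw {P : ℝ → Prop} (h : ∀ᶠ w : ℝ in atTop, P w) :
    ∀ᶠ N : ℕ in atTop, ∀ w : ℝ, 8 * (N : ℝ) ≤ 25 * w → P w := by
  obtain ⟨w1, h1⟩ := eventually_atTop.1 h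
  filter_upwards [tendsto_natCast_atTop_atTop.eventually (eventually_ge_atTop (25 / 8 * w1))]
    with N hN w hw
  exact h1 w (by linarith)

theorem ev_two (hυ : ‖υ‖ = 1) (q : ℕ) (A : ℝ) : ∀ᶠ N : ℕ in atTop, ∀ w : ℝ,
    8 * (N : ℝ) ≤ 25 * w → ∀ (ρ : ℝ) (u : ℂ), 0 < ρ → |ρ ^ q - w| ≤ A * √w → 1 ≤ ‖u‖ →
      2 * N ≤ 7 * ‖υ * ρ * u‖ ^ q := by
  filter_upwards [ev_Nw (ev_sqrt A (ε := 1 / 10) (by norm_num))] with N hN w hw ρ u hρ h hu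
  have h1 := hN w hw
  have h2 := (abs_le.1 h).1
  have h3 : ρ ^ q ≤ ‖υ * ρ * u‖ ^ q := by
    refine pow_le_pow_left₀ hρ.le ?_ q
    rw [norm_mul, norm_mul, hυ, one_mul, Complex.norm_real, Real.norm_of_nonneg hρ.le]
    exact le_mul_of_one_le_right hρ.le hu
  have h4 : (0 : ℝ) ≤ N := Nat.cast_nonneg N
  linarith

/-- an end whose tip stays far from the contour -/
def Far (q : ℕ) (υ : ℂ) (β K A : ℝ) (a : ℕ → ℂ → ℂ) : Prop :=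
  ∃ κ : ℝ, 0 < κ ∧ ∀ᶠ N : ℕ in atTop, ∀ w : ℝ, 8 * (N : ℝ) ≤ 25 * w → ∀ (ρ : ℝ) (u : ℂ), 0 < ρ →
    |ρ ^ q - w| ≤ A * √w → 1 ≤ ‖u‖ → ‖u - 1‖ ≤ κ →
      a N (υ * ρ * u) ∈ endDom β K (w + 1) ∧ √w ≤ ‖sig β w (a N (υ * ρ * u))‖

/-- leading behaviour of a component of the arc -/
def Lead (q : ℕ) (lam C : ℝ) (a : ℕ → ℂ → ℂ) : Prop :=
  ∀ᶠ N : ℕ in atTop, ∀ ω : ℂ, 2 * N ≤ 7 * ‖ω‖ ^ q → ‖a N ω * ω ^ q - lam‖ ≤ C / ‖ω‖

theorem classify (hυ : ‖υ‖ = 1) (hυq : υ ^ q = e) (he : e = 1 ∨ e = -1)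
    (hn : ∀ r, q < 2 * r → r < q → 0 < e * (υ ^ r).re) (β K : ℝ) {lam C : ℝ} (hl : |lam| ≤ 1)
    {a : ℕ → ℂ → ℂ} (ha : Lead q lam C a) {d : ℕ → ℝ}
    (ht : lam = e → Tip q e a d ∧ ((∀ r < q, d r = 0) ∨
      ∃ r0 < q, (∀ r, r0 < r → r < q → d r = 0) ∧ 0 < e * d r0))
    (h : ¬(lam = e ∧ Half d q)) (A : ℝ) : Far q υ β K A a := by
  rcases hl.lt_or_eq with h1 | h1
  · refine ⟨1, one_pos, ?_⟩
    filter_upwards [ev_Nw (dom_sub hυ hυq he β K A C h1), ev_two hυ q A, ha]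
      with N a1 a2 a3 w hw ρ u hρ h2 hu _
    exact a1 w hw ρ u _ hρ h2 hu (a3 _ (a2 w hw ρ u hρ h2 hu))
  by_cases h2 : lam = e
  · obtain ⟨⟨C', -, hT⟩, h3 | ⟨r0, h3, h4, h5⟩⟩ := ht h2
    · exact (h ⟨h2, fun r _ hr => h3 r hr⟩).elim
    have h6 : q < 2 * r0 := by
      by_contra h6
      exact h ⟨h2, fun r hr hr' => h4 r (by omega) hr'⟩
    have h7 : 0 < (d r0 * υ ^ r0).re := by
      rw [Complex.re_ofReal_mul]
      have := mul_pos h5 (hn r0 h6 h3)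
      rcases he with rfl | rfl <;> linarith
    obtain ⟨κ, hκ, h8⟩ := dom_nontop hυ hυq he β K A C' h3 h6 h4 h7
    refine ⟨κ, hκ, ?_⟩
    filter_upwards [ev_Nw h8, ev_two hυ q A, hT] with N a1 a2 a3 w hw ρ u hρ h2 hu hu'
    have := a3 _ (a2 w hw ρ u hρ h2 hu)
    exact a1 w hw ρ u _ hρ h2 hu hu' this.1 this.2
  · have h3 : lam = -e := by
      rcases he with rfl | rfl <;> rcases (abs_eq zero_le_one).1 h1 with h | h <;>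
        first | exact (h2 h).elim | linarith
    obtain ⟨κ, hκ, h8⟩ := dom_opp hυ hυq he β K A C
    refine ⟨κ, hκ, ?_⟩
    filter_upwards [ev_Nw h8, ev_two hυ q A, ha] with N a1 a2 a3 w hw ρ u hρ h2 hu hu'
    exact a1 w hw ρ u _ hρ h2 hu hu' (h3 ▸ a3 _ (a2 w hw ρ u hρ h2 hu))

/-- the exterior of the contour is mapped into the domain of the end -/
def InDom (q : ℕ) (υ : ℂ) (β K K2 : ℝ) (d1 : ℕ → ℝ) (a : ℕ → ℂ → ℂ) : Prop :=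
  ∀ᶠ N : ℕ in atTop, ∀ w : ℝ, 8 * (N : ℝ) ≤ 25 * w → ∀ u : ℂ, 1 + del q ≤ ‖u + del q‖ →
    a N (υ * rt q (Lw β K2 d1 q υ w) * u) ∈ endDom β K (w + 1)

/-- basic facts on the radius of the contour -/
def Rad (q : ℕ) (υ : ℂ) (β A : ℝ) (d1 : ℕ → ℝ) : Prop :=
  ∀ K2, ∀ᶠ w : ℝ in atTop, 2 ≤ w ∧ |Lw β K2 d1 q υ w - w| ≤ A * √w ∧
    w / 2 ≤ Lw β K2 d1 q υ w ∧ Lw β K2 d1 q υ w ≤ 2 * w

theorem Rad.rt {β A : ℝ} {d1 : ℕ → ℝ} (h : Rad q υ β A d1) (hq : 1 ≤ q) (K2 : ℝ) :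
    ∀ᶠ N : ℕ in atTop, ∀ w : ℝ, 8 * (N : ℝ) ≤ 25 * w → 0 < rt q (Lw β K2 d1 q υ w) ∧
      |rt q (Lw β K2 d1 q υ w) ^ q - w| ≤ A * √w := by
  filter_upwards [ev_Nw (h K2)] with N hN w hw
  obtain ⟨h1, h2, h3, -⟩ := hN w hw
  exact ⟨rt_pos q (by linarith), by rwa [rt_pow hq (by linarith)]⟩

theorem inDom_of (hq : 1 ≤ q) (hυ : ‖υ‖ = 1) (hυq : υ ^ q = e) (he : e = 1 ∨ e = -1)
    {β K K2 A lam C κ : ℝ} {d1 : ℕ → ℝ} (hR : Rad q υ β A d1) (hl : |lam| ≤ 1)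
    {a : ℕ → ℂ → ℂ} (ha : Lead q lam C a) (hκ : 0 < κ)
    (h : ∀ᶠ N : ℕ in atTop, ∀ w : ℝ, 8 * (N : ℝ) ≤ 25 * w → ∀ u : ℂ, 1 + del q ≤ ‖u + del q‖ →
      ‖u - 1‖ ≤ κ → a N (υ * rt q (Lw β K2 d1 q υ w) * u) ∈ endDom β K (w + 1)) :
    InDom q υ β K K2 d1 a := by
  obtain ⟨hδ, hδ1⟩ := del_pos hq
  obtain ⟨κ', hκ', h1⟩ := ext_near hδ hδ1 hκ
  filter_upwards [h, hR.rt hq K2, ev_Nw (dom_outer hq hυ hυq he β K A C hκ'), ev_two hυ q A, ha]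
    with N a1 a2 a3 a4 a5 w hw u hu
  obtain ⟨b1, b2⟩ := a2 w hw
  rcases lt_or_ge ‖u‖ (1 + κ') with h2 | h2
  · exact a1 w hw u hu (h1 u hu h2)
  · exact a3 w hw _ lam u _ b1 b2 h2 hl (a5 _ (a4 w hw _ u b1 b2 (ext_geo hδ hδ1 hu).1))

theorem Far.inDom (hq : 1 ≤ q) (hυ : ‖υ‖ = 1) (hυq : υ ^ q = e) (he : e = 1 ∨ e = -1)
    {β K A lam C : ℝ} {d1 : ℕ → ℝ} (hR : Rad q υ β A d1) (hl : |lam| ≤ 1)
    {a : ℕ → ℂ → ℂ} (ha : Lead q lam C a) (h : Far q υ β K A a) (K2 : ℝ) :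
    InDom q υ β K K2 d1 a := by
  obtain ⟨κ, hκ, h⟩ := h
  obtain ⟨hδ, hδ1⟩ := del_pos hq
  refine inDom_of hq hυ hυq he hR hl ha hκ ?_
  filter_upwards [h, hR.rt hq K2] with N a1 a2 w hw u hu hu'
  exact (a1 w hw _ u (a2 w hw).1 (a2 w hw).2 (ext_geo hδ hδ1 hu).1 hu').1

theorem tendsto_rt (hq : 1 ≤ q) : Tendsto (rt q) atTop atTop :=
  tendsto_rpow_atTop (inv_pos.2 (by exact_mod_cast hq))

theorem top_inDom (hq : 1 ≤ q) (hυ : ‖υ‖ = 1) (hυq : υ ^ q = e) (he : e = 1 ∨ e = -1)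
    {β K A lam C D : ℝ} {d d1 : ℕ → ℝ} (hR : Rad q υ β A d1) (hl : |lam| ≤ 1)
    {a : ℕ → ℂ → ℂ} (ha : Lead q lam C a) (hT : Tip q e a d) (hd : Half d q)
    (hD : ∀ᶠ y : ℝ in atTop, D ≤ (Dp d q (υ * y)).re - (Dp d1 q (υ * y)).re) :
    ∀ᶠ K2 in atTop, InDom q υ β K K2 d1 a := by
  obtain ⟨hδ, hδ1⟩ := del_pos hq
  obtain ⟨C', -, hT⟩ := hT
  obtain ⟨C2, h1⟩ := dom_top hq hυ hυq he A C' hd hδ hδ1
  filter_upwards [eventually_gt_atTop (C2 - D + (|K| + 1 + |β|))] with K2 hK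
  refine inDom_of hq hυ hυq he hR hl ha one_pos ?_
  filter_upwards [ev_Nw h1, hR.rt hq K2, ev_Nw (hR K2), ev_two hυ q A, hT,
    ev_Nw ((tendsto_rt hq).eventually hD)] with N a1 a2 a3 a4 a5 a6 w hw u hu hu'
  obtain ⟨b1, b2⟩ := a2 w hw
  obtain ⟨b3, -, b4, -⟩ := a3 w hw
  obtain ⟨b5, b6⟩ := a5 _ (a4 w hw _ u b1 b2 (ext_geo hδ hδ1 hu).1)
  have b7 := a1 w hw _ (rt q w) u _ b1 b2 (rt_pos q (by linarith)) (rt_pow hq (by linarith)) hu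
    (by linarith [norm_le_insert' u 1, norm_one (α := ℂ)]) b6
  refine dom_of_inv b5 ?_
  rw [rt_pow hq (by linarith)] at b7
  have b8 : Lw β K2 d1 q υ w = w + β * Real.log w + K2 - (Dp d1 q (υ * rt q w)).re := rfl
  linarith [lev_succ_le β K (show 1 ≤ w by linarith), a6 w hw]

theorem ext_of_exterior {F : ℂ → ℂ} {c : ℂ} (hc : c ≠ 0) {δ : ℝ} (hδ : 0 ≤ δ)
    (hd : ∀ u : ℂ, 1 + δ ≤ ‖u + δ‖ → DifferentiableAt ℂ F (c * u)) : Ext F := by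
  refine ⟨‖c‖ * (1 + 2 * δ), fun ω hω => ?_⟩
  have := hd (ω / c) (by
    have h1 := norm_sub_le (ω / c + δ) δ
    rw [add_sub_cancel_right, Complex.norm_real, Real.norm_of_nonneg hδ, norm_div,
      div_le_iff₀ (norm_pos_iff.2 hc)] at h1
    have := norm_pos_iff.2 hc
    nlinarith)
  rwa [mul_div_cancel₀ _ hc] at this

theorem diff_psi (q N : ℕ) (c : ℂ) : Differentiable ℂ fun ω => psi q N (ω / c) := by
  unfold psi; fun_prop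

theorem psi_growth (q N : ℕ) {c : ℂ} (hc : 1 ≤ ‖c‖) (ω : ℂ) (hω : 1 ≤ ‖ω‖) :
    ‖psi q N (ω / c)‖ ≤ Real.exp N * ‖ω‖ ^ (q * (N + N / 20)) := by
  have h1 : ‖ω / c‖ ≤ ‖ω‖ := by rw [norm_div]; exact div_le_self (norm_nonneg _) hc
  have h2 : ‖(1 + ω / c) / 2‖ ≤ ‖ω‖ := by
    have := norm_add_le 1 (ω / c)
    rw [norm_div, Complex.norm_two]; rw [norm_one] at this; linarith
  have h3 : q * (N + N / 20) = q * (N - N / 20) + 2 * q * (N / 20) := by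
    have : N / 20 ≤ N := Nat.div_le_self _ _
    zify [this]; ring
  rw [psi, norm_mul, norm_mul, norm_pow, norm_pow, h3, pow_add, mul_comm, Complex.norm_exp]
  simp only [Complex.natCast_re]
  gcongr

section
variable {ι κ : Type*} [Fintype κ] {f : (ι → ℝ) → Pt ι κ → ℂ} {lam : ι → ℝ}
  {G : ℕ → ℂ → Pt ι κ} {C : ℝ}

theorem NArc.lead (h : NArc f q lam G C) (j : ι) : Lead q (lam j) C fun N ω => (G N ω).1 j :=
  h.small.mono fun _ hN ω hω => (hN ω hω).1 j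

theorem NArc.snd (h : NArc f q lam G C) {r : ℝ} (hr : 0 < r) : ∀ᶠ N : ℕ in atTop, ∀ ω : ℂ,
    2 * N ≤ 7 * ‖ω‖ ^ q → ‖(G N ω).2‖ < r ∧ ω ≠ 0 := by
  filter_upwards [h.small, ev_large (q := q) (c := 2 / 7) (by norm_num) (C / r)] with N a1 a2 ω hω
  have h1 := a2 _ (norm_nonneg ω) (by linarith)
  have h2 : 0 < ‖ω‖ := lt_of_le_of_lt (div_nonneg h.nonneg hr.le) h1
  refine ⟨(a1 ω hω).2.trans_lt ?_, norm_pos_iff.1 h2⟩
  rw [div_lt_iff₀ hr] at h1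
  rw [div_lt_iff₀ h2]; linarith

theorem tendsto_norm_of {ω : ℕ → ℂ} (hω : ∀ᶠ N : ℕ in atTop, 2 * N ≤ 7 * ‖ω N‖ ^ q) :
    Tendsto (fun N => ‖ω N‖) atTop atTop := tendsto_atTop.2 fun R => by
  filter_upwards [hω, ev_large (q := q) (c := 2 / 7) (by norm_num) R] with N a1 a2
  exact (a2 _ (norm_nonneg _) (by linarith)).le

theorem NArc.seq (h : NArc f q lam G C) {ω : ℕ → ℂ}
    (hω : ∀ᶠ N : ℕ in atTop, 2 * N ≤ 7 * ‖ω N‖ ^ q) :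
    Tendsto (fun N => G N (ω N)) atTop (𝓝 0) ∧ ∀ i j, lam j ≠ 0 →
      Tendsto (fun N => (G N (ω N)).1 i / (G N (ω N)).1 j) atTop (𝓝 (lam i / lam j)) := by
  have h1 := tendsto_norm_of hω
  have h2 : Tendsto (fun N => C / ‖ω N‖) atTop (𝓝 0) := tendsto_const_nhds.div_atTop h1
  have h3 : ∀ j, Tendsto (fun N => (G N (ω N)).1 j * ω N ^ q) atTop (𝓝 (lam j)) := fun j =>
    tendsto_iff_norm_sub_tendsto_zero.2 (squeeze_zero' (.of_forall fun _ => norm_nonneg _)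
      ((h.small.and hω).mono fun N hN => (hN.1 _ hN.2).1 j) h2)
  have h4 : ∀ᶠ N in atTop, ω N ^ q ≠ 0 := (h1.eventually (eventually_gt_atTop 0)).mono
    fun N hN => pow_ne_zero _ (norm_pos_iff.1 hN)
  have h5 : Tendsto (fun N => (ω N ^ q)⁻¹) atTop (𝓝 0) := by
    rw [tendsto_zero_iff_norm_tendsto_zero]
    simp only [norm_inv, norm_pow]
    exact tendsto_inv_atTop_zero.comp ((tendsto_pow_atTop (by linarith [h.one_le])).comp h1)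
  refine ⟨Tendsto.prodMk_nhds (tendsto_pi_nhds.2 fun j => ?_) (squeeze_zero_norm'
    ((h.small.and hω).mono fun N hN => (hN.1 _ hN.2).2) h2), fun i j hj => ?_⟩
  · have := (h3 j).mul h5
    rw [mul_zero] at this
    exact this.congr' (h4.mono fun N hN => mul_inv_cancel_right₀ hN _)
  · exact ((h3 i).div (h3 j) (by exact_mod_cast hj)).congr'
      (h4.mono fun N hN => mul_div_mul_right _ _ hN)

end

end Vale.Agent.P218SQ
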