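import Vale.Agent.P218SQ.Dpoly
import Vale.Agent.P218SQ.Defs
import Mathlib.Analysis.SpecialFunctions.Pow.Asymptotics

/-! The exterior of the shifted circle lies in the domain of every end. -/

open Set Filter Topology

namespace Vale.Agent.P218SQ

theorem ev_sqrt (c : ℝ) {ε : ℝ} (hε : 0 < ε) : ∀ᶠ w : ℝ in atTop, c * √w ≤ ε * w := by
  filter_upwards [Real.tendsto_sqrt_atTop.eventually (eventually_ge_atTop (c / ε)),
    eventually_ge_atTop 0] with w h h0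
  rw [div_le_iff₀ hε] at h
  nlinarith [Real.mul_self_sqrt h0, Real.sqrt_nonneg w]

theorem ev_log (β c : ℝ) {ε : ℝ} (hε : 0 < ε) :
    ∀ᶠ w : ℝ in atTop, |β * Real.log w| + c ≤ ε * √w := by
  have h1 := ((isLittleO_log_rpow_atTop (show (0 : ℝ) < 1 / 2 by norm_num)).const_mul_left
    β).bound (half_pos hε)
  filter_upwards [h1, Real.tendsto_sqrt_atTop.eventually (eventually_ge_atTop (c / (ε / 2)))]
    with w h h2
  rw [← Real.sqrt_eq_rpow, Real.norm_eq_abs, Real.norm_of_nonneg (Real.sqrt_nonneg w)] at h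
  rw [div_le_iff₀ (half_pos hε)] at h2
  linarith

theorem ev_root (q : ℕ) (A R : ℝ) : ∀ᶠ w : ℝ in atTop, 1 ≤ w ∧ ∀ ρ : ℝ, 0 < ρ →
    |ρ ^ q - w| ≤ A * √w → R ≤ ρ ∧ w / 2 ≤ ρ ^ q ∧ ρ ^ q ≤ 2 * w := by
  filter_upwards [ev_sqrt A one_half_pos, eventually_ge_atTop 1,
    eventually_gt_atTop (2 * max R 0 ^ q)] with w h1 h2 h3
  refine ⟨h2, fun ρ h4 h5 => ?_⟩
  obtain ⟨h6, h7⟩ := abs_le.1 h5
  refine ⟨?_, by linarith, by linarith⟩
  by_contra hh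
  have : ρ ^ q ≤ max R 0 ^ q := pow_le_pow_left₀ h4.le ((not_le.1 hh).le.trans (le_max_left _ _)) q
  linarith

theorem lev_succ_le (β K : ℝ) {w : ℝ} (hw : 1 ≤ w) :
    lev β K (w + 1) ≤ w + β * Real.log w + (|K| + 1 + |β|) := by
  have h1 : Real.log w ≤ Real.log (w + 1) := Real.log_le_log (by linarith) (by linarith)
  have h2 : Real.log (w + 1) - Real.log w ≤ 1 := by
    rw [← Real.log_div (by linarith) (by linarith)]
    refine (Real.log_le_sub_one_of_pos (by positivity)).trans ?_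
    rw [sub_le_iff_le_add, div_le_iff₀ (by linarith)]; linarith
  have h3 : β * (Real.log (w + 1) - Real.log w) ≤ |β| * 1 :=
    mul_le_mul (le_abs_self β) h2 (by linarith) (abs_nonneg β)
  rw [lev]
  linarith [le_abs_self K]

theorem endDom_succ (β K : ℝ) : ∀ᶠ w : ℝ in atTop, endDom β K (w + 1) ⊆ endDom β K w := by
  filter_upwards [eventually_ge_atTop (|β| + 1)] with w hw a ha
  have hb := abs_nonneg β
  have h1 : Real.log w ≤ Real.log (w + 1) := Real.log_le_log (by linarith) (by linarith)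
  have h2 : Real.log (w + 1) - Real.log w ≤ 1 / w := by
    rw [← Real.log_div (by linarith) (by linarith)]
    refine (Real.log_le_sub_one_of_pos (div_pos (by linarith) (by linarith))).trans (le_of_eq ?_)
    field_simp [show w ≠ 0 by linarith]; ring
  have h3 : -β * (Real.log (w + 1) - Real.log w) ≤ |β| * (1 / w) :=
    mul_le_mul (neg_le_abs β) h2 (by linarith) hb
  have h4 : |β| * (1 / w) ≤ 1 := by rw [mul_one_div, div_le_one (by linarith)]; linarith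
  have h5 : lev β K w ≤ lev β K (w + 1) := by simp only [lev]; linarith
  rcases ha with h | ⟨h, h'⟩
  · exact Or.inl ((mul_le_mul_of_nonneg_left h5 (norm_nonneg a)).trans_lt h)
  · exact Or.inr ⟨h, by nlinarith [norm_nonneg a]⟩

theorem ev_lev (β K : ℝ) : ∀ᶠ w : ℝ in atTop,
    lev β K (w + 1) < w + √w ∧ |w + β * Real.log w| ≤ w + √w ∧ √w ≤ w + β * Real.log w := by
  filter_upwards [ev_log β (|K| + 2 + |β|) one_pos, ev_sqrt 2 one_pos, eventually_ge_atTop 1]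
    with w h1 h2 h3
  have h4 := lev_succ_le β K h3
  have h5 := le_abs_self (β * Real.log w)
  have h6 := neg_abs_le (β * Real.log w)
  have h7 := abs_nonneg K
  have h8 := abs_nonneg β
  refine ⟨by linarith, ?_, by linarith⟩
  rw [abs_of_nonneg (by linarith [Real.sqrt_nonneg w])]; linarith

variable {q : ℕ} {υ : ℂ} {e : ℝ}

theorem ev_scaled (hυ : ‖υ‖ = 1) (hυq : υ ^ q = e) (A C : ℝ) {ε : ℝ} (hε : 0 < ε) :
    ∀ᶠ w : ℝ in atTop, ∀ (ρ lam : ℝ) (u a : ℂ), 0 < ρ → |ρ ^ q - w| ≤ A * √w → 1 ≤ ‖u‖ →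
      |lam| ≤ 1 → ‖a * (υ * ρ * u) ^ q - lam‖ ≤ C / ‖υ * ρ * u‖ →
      ‖e * (a * w) * u ^ q - lam‖ ≤ ε := by
  filter_upwards [ev_root q A (|C| / min (ε / 2) 1), ev_sqrt A (show 0 < ε / 8 by positivity)]
    with w ⟨h1, h2⟩ h3 ρ lam u a hρ hq hu hl ha
  obtain ⟨h4, h5, -⟩ := h2 ρ hρ hq
  have h6 : C / ‖υ * ρ * u‖ ≤ min (ε / 2) 1 := by
    have hm : 0 < min (ε / 2) 1 := by positivity
    rw [norm_mul, norm_mul, hυ, one_mul, Complex.norm_real, Real.norm_of_nonneg hρ.le,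
      div_le_iff₀ (by positivity)]
    rw [div_le_iff₀ hm] at h4
    nlinarith [le_abs_self C, mul_le_mul_of_nonneg_left hu (mul_pos hm hρ).le]
  have h7 := (ha.trans h6).trans (min_le_left _ _)
  have h8 := (ha.trans h6).trans (min_le_right _ _)
  have h9 : ‖a * (υ * ρ * u) ^ q‖ ≤ 2 := by
    have := norm_add_le (a * (υ * ρ * u) ^ q - lam) lam
    rw [sub_add_cancel, Complex.norm_real, Real.norm_eq_abs] at this
    linarith
  have hρ' : (ρ : ℂ) ≠ 0 := by exact_mod_cast hρ.ne'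
  have e1 : e * (a * w) * u ^ q - lam = (a * (υ * ρ * u) ^ q - lam) +
      a * (υ * ρ * u) ^ q * (((w - ρ ^ q) / ρ ^ q : ℝ) : ℂ) := by
    rw [mul_pow, mul_pow, hυq]; push_cast; field_simp; ring
  have h10 : ‖(((w - ρ ^ q) / ρ ^ q : ℝ) : ℂ)‖ ≤ ε / 4 := by
    rw [Complex.norm_real, Real.norm_eq_abs, abs_div, abs_sub_comm,
      abs_of_pos (pow_pos hρ q), div_le_iff₀ (pow_pos hρ q)]
    nlinarith
  rw [e1]
  linarith [norm_add_le_of_le h7 (norm_mul_le_of_le h9 h10)]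

theorem norm_scaled (he : e = 1 ∨ e = -1) {a u : ℂ} {w lam ε : ℝ} (hw : 0 ≤ w)
    (h : ‖e * (a * w) * u ^ q - lam‖ ≤ ε) : ‖a‖ * w * ‖u‖ ^ q ≤ |lam| + ε := by
  have he1 : ‖(e : ℂ)‖ = 1 := by rcases he with rfl | rfl <;> simp
  have := norm_add_le (e * (a * w) * u ^ q - lam) lam
  rw [sub_add_cancel, Complex.norm_real, Real.norm_eq_abs, norm_mul, norm_mul, norm_mul, he1,
    one_mul, norm_pow, Complex.norm_real, Real.norm_of_nonneg hw] at this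
  linarith

theorem dom_outer (hq : 1 ≤ q) (hυ : ‖υ‖ = 1) (hυq : υ ^ q = e) (he : e = 1 ∨ e = -1)
    (β K A C : ℝ) {κ : ℝ} (hκ : 0 < κ) :
    ∀ᶠ w : ℝ in atTop, ∀ (ρ lam : ℝ) (u a : ℂ), 0 < ρ → |ρ ^ q - w| ≤ A * √w → 1 + κ ≤ ‖u‖ →
      |lam| ≤ 1 → ‖a * (υ * ρ * u) ^ q - lam‖ ≤ C / ‖υ * ρ * u‖ → a ∈ endDom β K (w + 1) := by
  have hε : 0 < min (κ / 4) 1 := by positivity
  have h1 := min_le_left (κ / 4) 1
  have h2 := min_le_right (κ / 4) 1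
  generalize min (κ / 4) 1 = ε at *
  filter_upwards [ev_scaled hυ hυq A C hε, ev_lev β K, ev_sqrt 1 hε, eventually_ge_atTop 0]
    with w h3 h4 h5 h6 ρ lam u a hρ hq' hu hl ha
  have h7 := norm_scaled he h6 (h3 ρ lam u a hρ hq' (by linarith) hl ha)
  have h8 : ‖u‖ ≤ ‖u‖ ^ q := le_self_pow₀ (by linarith) (by omega)
  have h9 : 0 ≤ ‖a‖ * w := by positivity
  have h10 : ‖a‖ * w * (1 + κ) ≤ 1 + ε := by nlinarith
  have h11 : ‖a‖ * lev β K (w + 1) ≤ ‖a‖ * ((1 + ε) * w) := by gcongr; linarith [h4.1]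
  refine Or.inl (h11.trans_lt (lt_of_mul_lt_mul_right ?_ (show 0 ≤ 1 + κ by linarith)))
  nlinarith

theorem dom_of_inv {β K w : ℝ} {a : ℂ} (ha : a ≠ 0) (h : lev β K (w + 1) < ‖a⁻¹‖) :
    a ∈ endDom β K (w + 1) := by
  left
  rwa [norm_inv, inv_eq_one_div, lt_div_iff₀' (norm_pos_iff.2 ha)] at h

theorem sig_lower (β w : ℝ) (a : ℂ) : ‖a⁻¹‖ - |w + β * Real.log w| ≤ ‖sig β w a‖ := by
  have := norm_sub_norm_le a⁻¹ ((w + β * Real.log w : ℝ) : ℂ)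
  rwa [Complex.norm_real, Real.norm_eq_abs, norm_sub_rev] at this

theorem dom_sub (hυ : ‖υ‖ = 1) (hυq : υ ^ q = e) (he : e = 1 ∨ e = -1)
    (β K A C : ℝ) {lam : ℝ} (hl : |lam| < 1) :
    ∀ᶠ w : ℝ in atTop, ∀ (ρ : ℝ) (u a : ℂ), 0 < ρ → |ρ ^ q - w| ≤ A * √w → 1 ≤ ‖u‖ →
      ‖a * (υ * ρ * u) ^ q - lam‖ ≤ C / ‖υ * ρ * u‖ →
      a ∈ endDom β K (w + 1) ∧ √w ≤ ‖sig β w a‖ := by
  have hε : 0 < (1 - |lam|) / 4 := by linarith
  filter_upwards [ev_scaled hυ hυq A C hε, ev_lev β K, ev_sqrt 1 hε, eventually_gt_atTop 0]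
    with w h3 h4 h5 h6 ρ u a hρ hq' hu ha
  have h7 := norm_scaled he h6.le (h3 ρ lam u a hρ hq' hu hl.le ha)
  by_cases h0 : a = 0
  · refine ⟨Or.inl (by simp [h0]), ?_⟩
    rw [sig, h0, inv_zero, sub_zero, Complex.norm_real]
    exact h4.2.2.trans (le_abs_self _)
  · have h8 := one_le_pow₀ hu (n := q)
    have h9 : 0 < ‖a‖ := norm_pos_iff.2 h0
    have h10 : ‖a‖ * w ≤ |lam| + (1 - |lam|) / 4 := by nlinarith [mul_pos h9 h6]
    have h11 : w + 2 * √w ≤ ‖a⁻¹‖ := by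
      rw [norm_inv, inv_eq_one_div, le_div_iff₀' h9]
      have : ‖a‖ * (w + 2 * √w) ≤ ‖a‖ * ((1 + (1 - |lam|) / 2) * w) := by gcongr; linarith
      nlinarith [abs_nonneg lam]
    refine ⟨dom_of_inv h0 (by linarith [h4.1, Real.sqrt_nonneg w]), ?_⟩
    linarith [sig_lower β w a, h4.2.1]

theorem dom_opp (hυ : ‖υ‖ = 1) (hυq : υ ^ q = e) (he : e = 1 ∨ e = -1) (β K A C : ℝ) :
    ∃ κ : ℝ, 0 < κ ∧ ∀ᶠ w : ℝ in atTop, ∀ (ρ : ℝ) (u a : ℂ), 0 < ρ → |ρ ^ q - w| ≤ A * √w →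
      1 ≤ ‖u‖ → ‖u - 1‖ ≤ κ → ‖a * (υ * ρ * u) ^ q - (-e : ℝ)‖ ≤ C / ‖υ * ρ * u‖ →
      a ∈ endDom β K (w + 1) ∧ √w ≤ ‖sig β w a‖ := by
  have h0 : Tendsto (fun u : ℂ => u ^ q) (𝓝 1) (𝓝 1) := by
    simpa using (continuous_pow q).tendsto (1 : ℂ)
  obtain ⟨κ, hκ, h1⟩ := Metric.tendsto_nhds_nhds.1 h0 (1 / 20) (by norm_num)
  have he' : |(-e)| = 1 := by rcases he with rfl | rfl <;> simp
  refine ⟨κ / 2, by positivity, ?_⟩
  filter_upwards [ev_scaled hυ hυq A C (show (0 : ℝ) < 1 / 20 by norm_num), ev_lev β K,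
    eventually_ge_atTop 10] with w h3 h4 h6 ρ u a hρ hq' hu hu' ha
  have h5 := h3 ρ (-e) u a hρ hq' hu he'.le ha
  have h7 := norm_scaled he (by linarith) h5
  have h8 := one_le_pow₀ hu (n := q)
  have h9 : ‖a‖ * w ≤ 21 / 20 := by
    nlinarith [mul_nonneg (norm_nonneg a) (show 0 ≤ w by linarith)]
  have h10 := h1 (x := u) (by rw [dist_eq_norm]; linarith)
  have h11 : ‖a * w * u ^ q + 1‖ ≤ 1 / 20 := by
    rcases he with rfl | rfl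
    · simpa using h5
    · rw [← norm_neg] at h5
      refine le_trans (le_of_eq ?_) h5
      congr 1; push_cast; ring
  have h12 : ‖a * w + 1‖ ≤ 1 / 8 := by
    have e1 : a * w + 1 = (a * w * u ^ q + 1) - a * w * (u ^ q - 1) := by ring
    have h13 : ‖a * w * (u ^ q - 1)‖ ≤ 21 / 20 * (1 / 20) := by
      rw [norm_mul, norm_mul, Complex.norm_real, Real.norm_of_nonneg (by linarith)]
      rw [dist_eq_norm] at h10
      gcongr
    rw [e1]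
    linarith [norm_sub_le_of_le h11 h13]
  have h14 : a.re * w ≤ -(7 / 8) := by
    have := (Complex.re_le_norm (a * w + 1)).trans h12
    simp only [Complex.add_re, Complex.mul_re, Complex.ofReal_re, Complex.ofReal_im, mul_zero,
      sub_zero, Complex.one_re] at this
    linarith
  refine ⟨Or.inr ⟨lt_of_mul_lt_mul_right (by nlinarith) (show 0 ≤ w by linarith),
    by nlinarith [norm_nonneg a]⟩, h4.2.2.trans (le_trans ?_ (Complex.re_le_norm _))⟩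
  have h15 : a.re < 0 := by nlinarith
  have h16 : a⁻¹.re ≤ 0 := by
    rw [Complex.inv_re]; exact div_nonpos_of_nonpos_of_nonneg h15.le (Complex.normSq_nonneg a)
  simp only [sig, Complex.sub_re, Complex.ofReal_re]
  linarith

theorem tip_lower (hυq : υ ^ q = e) (he : e = 1 ∨ e = -1) {ρ E : ℝ} {u z D : ℂ} (hu : u ≠ 0)
    (h : ‖z - (e * (υ * ρ * u) ^ q + D)‖ ≤ E) :
    ρ ^ q * ‖u‖ ^ q + (D * (u / (‖u‖ : ℝ))⁻¹ ^ q).re - E ≤ ‖z‖ := by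
  obtain ⟨h1, h2⟩ := polar hu
  generalize u / (‖u‖ : ℝ) = n at *
  have hn : n ≠ 0 := norm_pos_iff.1 (by rw [h2]; norm_num)
  have h3 : ‖n⁻¹ ^ q‖ = 1 := by simp [h2]
  have he2 : (e : ℂ) * e = 1 := by rcases he with rfl | rfl <;> simp
  have e1 : z * n⁻¹ ^ q = ((ρ ^ q * ‖u‖ ^ q : ℝ) : ℂ) + D * n⁻¹ ^ q +
      (z - (e * (υ * ρ * u) ^ q + D)) * n⁻¹ ^ q := by
    have : u ^ q * n⁻¹ ^ q = ((‖u‖ : ℝ) : ℂ) ^ q := by
      rw [← mul_pow]; congr 1; rw [mul_inv_eq_iff_eq_mul₀ hn]; exact h1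
    rw [mul_pow, mul_pow, hυq]
    push_cast
    linear_combination (ρ : ℂ) ^ q * this + (ρ : ℂ) ^ q * u ^ q * n⁻¹ ^ q * he2
  have h4 := Complex.re_le_norm (z * n⁻¹ ^ q)
  have h5 := Complex.abs_re_le_norm ((z - (e * (υ * ρ * u) ^ q + D)) * n⁻¹ ^ q)
  rw [norm_mul, h3, mul_one] at h4 h5
  rw [e1, Complex.add_re, Complex.add_re, Complex.ofReal_re] at h4
  linarith [neg_abs_le ((z - (e * (υ * ρ * u) ^ q + D)) * n⁻¹ ^ q).re]

theorem norm_inv_pow_sub {n : ℂ} (hn : ‖n‖ = 1) (q : ℕ) : ‖n⁻¹ ^ q - 1‖ ≤ q * ‖n - 1‖ := by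
  have hn0 : n ≠ 0 := norm_pos_iff.1 (by rw [hn]; norm_num)
  have h1 := pow_sub_pow_bound (a := n⁻¹) (b := 1) le_rfl (by simp [hn]) (by simp) q
  have h2 : n⁻¹ - 1 = -(n - 1) / n := by field_simp; ring
  rwa [one_pow, one_pow, mul_one, h2, norm_div, hn, div_one, norm_neg] at h1

theorem err_le_one (hυ : ‖υ‖ = 1) {C ρ : ℝ} {u : ℂ} (hρ : 0 < ρ) (h : |C| ≤ ρ) (hu : 1 ≤ ‖u‖) :
    C / ‖υ * ρ * u‖ ≤ 1 := by
  rw [norm_mul, norm_mul, hυ, one_mul, Complex.norm_real, Real.norm_of_nonneg hρ.le,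
    div_le_one (by positivity)]
  nlinarith [le_abs_self C]

theorem dom_nontop (hυ : ‖υ‖ = 1) (hυq : υ ^ q = e) (he : e = 1 ∨ e = -1) (β K A C : ℝ)
    {d : ℕ → ℝ} {r0 : ℕ} (h0 : r0 < q) (hr : q < 2 * r0) (h1 : ∀ r, r0 < r → r < q → d r = 0)
    (h2 : 0 < (d r0 * υ ^ r0).re) :
    ∃ κ : ℝ, 0 < κ ∧ ∀ᶠ w : ℝ in atTop, ∀ (ρ : ℝ) (u a : ℂ), 0 < ρ → |ρ ^ q - w| ≤ A * √w →
      1 ≤ ‖u‖ → ‖u - 1‖ ≤ κ → a ≠ 0 →
      ‖a⁻¹ - (e * (υ * ρ * u) ^ q + Dp d q (υ * ρ * u))‖ ≤ C / ‖υ * ρ * u‖ →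
      a ∈ endDom β K (w + 1) ∧ √w ≤ ‖sig β w a‖ := by
  obtain ⟨c, κ, R, hc, hκ, h3⟩ := nontop_bound h0 h1 h2
  have hq : (1 : ℝ) ≤ q := by exact_mod_cast (by omega : 1 ≤ q)
  refine ⟨κ / (2 * q), by positivity, ?_⟩
  filter_upwards [ev_root q A (max (max R |C|) (max 1 (2 * ((|A| + 3) / c) ^ 2))), ev_lev β K]
    with w ⟨hw, h4⟩ h5 ρ u a hρ hq' hu hu' ha hz
  obtain ⟨h6, h7, -⟩ := h4 ρ hρ hq'
  simp only [max_le_iff] at h6
  have hu0 : u ≠ 0 := norm_pos_iff.1 (by linarith)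
  rw [le_div_iff₀ (by positivity)] at hu'
  have h8 := tip_lower hυq he hu0 (hz.trans (err_le_one hυ hρ h6.1.2 hu))
  have h9 := h3 ρ u ((u / (‖u‖ : ℝ))⁻¹ ^ q) h6.1.1 (by nlinarith [norm_nonneg (u - 1)])
    ((norm_inv_pow_sub (polar hu0).2 q).trans (by nlinarith [(norm_sub_one_le hu).2]))
  have h10 : (|A| + 3) / c * √w ≤ ρ ^ r0 := by
    refine le_of_sq_le_sq ?_ (by positivity)
    have : ρ ^ (q + 1) ≤ (ρ ^ r0) ^ 2 := by
      rw [← pow_mul]; exact pow_le_pow_right₀ h6.2.1 (by omega)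
    rw [mul_pow, Real.sq_sqrt (by linarith)]
    rw [pow_succ] at this
    nlinarith [h6.2.2, sq_nonneg ((|A| + 3) / c)]
  rw [div_mul_eq_mul_div, div_le_iff₀ hc] at h10
  have h11 := one_le_pow₀ hu (n := q)
  have h12 : 1 ≤ √w := Real.one_le_sqrt.2 hw
  have h13 : w + 2 * √w ≤ ‖a⁻¹‖ := by
    nlinarith [(abs_le.1 hq').1, pow_pos hρ q, le_abs_self A]
  refine ⟨dom_of_inv ha (by linarith [h5.1]), ?_⟩
  linarith [sig_lower β w a, h5.2.1]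

theorem dom_top (hq : 1 ≤ q) (hυ : ‖υ‖ = 1) (hυq : υ ^ q = e) (he : e = 1 ∨ e = -1) (A C : ℝ)
    {d : ℕ → ℝ} (hd : Half d q) {δ : ℝ} (hδ : 0 < δ) (hδ1 : δ ≤ 1 / 4) :
    ∃ C' : ℝ, ∀ᶠ w : ℝ in atTop, ∀ (ρ y : ℝ) (u z : ℂ), 0 < ρ → |ρ ^ q - w| ≤ A * √w →
      0 < y → y ^ q = w → 1 + δ ≤ ‖u + δ‖ → ‖u‖ ≤ 2 →
      ‖z - (e * (υ * ρ * u) ^ q + Dp d q (υ * ρ * u))‖ ≤ C / ‖υ * ρ * u‖ →
      ρ ^ q + (Dp d q (υ * y)).re - C' ≤ ‖z‖ := by
  obtain ⟨D, hD, h1⟩ := hd.bound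
  refine ⟨1 + 2 * |A| * D + 3 * (D * (q + 1)) ^ 2 / δ, ?_⟩
  filter_upwards [ev_root q A |C|, ev_sqrt D (show (0 : ℝ) < 1 / 4 by norm_num),
    ev_sqrt |A| one_pos] with w ⟨hw, h4⟩ h5 h5' ρ y u z hρ hq' hy hyq hu hu2 hz
  obtain ⟨h6, h7, -⟩ := h4 ρ hρ hq'
  obtain ⟨g1, g2, -⟩ := ext_geo hδ hδ1 hu
  have hu0 : u ≠ 0 := norm_pos_iff.1 (by linarith)
  have h8 := tip_lower hυq he hu0 (hz.trans (err_le_one hυ hρ h6 g1))
  have g3 := (norm_sub_one_le g1).1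
  have g4 := norm_inv_pow_sub (polar hu0).2 q
  have g5 : ‖(u / (‖u‖ : ℝ))⁻¹ ^ q‖ = 1 := by rw [norm_pow, norm_inv, (polar hu0).2]; simp
  generalize (u / (‖u‖ : ℝ))⁻¹ ^ q = m at *
  generalize hs : ‖u / (‖u‖ : ℝ) - 1‖ = s at *
  have hs0 : 0 ≤ s := hs ▸ norm_nonneg _
  have hy1 : 1 ≤ y := by
    by_contra hh
    have := pow_lt_one₀ hy.le (not_le.1 hh) (show q ≠ 0 by omega)
    linarith
  have hsw : 1 ≤ √w := Real.one_le_sqrt.2 hw
  have hww := Real.mul_self_sqrt (show 0 ≤ w by linarith)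
  have k1 : √w * |ρ / y - 1| ≤ |A| := by
    have := abs_sub_one_le_pow hq (show 0 ≤ ρ / y by positivity)
    rw [div_pow, hyq, div_sub_one (show w ≠ 0 by linarith), abs_div (ρ ^ q - w), abs_of_pos
      (show 0 < w by linarith), le_div_iff₀ (by linarith)] at this
    refine le_of_mul_le_mul_right ?_ (show 0 < √w by linarith)
    rw [mul_comm (√w), mul_assoc, hww]
    exact (this.trans hq').trans (by gcongr; exact le_abs_self A)
  have k2 : |ρ / y - 1| ≤ 1 := by nlinarith [abs_nonneg (ρ / y - 1)]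
  obtain ⟨h2, h3, -⟩ := h1 y hy1
  have hy' : (y : ℂ) ≠ 0 := by exact_mod_cast hy.ne'
  have k3 := h2 (υ * (ρ / y : ℝ) * u) υ (by
    rw [norm_mul, norm_mul, hυ, one_mul, Complex.norm_real, Real.norm_of_nonneg (by positivity)]
    nlinarith [(abs_le.1 k2).2, div_pos hρ hy]) (by rw [hυ]; norm_num)
  have k4 := h3 υ (by rw [hυ]; norm_num)
  have e1 : (y : ℂ) * (υ * (ρ / y : ℝ) * u) = υ * ρ * u := by push_cast; field_simp
  have k5 : ‖υ * (ρ / y : ℝ) * u - υ‖ ≤ |ρ / y - 1| * 2 + ‖u - 1‖ := by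
    have : υ * (ρ / y : ℝ) * u - υ = υ * (((ρ / y - 1 : ℝ) : ℂ) * u + (u - 1)) := by
      push_cast; ring
    rw [this, norm_mul, hυ, one_mul]
    refine norm_add_le_of_le ?_ le_rfl
    rw [norm_mul, Complex.norm_real, Real.norm_eq_abs]; gcongr
  rw [e1, hyq, mul_comm (y : ℂ)] at k3
  rw [hyq, mul_comm (y : ℂ)] at k4
  have k6 : ‖Dp d q (υ * ρ * u) * m - Dp d q (υ * y)‖ ≤
      D * √w * (|ρ / y - 1| * 2 + ((‖u‖ - 1) + s)) + D * √w * (q * s) := by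
    have : Dp d q (υ * ρ * u) * m - Dp d q (υ * y) =
      (Dp d q (υ * ρ * u) - Dp d q (υ * y)) * m + Dp d q (υ * y) * (m - 1) := by ring
    rw [this]
    refine norm_add_le_of_le ?_ (norm_mul_le_of_le k4 g4)
    rw [norm_mul, g5, mul_one]
    refine k3.trans ?_
    gcongr
    linarith
  have k7 := (neg_abs_le _).trans' (neg_le_neg ((Complex.abs_re_le_norm _).trans k6))
  rw [Complex.sub_re] at k7
  have k8 : ‖u‖ ≤ ‖u‖ ^ q := le_self_pow₀ g1 (by omega)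
  have k9 : w / 2 * (‖u‖ - 1) ≤ ρ ^ q * (‖u‖ ^ q - 1) := by gcongr
  have k10 : D * √w * (‖u‖ - 1) ≤ 1 / 4 * w * (‖u‖ - 1) := by gcongr
  have k11 : D * (q + 1) * (√w * s) ≤ δ / 12 * (√w * s) ^ 2 + 3 * (D * (q + 1)) ^ 2 / δ := by
    have : δ / 12 * (√w * s) ^ 2 + 3 * (D * (q + 1)) ^ 2 / δ - D * (q + 1) * (√w * s) =
      δ / 12 * (√w * s - 6 * (D * (q + 1)) / δ) ^ 2 := by field_simp; ring
    have h9 : 0 ≤ δ / 12 * (√w * s - 6 * (D * (q + 1)) / δ) ^ 2 := by positivity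
    linarith
  have k12 : δ / 12 * (√w * s) ^ 2 ≤ 1 / 4 * w * (‖u‖ - 1) := by
    rw [mul_pow, Real.sq_sqrt (by linarith)]
    linarith [mul_le_mul_of_nonneg_left g2 (show 0 ≤ w by linarith)]
  have k13 : D * (√w * |ρ / y - 1|) ≤ D * |A| := by gcongr
  linarith

end Vale.Agent.P218SQ
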