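import Vale.Agent.P218SQ.Cont
import Vale.Agent.P218SQ.Dom

/-! The normalised integrand and its domination. -/

open Set Filter Topology MeasureTheory

namespace Vale.Agent.P218SQ

/-- real `q`-th root -/
noncomputable def rt (q : ℕ) (w : ℝ) : ℝ := w ^ ((q : ℝ)⁻¹)

theorem rt_pow {q : ℕ} (hq : 1 ≤ q) {w : ℝ} (hw : 0 ≤ w) : rt q w ^ q = w :=
  Real.rpow_inv_natCast_pow hw (by omega)

theorem rt_pos (q : ℕ) {w : ℝ} (hw : 0 < w) : 0 < rt q w := Real.rpow_pos_of_pos hw _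

theorem one_le_rt (q : ℕ) {w : ℝ} (hw : 1 ≤ w) : 1 ≤ rt q w := Real.one_le_rpow hw (by positivity)

/-- shift of the circle -/
noncomputable def del (q : ℕ) : ℝ := 1 / (1600 * q)

theorem del_pos {q : ℕ} (hq : 1 ≤ q) : 0 < del q ∧ del q ≤ 1 / 4 := by
  have hq' : (1 : ℝ) ≤ q := by exact_mod_cast hq
  refine ⟨by unfold del; positivity, ?_⟩
  rw [del, div_le_div_iff₀ (by positivity) (by norm_num)]; linarith

/-- angle on the contour -/
noncomputable def ang (q : ℕ) (L z η : ℝ) : ℝ := (η - z) / (q * (1 + del q) * L)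

/-- point on the contour -/
noncomputable def pt (q : ℕ) (υ : ℂ) (L θ : ℝ) : ℂ := υ * rt q L * uu (del q) θ

/-- normalising factor -/
noncomputable def kap (q : ℕ) (υ : ℂ) (b' : ℝ) (N : ℕ) : ℂ :=
  (((N : ℝ) ^ b' : ℝ) : ℂ) * (q * N / (Complex.I * υ * rt q N))

/-- normalised integrand -/
noncomputable def hh (q : ℕ) (υ : ℂ) (b' : ℝ) (N : ℕ) (nrm : ℂ) (Δ : ℂ → ℂ) (L z η : ℝ) : ℂ :=
  nrm * kap q υ b' N * kk (fun ω => Δ ω * psi q N (ω / (υ * rt q N))) (υ * rt q L) (del q)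
    (q * (1 + del q) * L) (ang q L z η)

theorem hh_eq {q : ℕ} (hq : 1 ≤ q) {υ : ℂ} (hυ : ‖υ‖ = 1) (b' : ℝ) {N : ℕ} (hN : 0 < N)
    (nrm : ℂ) (Δ : ℂ → ℂ) {L z η : ℝ} (hL : 0 < L) (h : ang q L z η ∈ Ioc (-Real.pi) Real.pi) :
    hh q υ b' N nrm Δ L z η = nrm * (((N : ℝ) ^ b' : ℝ) : ℂ) * Δ (pt q υ L (ang q L z η)) *
      psi q N ((rt q L / rt q N : ℝ) * uu (del q) (ang q L z η)) *
      ((N / L * (rt q L / rt q N) : ℝ) * Complex.exp (ang q L z η * Complex.I)) := by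
  have h1 : υ ≠ 0 := norm_pos_iff.1 (by rw [hυ]; norm_num)
  have h2 : (rt q N : ℂ) ≠ 0 := by exact_mod_cast (rt_pos q (by exact_mod_cast hN)).ne'
  have h3 : (q : ℂ) ≠ 0 := by exact_mod_cast (by omega : q ≠ 0)
  have h4 : (L : ℂ) ≠ 0 := by exact_mod_cast hL.ne'
  have h5 : (1 + del q : ℂ) ≠ 0 := by exact_mod_cast (by linarith [(del_pos hq).1] : 1 + del q ≠ 0)
  have e : υ * rt q L * uu (del q) (ang q L z η) / (υ * rt q N) =
      (rt q L / rt q N : ℝ) * uu (del q) (ang q L z η) := by push_cast; field_simp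
  rw [hh, kk, indicator_of_mem h, e, kap, pt]
  push_cast
  field_simp

theorem ratio_le {q : ℕ} (hq : 1 ≤ q) {N L : ℝ} (hN : 0 < N) (hL : 0 < L) (h : N ≤ 7 * L) :
    N / L * (rt q L / rt q N) ≤ 7 := by
  have h1 := rt_pos q hN
  have h2 := rt_pos q hL
  rcases le_total (rt q L / rt q N) 1 with h3 | h3
  · calc N / L * (rt q L / rt q N) ≤ 7 * 1 := by gcongr; rwa [div_le_iff₀ hL]
      _ = _ := by norm_num
  · have h4 := le_self_pow₀ h3 (show q ≠ 0 by omega)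
    rw [div_pow, rt_pow hq hL.le, rt_pow hq hN.le] at h4
    calc _ ≤ N / L * (L / N) := by gcongr
      _ ≤ _ := by field_simp; norm_num

theorem hh_le {q : ℕ} (hq : 1 ≤ q) {υ : ℂ} (hυ : ‖υ‖ = 1) (β b γ K2 A D C0 C2 : ℝ) :
    ∃ C : ℝ, 0 ≤ C ∧ ∀ (N : ℕ) (w L z η PN Pw X : ℝ) (nrm : ℂ) (Δ : ℂ → ℂ), 40 ≤ N → 1 ≤ w →
      8 * (N : ℝ) ≤ 25 * w → L = w + β * Real.log w + K2 - Pw → |L - w| ≤ A * √w → w / 2 ≤ L →
      L ≤ 2 * w → PN - Pw ≤ D * |√w - √N| → ‖nrm‖ ≤ C2 * Real.exp PN → 0 ≤ X →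
      ang q L z η ∈ Ioc (-Real.pi) Real.pi →
      ‖Δ (pt q υ L (ang q L z η))‖ ≤ C0 * Real.exp (-w) * w ^ (-b) * X →
      ‖hh q υ (b - β) N nrm Δ L z η‖ ≤ C * (1 + |(w - N) / √(N : ℝ)|) ^ (-γ) *
        (X * Real.exp (-(1 / 18000 * (w * ang q L z η ^ 2)))) := by
  obtain ⟨C, hC, h1⟩ := absorb (show (0 : ℝ) < 1 / 3200 by norm_num) (2 * |b - β| + D) γ
  refine ⟨7 * |C2| * |C0| * Real.exp (K2 + A ^ 2) * C, by positivity,
    fun N w L z η PN Pw X nrm Δ hN hw hNw hL hA h2 h3 hP hn hX hθ hΔ => ?_⟩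
  have hN1 : (1 : ℝ) ≤ N := by exact_mod_cast (by omega : 1 ≤ N)
  have hL0 : 0 < L := by linarith
  have hLq := rt_pow hq hL0.le
  have k1 := psi_contour (w := w) (A := A) hq hN (rt_pos q (by linarith))
    (rt_pow hq (by linarith)) (by linarith)
    (rt_pos q hL0) (by rwa [hLq]) (by rwa [hLq]) (by rwa [hLq])
    (abs_le.2 ⟨hθ.1.le, hθ.2⟩)
  rw [hLq] at k1
  have k2 := ratio_le hq (by linarith : (0 : ℝ) < N) hL0 (by linarith)
  have k3 : 0 ≤ N / L * (rt q L / rt q N) := by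
    have := rt_pos q hL0
    have := rt_pos q (by linarith : (0 : ℝ) < N)
    positivity
  rw [hh_eq hq hυ _ (by omega) _ _ hL0 hθ, norm_mul, norm_mul, norm_mul, norm_mul, norm_mul,
    Complex.norm_exp_ofReal_mul_I, mul_one, Complex.norm_real, Complex.norm_real,
    Real.norm_of_nonneg k3, Real.norm_of_nonneg (by positivity),
    Real.rpow_def_of_pos (by linarith)]
  rw [Real.rpow_def_of_pos (by linarith)] at hΔ
  have k4 := abs_log_sub_le hN1 hw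
  have k5 : (Real.log N - Real.log w) * (b - β) ≤ 2 * |√w - √N| * |b - β| := by
    refine (le_abs_self _).trans ?_
    rw [abs_mul, abs_sub_comm]
    gcongr
  calc _ ≤ |C2| * Real.exp PN * Real.exp (Real.log N * (b - β)) *
        (|C0| * Real.exp (-w) * Real.exp (Real.log w * (-b)) * X) *
        Real.exp (L + A ^ 2 - (w - N) ^ 2 / (N + w) / 3200 - w * ang q L z η ^ 2 / 18000) * 7 := by
        gcongr
        · exact hn.trans (by gcongr; exact le_abs_self _)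
        · exact hΔ.trans (by gcongr; exact le_abs_self _)
        · exact k1
    _ = 7 * |C2| * |C0| * X * Real.exp (PN + Real.log N * (b - β) + -w + Real.log w * (-b) +
        (L + A ^ 2 - (w - N) ^ 2 / (N + w) / 3200 - w * ang q L z η ^ 2 / 18000)) := by
        simp only [Real.exp_add]; ring
    _ ≤ 7 * |C2| * |C0| * X * Real.exp (K2 + A ^ 2 +
        ((2 * |b - β| + D) * |√w - √N| - 1 / 3200 * ((w - N) ^ 2 / (N + w))) +
        -(1 / 18000 * (w * ang q L z η ^ 2))) := by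
        gcongr ?_ * Real.exp ?_
        linarith
    _ ≤ _ := by
        rw [Real.exp_add, Real.exp_add]
        calc _ ≤ 7 * |C2| * |C0| * X * (Real.exp (K2 + A ^ 2) *
            (C * (1 + |(w - N) / √(N : ℝ)|) ^ (-γ)) *
            Real.exp (-(1 / 18000 * (w * ang q L z η ^ 2)))) := by
              gcongr; exact h1 _ _ hN1 hw
          _ = _ := by ring

theorem bracket_le {γ : ℝ} (hγ : 0 ≤ γ) (C1 : ℝ) : ∃ C : ℝ, 0 ≤ C ∧ ∀ w s τ η : ℝ, 1 ≤ w → 0 ≤ s →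
    0 ≤ τ → 1 + |η| ≤ C1 * (1 + s) * (1 + τ) ^ 2 → 1 + |η| ≤ C1 * √w * (1 + τ) ^ 2 →
    ((1 + s) ^ (-γ) + w ^ (-γ / 2)) * Real.exp (-(1 / 18000 * τ)) ≤ C * (1 + |η|) ^ (-γ) := by
  obtain ⟨C, hC, h1⟩ := exp_jap (show (0 : ℝ) < 1 / 18000 by norm_num) (2 * γ)
  have key : ∀ a τ η : ℝ, 0 < a → 0 ≤ τ → 1 + |η| ≤ C1 * a * (1 + τ) ^ 2 →
      a ^ (-γ) * Real.exp (-(1 / 18000 * τ)) ≤ |C1| ^ γ * C * (1 + |η|) ^ (-γ) := by
    intro a τ η ha hτ h
    have h2 : (1 + |η|) ^ γ ≤ (|C1| * a * (1 + τ) ^ 2) ^ γ :=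
      Real.rpow_le_rpow (by positivity) (h.trans (by gcongr; exact le_abs_self _)) hγ
    rw [Real.mul_rpow (by positivity) (by positivity), Real.mul_rpow (by positivity) ha.le,
      ← Real.rpow_natCast, ← Real.rpow_mul (by linarith)] at h2
    rw [Real.rpow_neg (by positivity) γ, Real.rpow_neg (by positivity) γ, ← div_eq_mul_inv,
      le_div_iff₀ (by positivity)]
    have h3 := h1 τ hτ
    rw [Real.rpow_neg (by linarith)] at h3
    calc _ ≤ (a ^ γ)⁻¹ * (C * ((1 + τ) ^ (2 * γ))⁻¹) *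
        (|C1| ^ γ * a ^ γ * (1 + τ) ^ (((2 : ℕ) : ℝ) * γ)) := by gcongr
      _ = _ := by push_cast; field_simp
  refine ⟨2 * (|C1| ^ γ * C), by positivity, fun w s τ η hw hs hτ h2 h3 => ?_⟩
  have h4 := key _ _ _ (by linarith) hτ h2
  have h5 := key _ _ _ (Real.sqrt_pos.2 (by linarith)) hτ h3
  rw [Real.sqrt_eq_rpow, ← Real.rpow_mul (by linarith), show 1 / 2 * -γ = -γ / 2 by ring] at h5
  linarith

theorem cen_sqrt {q : ℕ} (hq : 1 ≤ q) {w L z η Z : ℝ} (hw : 1 ≤ w) (hL0 : 0 < L) (hL : L ≤ 2 * w)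
    (hz : |z| ≤ Z * √w) :
    1 + |η| ≤ (1 + Z + 4 * q) * √w * (1 + w * ang q L z η ^ 2) := by
  obtain ⟨h1, h2⟩ := del_pos hq
  have hq' : (1 : ℝ) ≤ q := by exact_mod_cast hq
  have h3 : η = q * (1 + del q) * L * ang q L z η + z := by rw [ang]; field_simp; ring
  have h4 : 1 ≤ √w := Real.one_le_sqrt.2 hw
  have h5 := Real.mul_self_sqrt (show 0 ≤ w by linarith)
  generalize ang q L z η = θ at *
  have h6 : |η| ≤ q * 2 * (2 * w) * |θ| + Z * √w := by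
    rw [h3]
    refine (abs_add_le _ _).trans (add_le_add ?_ hz)
    rw [abs_mul, abs_of_pos (by positivity)]
    gcongr; linarith
  have h7 : √w * |θ| ≤ 1 + w * θ ^ 2 := by
    rw [← sq_abs]; nlinarith [sq_nonneg (√w * |θ| - 1), abs_nonneg θ]
  have h8 : q * √w * (√w * |θ|) ≤ q * √w * (1 + w * θ ^ 2) := by gcongr
  have hZ : 0 ≤ Z := nonneg_of_mul_nonneg_left ((abs_nonneg z).trans hz) (by linarith)
  have h9 : (1 + Z) * √w * 1 ≤ (1 + Z) * √w * (1 + w * θ ^ 2) := by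
    gcongr; linarith [mul_nonneg (show 0 ≤ w by linarith) (sq_nonneg θ)]
  have h10 : q * √w * (√w * |θ|) = q * w * |θ| := by
    rw [← mul_assoc, mul_assoc (q : ℝ) (√w), h5]
  linarith

end Vale.Agent.P218SQ
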