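import Vale.Agent.P218SQ.Geo
import Vale.Agent.P218SQ.Res
import Mathlib.MeasureTheory.Integral.IntervalIntegral.Periodic
import Mathlib.MeasureTheory.Measure.Haar.NormedSpace
import Mathlib.MeasureTheory.Group.Integral

/-! The test polynomial on the shifted circle, and the parametrisation of the contour. -/

open Set Filter Topology MeasureTheory

namespace Vale.Agent.P218SQ

theorem pow_le_lin {q : ℕ} {a : ℝ} (ha : 0 ≤ a) (h : q * a ≤ 1 / 2) :
    (1 + a) ^ q ≤ 1 + 2 * (q * a) := by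
  have h1 : (1 + a) ^ q ≤ Real.exp (q * a) := by
    rw [Real.exp_nat_mul]
    exact pow_le_pow_left₀ (by linarith) (by linarith [Real.add_one_le_exp a]) q
  have h2 := Real.add_one_le_exp (-(q * a))
  have h3 : 0 ≤ q * a := by positivity
  rw [Real.exp_neg, le_inv_comm₀ (by linarith) (Real.exp_pos _)] at h2
  refine h1.trans (h2.trans ?_)
  rw [inv_le_iff_one_le_mul₀ (by linarith)]
  nlinarith

theorem gauss_shift {N w t E A : ℝ} (hN : 0 < N) (hw : 0 < w) (h1 : w / 2 ≤ t) (h2 : t ≤ 4 * w)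
    (hE : 0 ≤ E) (hE' : E ≤ t) (h3 : (t - E - w) ^ 2 ≤ A ^ 2 * w) :
    (w - N) ^ 2 / (N + w) / 8 - 2 * E - 4 * A ^ 2 ≤ (t - N) ^ 2 / (N + t) := by
  have h4 : (w - N) ^ 2 / (N + w) / 8 ≤ (w - N) ^ 2 / 2 / (N + t) := by
    rw [div_div, div_div]
    exact div_le_div_of_nonneg_left (sq_nonneg _) (by linarith) (by linarith)
  have h5 : (w - N) ^ 2 / 2 - (2 * E + 4 * A ^ 2) * (N + t) ≤ (t - N) ^ 2 := by
    have h6 : E ^ 2 ≤ E * (N + t) := by nlinarith
    have h7 : A ^ 2 * w ≤ A ^ 2 * (2 * (N + t)) := by gcongr; linarith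
    nlinarith [sq_nonneg (w - N + 2 * (t - w)), sq_nonneg (t - E - w - E)]
  rw [le_div_iff₀ (by linarith)] at h4 ⊢
  linarith

theorem psi_contour {q N : ℕ} (hq : 1 ≤ q) (hN : 40 ≤ N) {x w ρ A θ : ℝ} (hx : 0 < x)
    (hxq : x ^ q = N) (hw : 0 < w) (hρ : 0 < ρ) (h1 : |ρ ^ q - w| ≤ A * √w)
    (h2 : w / 2 ≤ ρ ^ q) (h3 : ρ ^ q ≤ 2 * w) (hθ : |θ| ≤ Real.pi) :
    ‖psi q N ((ρ / x : ℝ) * uu (1 / (1600 * q)) θ)‖ ≤
      Real.exp (ρ ^ q + A ^ 2 - (w - N) ^ 2 / (N + w) / 3200 - w * θ ^ 2 / 18000) := by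
  have hq' : (1 : ℝ) ≤ q := by exact_mod_cast hq
  have hN' : (0 : ℝ) < N := by exact_mod_cast (by omega : 0 < N)
  have hδ : (0 : ℝ) < 1 / (1600 * q) := by positivity
  have hδq : q * (1 / (1600 * q) : ℝ) = 1 / 1600 := by field_simp
  have hδ1 : (1 / (1600 * q) : ℝ) ≤ 1 / 4 := by nlinarith
  generalize (1 / (1600 * q) : ℝ) = δ at *
  have g0 := uu_add δ θ hδ.le
  obtain ⟨g1, -, g2⟩ := ext_geo hδ hδ1 g0.ge
  replace g2 := g2 g0
  have g3 := (norm_sub_one_le g1).1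
  have g4 := (norm_uu_sub hδ.le hδ1 θ).2.2 hθ
  obtain ⟨g5, g6⟩ := polar (norm_pos_iff.1 (lt_of_lt_of_le one_pos g1))
  generalize uu δ θ = u at *
  generalize u / (‖u‖ : ℝ) = n at *
  generalize hp : ‖u‖ = p at *
  have k1 := psi_le hq hN (p := ρ / x * p) (by positivity) g6
  have e1 : (N : ℝ) * (ρ / x * p) ^ q = ρ ^ q * p ^ q := by
    rw [mul_pow, div_pow, hxq]; field_simp
  have e2 : (N : ℝ) * ((ρ / x * p) ^ q - 1) ^ 2 / (1 + (ρ / x * p) ^ q) =
      (ρ ^ q * p ^ q - N) ^ 2 / (N + ρ ^ q * p ^ q) := by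
    rw [← e1]; field_simp
  rw [e2, e1] at k1
  rw [g5, ← mul_assoc, ← Complex.ofReal_mul]
  refine k1.trans (Real.exp_le_exp.2 ?_)
  have hs2 : ‖n - 1‖ ≤ 2 := by
    have := norm_sub_le n 1
    rw [g6, norm_one] at this; linarith
  have hs0 := norm_nonneg (n - 1)
  generalize ‖n - 1‖ = s at *
  have k2 : q * (p - 1) ≤ s ^ 2 / 1600 := by
    calc _ ≤ q * (δ * s ^ 2) := by gcongr; linarith
      _ = _ := by rw [← mul_assoc, hδq]; ring
  have hs4 : s ^ 2 ≤ 4 := by nlinarith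
  have k3 := pow_le_lin (q := q) (a := p - 1) (by linarith) (by linarith)
  rw [add_sub_cancel] at k3
  have k4 := one_le_pow₀ g1 (n := q)
  have hL : 0 < ρ ^ q := by positivity
  have k5 : ρ ^ q * 1 ≤ ρ ^ q * p ^ q := by gcongr
  have k6 : ρ ^ q * p ^ q ≤ ρ ^ q * (1 + s ^ 2 / 800) := by gcongr; linarith
  have k7 : ρ ^ q * s ^ 2 ≤ ρ ^ q * p ^ q * s ^ 2 := by gcongr; linarith
  have k8 : ρ ^ q * s ^ 2 ≤ ρ ^ q * 4 := by gcongr
  have k9 := gauss_shift (t := ρ ^ q * p ^ q) (E := ρ ^ q * p ^ q - ρ ^ q) (A := A) hN' hw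
    (by linarith) (by linarith) (by linarith) (by linarith) (by
      rw [sub_sub_cancel, ← sq_abs, ← Real.sq_sqrt hw.le, ← mul_pow, Real.sq_sqrt hw.le]
      gcongr)
  have k13 : δ * s ^ 2 ≤ 1 / 4 * (2 * s) := by
    rw [sq]; gcongr
  have k10 : |θ| ≤ 3 * s := by linarith
  have k11 : θ ^ 2 ≤ (3 * s) ^ 2 := by rw [← sq_abs]; gcongr
  have k12 : w * θ ^ 2 ≤ (2 * ρ ^ q) * (3 * s) ^ 2 := by gcongr; linarith
  have k14 : 0 ≤ ρ ^ q * s ^ 2 := by positivity
  linarith [sq_nonneg A]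

theorem exp_jap {c : ℝ} (hc : 0 < c) (γ : ℝ) : ∃ C : ℝ, 0 ≤ C ∧ ∀ s : ℝ, 0 ≤ s →
    Real.exp (-(c * s)) ≤ C * (1 + s) ^ (-γ) := by
  refine ⟨(⌈γ⌉₊).factorial / c ^ ⌈γ⌉₊ * Real.exp c, by positivity, fun s hs => ?_⟩
  have h1 := Real.pow_div_factorial_le_exp (c * (1 + s)) (by positivity) ⌈γ⌉₊
  have h2 : (1 + s) ^ γ ≤ (1 + s) ^ ⌈γ⌉₊ := by
    rw [← Real.rpow_natCast]
    exact Real.rpow_le_rpow_of_exponent_le (by linarith) (Nat.le_ceil γ)
  rw [Real.rpow_neg (by linarith), ← div_eq_mul_inv, le_div_iff₀ (by positivity), Real.exp_neg,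
    inv_mul_le_iff₀ (Real.exp_pos _)]
  rw [div_le_iff₀ (by positivity), mul_pow, mul_add, mul_one, Real.exp_add,
    ← le_div_iff₀' (by positivity)] at h1
  exact h2.trans (h1.trans (le_of_eq (by field_simp)))

theorem absorb {c : ℝ} (hc : 0 < c) (k γ : ℝ) : ∃ C : ℝ, 0 ≤ C ∧ ∀ N w : ℝ, 1 ≤ N → 1 ≤ w →
    Real.exp (k * |√w - √N| - c * ((w - N) ^ 2 / (N + w))) ≤ C * (1 + |(w - N) / √N|) ^ (-γ) := by
  obtain ⟨C, hC, h⟩ := exp_jap (show 0 < c / 6 by positivity) γ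
  refine ⟨Real.exp (k ^ 2 / (2 * c) + c / 6) * C, by positivity, fun N w hN hw => ?_⟩
  obtain ⟨a, ha, rfl⟩ : ∃ a : ℝ, 1 ≤ a ∧ N = a ^ 2 :=
    ⟨√N, Real.one_le_sqrt.2 hN, (Real.sq_sqrt (by linarith)).symm⟩
  obtain ⟨b, hb, rfl⟩ : ∃ b : ℝ, 1 ≤ b ∧ w = b ^ 2 :=
    ⟨√w, Real.one_le_sqrt.2 hw, (Real.sq_sqrt (by linarith)).symm⟩
  rw [Real.sqrt_sq (by linarith), Real.sqrt_sq (by linarith), mul_assoc]
  refine le_trans ?_ (mul_le_mul_of_nonneg_left (h _ (abs_nonneg _)) (Real.exp_pos _).le)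
  rw [← Real.exp_add, Real.exp_le_exp]
  have h1 : |b - a| ^ 2 ≤ (b ^ 2 - a ^ 2) ^ 2 / (a ^ 2 + b ^ 2) := by
    rw [sq_abs, le_div_iff₀ (by positivity)]
    nlinarith [mul_nonneg (sq_nonneg (b - a)) (show 0 ≤ a * b by positivity)]
  have h2 : |(b ^ 2 - a ^ 2) / a| - 1 ≤ 3 * ((b ^ 2 - a ^ 2) ^ 2 / (a ^ 2 + b ^ 2)) := by
    rw [abs_div, abs_of_pos (show 0 < a by linarith), ← sq_abs (b ^ 2 - a ^ 2), ← mul_div_assoc,
      div_sub_one (by linarith), div_le_div_iff₀ (by linarith) (by positivity)]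
    have h3 : b ^ 2 ≤ a ^ 2 + |b ^ 2 - a ^ 2| := by linarith [le_abs_self (b ^ 2 - a ^ 2)]
    have h4 := abs_nonneg (b ^ 2 - a ^ 2)
    generalize |b ^ 2 - a ^ 2| = m at *
    rcases le_total m a with h5 | h5
    · have : (m - a) * (a ^ 2 + b ^ 2) ≤ 0 := mul_nonpos_of_nonpos_of_nonneg (by linarith)
        (by positivity)
      have : 0 ≤ 3 * m ^ 2 * a := by positivity
      linarith
    · have h6 : (m - a) * (a ^ 2 + b ^ 2) ≤ m * (2 * a ^ 2 + m) := by
        exact mul_le_mul (by linarith) (by linarith) (by positivity) h4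
      have h7 : m * a * a ≤ m * a * m := by gcongr
      have h8 : m * m * 1 ≤ m * m * a := by gcongr
      nlinarith
  have h3 : k * |b - a| ≤ c / 2 * |b - a| ^ 2 + k ^ 2 / (2 * c) := by
    have : c / 2 * |b - a| ^ 2 + k ^ 2 / (2 * c) - k * |b - a| = c / 2 * (|b - a| - k / c) ^ 2 := by
      field_simp; ring
    have h9 : 0 ≤ c / 2 * (|b - a| - k / c) ^ 2 := by positivity
    linarith
  nlinarith

theorem abs_log_sub_le {N w : ℝ} (hN : 1 ≤ N) (hw : 1 ≤ w) :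
    |Real.log w - Real.log N| ≤ 2 * |√w - √N| := by
  have key : ∀ a b : ℝ, 1 ≤ a → 1 ≤ b → Real.log b - Real.log a ≤ 2 * |√b - √a| := by
    intro a b ha hb
    have h1 := Real.one_le_sqrt.2 ha
    have h2 := Real.one_le_sqrt.2 hb
    have h3 := Real.log_le_sub_one_of_pos (show 0 < √b / √a by positivity)
    rw [Real.log_div (by linarith) (by linarith), Real.log_sqrt (by linarith),
      Real.log_sqrt (by linarith), div_sub_one (by linarith)] at h3
    have h4 : (√b - √a) / √a ≤ |√b - √a| := by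
      rw [div_le_iff₀ (by linarith)]
      nlinarith [le_abs_self (√b - √a), abs_nonneg (√b - √a)]
    linarith
  rw [abs_le]
  exact ⟨by linarith [key w N hw hN, abs_sub_comm √w √N], key N w hN hw⟩

/-- the integrand on the contour, as a function of the angle -/
noncomputable def kk (F : ℂ → ℂ) (c : ℂ) (δ a : ℝ) (θ : ℝ) : ℂ :=
  indicator (Ioc (-Real.pi) Real.pi) (fun θ : ℝ => F (c * uu δ θ) *
    (Complex.I * (1 + δ) * c * Complex.exp (θ * Complex.I) / a)) θ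

theorem res_param {F : ℂ → ℂ} (hF : Ext F) {c : ℂ} (hc : c ≠ 0) {δ a : ℝ} (hδ : 0 ≤ δ)
    (ha : 0 < a) (z : ℝ) (hd : ∀ u : ℂ, 1 + δ ≤ ‖u + δ‖ → DifferentiableAt ℂ F (c * u)) :
    Measurable (fun η => kk F c δ a ((η - z) / a)) ∧ res F = ∫ η, kk F c δ a ((η - z) / a) := by
  have hc0 : 0 < ‖c‖ := norm_pos_iff.2 hc
  constructor
  · refine (Measurable.indicator (Continuous.measurable ?_) measurableSet_Ioc).comp (by fun_prop)
    refine Continuous.mul (continuous_iff_continuousAt.2 fun θ => ?_) (by fun_prop)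
    exact ContinuousAt.comp (f := fun θ : ℝ => c * uu δ θ) (hd _ (uu_add δ θ hδ).ge).continuousAt
      (by unfold uu; fun_prop)
  rw [res_eq_contour hF (τ := fun v => v - δ * c) (τ1 := fun _ => 1) (ρ := (1 + δ) * ‖c‖)
    (A := ‖δ * c‖) (by positivity) (fun v _ => ⟨(hasDerivAt_id' v).sub_const _,
      differentiableAt_const _, by simp⟩) fun v hv => ?_]
  · rw [integral_sub_right_eq_self (fun η => kk F c δ a (η / a)), Measure.integral_comp_div]
    unfold kk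
    rw [integral_indicator measurableSet_Ioc,
      ← intervalIntegral.integral_of_le (by linarith [Real.pi_pos]), circleIntegral,
      ← intervalIntegral.integral_smul]
    have hper : Function.Periodic (fun θ : ℝ => deriv (circleMap 0 ((1 + δ) * ‖c‖)) θ •
        (F (circleMap 0 ((1 + δ) * ‖c‖) θ - δ * c) * 1)) (2 * Real.pi) := fun θ => by
      simp only [deriv_circleMap, periodic_circleMap _ _ θ]
    have h1 := hper.intervalIntegral_add_eq 0 (-Real.pi + c.arg)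
    rw [zero_add, show -Real.pi + c.arg + 2 * Real.pi = Real.pi + c.arg by ring,
      ← intervalIntegral.integral_comp_add_right] at h1
    rw [h1]
    refine intervalIntegral.integral_congr fun θ _ => ?_
    have h2 : circleMap 0 ((1 + δ) * ‖c‖) (θ + c.arg) =
        (1 + δ) * c * Complex.exp (θ * Complex.I) := by
      conv_rhs => rw [← Complex.norm_mul_exp_arg_mul_I c]
      rw [circleMap, zero_add]
      push_cast
      rw [add_mul (θ : ℂ), Complex.exp_add]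
      ring
    have h3 : (a : ℂ) ≠ 0 := by exact_mod_cast ha.ne'
    simp only [deriv_circleMap, h2, smul_eq_mul, abs_of_pos ha, Complex.real_smul]
    rw [show (1 + δ) * c * Complex.exp (θ * Complex.I) - δ * c = c * uu δ θ by rw [uu]; ring]
    field_simp
  · have e : v - δ * c = c * (v / c - δ) := by field_simp
    rw [e]
    refine hd _ ?_
    rw [sub_add_cancel, norm_div, le_div_iff₀ hc0]
    exact hv

end Vale.Agent.P218SQ
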