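import Mathlib.Analysis.SpecialFunctions.JapaneseBracket
import Mathlib.MeasureTheory.Integral.DominatedConvergence
import Mathlib.MeasureTheory.Measure.Haar.NormedSpace
import Mathlib.MeasureTheory.Function.Floor
import Mathlib.MeasureTheory.Group.Integral

/-! Dominated convergence for a sum over cuts of integrals over the contour. -/

open Set Filter Topology MeasureTheory

namespace Vale.Agent.P218SQ

theorem hasSum_floor {a : ℕ → ℂ} {m : ℕ}
    (hi : IntegrableOn (fun x : ℝ => a ⌊x⌋₊) (Ici (m : ℝ))) :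
    HasSum (fun k => a (m + k)) (∫ x in Ici (m : ℝ), a ⌊x⌋₊) := by
  have hU : (⋃ k : ℕ, Ico ((m + k : ℕ) : ℝ) ((m + k : ℕ) + 1)) = Ici (m : ℝ) := by
    ext x
    simp only [mem_iUnion, mem_Ico, mem_Ici]
    constructor
    · rintro ⟨k, h1, -⟩
      push_cast at h1
      linarith [Nat.cast_nonneg (α := ℝ) k]
    · intro hx
      have h0 : 0 ≤ x := (Nat.cast_nonneg m).trans hx
      refine ⟨⌊x⌋₊ - m, ?_⟩
      rw [Nat.add_sub_cancel' (Nat.le_floor hx)]
      exact ⟨Nat.floor_le h0, Nat.lt_floor_add_one x⟩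
  have hfl : ∀ k : ℕ, ∀ x ∈ Ico (k : ℝ) (k + 1), ⌊x⌋₊ = k := fun k x hx =>
    (Nat.floor_eq_iff ((Nat.cast_nonneg k).trans hx.1)).2 hx
  have h := hasSum_integral_iUnion (μ := volume) (f := fun x : ℝ => a ⌊x⌋₊)
    (s := fun k : ℕ => Ico ((m + k : ℕ) : ℝ) ((m + k : ℕ) + 1)) (fun _ => measurableSet_Ico)
    (fun i j hij => Set.disjoint_left.2 fun x h1 h2 => hij (by
      have := (hfl _ x h1).symm.trans (hfl _ x h2)
      omega)) (hU ▸ hi)
  rw [hU] at h
  refine (funext fun k => ?_ : (fun k : ℕ => ∫ x in Ico ((m + k : ℕ) : ℝ) ((m + k : ℕ) + 1),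
    a ⌊x⌋₊) = fun k => a (m + k)) ▸ h
  rw [setIntegral_congr_fun measurableSet_Ico (g := fun _ => a (m + k))
    fun x hx => by simp only [hfl _ x hx]]
  simp

theorem integrable_jap {γ : ℝ} (hγ : 1 < γ) : Integrable fun x : ℝ => (1 + |x|) ^ (-γ) := by
  simpa using integrable_one_add_norm (E := ℝ) (μ := volume) (r := γ) (by simpa using hγ)

theorem tendsto_floor_scale (u : ℝ) : Tendsto
    (fun N : ℕ => ((⌊(N : ℝ) + √(N : ℝ) * u⌋₊ : ℝ) - N) / √(N : ℝ)) atTop (𝓝 u) ∧
    ∀ᶠ N : ℕ in atTop, (N : ℝ) / 2 ≤ N + √(N : ℝ) * u := by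
  have h1 : Tendsto (fun N : ℕ => √(N : ℝ)) atTop atTop :=
    Real.tendsto_sqrt_atTop.comp tendsto_natCast_atTop_atTop
  have h2 : ∀ᶠ N : ℕ in atTop, (N : ℝ) / 2 ≤ N + √(N : ℝ) * u := by
    filter_upwards [h1.eventually (eventually_ge_atTop (2 * |u|))] with N hN
    have h3 := Real.mul_self_sqrt (Nat.cast_nonneg (α := ℝ) N)
    have h4 := neg_abs_le u
    have h5 := Real.sqrt_nonneg (N : ℝ)
    nlinarith
  refine ⟨?_, h2⟩
  have h3 : Tendsto (fun N : ℕ => u - (√(N : ℝ))⁻¹) atTop (𝓝 (u - 0)) :=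
    tendsto_const_nhds.sub (tendsto_inv_atTop_zero.comp h1)
  rw [sub_zero] at h3
  refine tendsto_of_tendsto_of_tendsto_of_le_of_le' h3 tendsto_const_nhds ?_ ?_
  · filter_upwards [h1.eventually (eventually_gt_atTop 0)] with N hN
    rw [le_div_iff₀ hN, sub_mul, inv_mul_cancel₀ hN.ne']
    linarith [Nat.lt_floor_add_one ((N : ℝ) + √(N : ℝ) * u)]
  · filter_upwards [h1.eventually (eventually_gt_atTop 0), h2] with N hN hN2
    rw [div_le_iff₀ hN]
    linarith [Nat.floor_le (show 0 ≤ (N : ℝ) + √(N : ℝ) * u by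
      linarith [Nat.cast_nonneg (α := ℝ) N])]

theorem dct2 {h : ℕ → ℕ → ℝ → ℂ} {w1 : ℕ → ℕ} {C γ : ℝ} (hγ : 1 < γ) {p r : ℝ → ℂ}
    (hw1 : ∀ N, 2 * w1 N ≤ N)
    (hm : ∀ᶠ N : ℕ in atTop, ∀ w, w1 N ≤ w → AEStronglyMeasurable (h N w) volume)
    (hb : ∀ᶠ N : ℕ in atTop, ∀ w, w1 N ≤ w → ∀ η, ‖h N w η‖ ≤
      C * (1 + |((w : ℝ) - N) / √(N : ℝ)|) ^ (-γ) * (1 + |η|) ^ (-γ))
    (hl : ∀ (u η : ℝ) (wN : ℕ → ℕ),
      Tendsto (fun N : ℕ => ((wN N : ℝ) - N) / √(N : ℝ)) atTop (𝓝 u) →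
      Tendsto (fun N => h N (wN N) η) atTop (𝓝 (p u * r η))) :
    (∀ᶠ N : ℕ in atTop, Summable fun k => ∫ η, h N (w1 N + k) η) ∧
    Tendsto (fun N : ℕ => ((√(N : ℝ) : ℝ) : ℂ)⁻¹ * ∑' k, ∫ η, h N (w1 N + k) η) atTop
      (𝓝 ((∫ u, p u) * ∫ η, r η)) := by
  have hJ := integrable_jap hγ
  set J := ∫ x : ℝ, (1 + |x|) ^ (-γ)
  have hJ0 : 0 ≤ J := integral_nonneg fun x => by positivity
  set F : ℕ → ℝ → ℂ := fun N => indicator (Ici (w1 N : ℝ)) fun x => ∫ η, h N ⌊x⌋₊ η with hF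
  have hFm : ∀ N, Measurable (F N) := fun N =>
    ((measurable_from_nat (f := fun w => ∫ η, h N w η)).comp Nat.measurable_floor).indicator
      measurableSet_Ici
  have hFb : ∀ᶠ N : ℕ in atTop, ∀ u : ℝ,
      ‖F N (N + √(N : ℝ) * u)‖ ≤ |C| * J * 2 ^ γ * (1 + |u|) ^ (-γ) := by
    filter_upwards [hb, eventually_ge_atTop 1] with N hN hN1 u
    by_cases hx : (N : ℝ) + √(N : ℝ) * u ∈ Ici (w1 N : ℝ)
    · rw [hF]
      simp only [indicator_of_mem hx]
      have h0 : 0 ≤ (N : ℝ) + √(N : ℝ) * u := (Nat.cast_nonneg _).trans hx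
      have h1 := Nat.floor_le h0
      have h2 := Nat.lt_floor_add_one ((N : ℝ) + √(N : ℝ) * u)
      have h3 : 1 ≤ √(N : ℝ) := Real.one_le_sqrt.2 (by exact_mod_cast hN1)
      have h4 := norm_integral_le_of_norm_le (hJ.const_mul _)
        (Eventually.of_forall (hN _ (Nat.le_floor (mem_Ici.1 hx))))
      rw [integral_const_mul] at h4
      refine h4.trans ?_
      set w := ⌊(N : ℝ) + √(N : ℝ) * u⌋₊
      have h5 : |u - (w - N) / √(N : ℝ)| ≤ 1 := by
        rw [sub_div' (by linarith), abs_div, abs_of_pos (show 0 < √(N : ℝ) by linarith),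
          div_le_one (by linarith), abs_le]
        constructor <;> linarith
      have h6 : (1 + |u|) / 2 ≤ 1 + |(w - N) / √(N : ℝ)| := by
        have := abs_sub_abs_le_abs_sub u ((w - N) / √(N : ℝ))
        linarith [abs_nonneg ((w - N) / √(N : ℝ))]
      have h7 := Real.rpow_le_rpow_of_nonpos (by positivity) h6 (show -γ ≤ 0 by linarith)
      rw [Real.div_rpow (by positivity) zero_le_two, Real.rpow_neg zero_le_two, div_inv_eq_mul]
        at h7
      calc _ ≤ |C| * ((1 + |u|) ^ (-γ) * 2 ^ γ) * J := by gcongr; exact le_abs_self C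
        _ = _ := by ring
    · rw [hF]
      simp only [indicator_of_notMem hx, norm_zero]
      positivity
  have hsm : ∀ N : ℕ, AEStronglyMeasurable (fun u : ℝ => F N (N + √(N : ℝ) * u)) volume :=
    fun N => ((hFm N).comp (by fun_prop)).aestronglyMeasurable
  have hsum : ∀ᶠ N : ℕ in atTop, HasSum (fun k => ∫ η, h N (w1 N + k) η) (∫ x, F N x) := by
    filter_upwards [hFb, eventually_ge_atTop 1] with N hN hN1
    have h3 : 0 < √(N : ℝ) := Real.sqrt_pos.2 (by exact_mod_cast hN1)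
    have h1 : Integrable fun u : ℝ => F N (N + √(N : ℝ) * u) :=
      (hJ.const_mul _).mono' (hsm N) (Eventually.of_forall hN)
    have h2 := (integrable_comp_mul_left_iff (fun y => F N (N + y)) h3.ne').1 h1
    have h4 : Integrable (F N) := by simpa using h2.comp_add_left (-(N : ℝ))
    rw [hF] at h4 ⊢
    simp only [integral_indicator measurableSet_Ici]
    exact hasSum_floor (a := fun w => ∫ η, h N w η)
      ((integrable_indicator_iff measurableSet_Ici).1 h4)
  refine ⟨hsum.mono fun N hN => hN.summable, ?_⟩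
  have hlim : Tendsto (fun N : ℕ => ∫ u, F N (N + √(N : ℝ) * u)) atTop
      (𝓝 (∫ u, p u * ∫ η, r η)) := by
    refine tendsto_integral_filter_of_dominated_convergence _ (Eventually.of_forall hsm)
      (hFb.mono fun N hN => Eventually.of_forall hN) (hJ.const_mul _)
      (Eventually.of_forall fun u => ?_)
    obtain ⟨h1, h2⟩ := tendsto_floor_scale u
    have h3 : ∀ᶠ N : ℕ in atTop, (N : ℝ) + √(N : ℝ) * u ∈ Ici (w1 N : ℝ) := by
      filter_upwards [h2] with N hN
      have : (2 : ℝ) * w1 N ≤ N := by exact_mod_cast hw1 N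
      exact le_trans (by linarith) hN
    have h4 : Tendsto (fun N : ℕ => ∫ η, h N ⌊(N : ℝ) + √(N : ℝ) * u⌋₊ η) atTop
        (𝓝 (∫ η, p u * r η)) := by
      refine tendsto_integral_filter_of_dominated_convergence
        (fun η => |C| * (1 + |η|) ^ (-γ)) ?_ ?_ (hJ.const_mul _)
        (Eventually.of_forall fun η => hl u η _ h1)
      · filter_upwards [hm, h3] with N hN hN3 using hN _ (Nat.le_floor (mem_Ici.1 hN3))
      · filter_upwards [hb, h3] with N hN hN3
        refine Eventually.of_forall fun η => (hN _ (Nat.le_floor (mem_Ici.1 hN3)) η).trans ?_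
        gcongr
        calc _ ≤ |C| * 1 := by
              gcongr
              · exact le_abs_self C
              · exact Real.rpow_le_one_of_one_le_of_nonpos (by simp) (by linarith)
          _ = _ := mul_one _
    rw [integral_const_mul] at h4
    refine h4.congr' ?_
    filter_upwards [h3] with N hN
    simp only [hF, indicator_of_mem hN]
  rw [integral_mul_const] at hlim
  refine hlim.congr' ?_
  filter_upwards [hsum] with N hN
  rw [hN.tsum_eq, Measure.integral_comp_mul_left (fun y => F N (N + y)),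
    integral_add_left_eq_self, abs_of_nonneg (by positivity), Complex.real_smul,
    Complex.ofReal_inv]

end Vale.Agent.P218SQ
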