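import Vale.Agent.P218SQ.Defs

/-! Weaker hypotheses for the obstruction theorem: no mixed differences. -/

open Set Filter Topology Function

namespace Vale.Agent.P218SQ

/-- all hypotheses of the obstruction theorem (common contour version) -/
structure TipData {ι κ : Type*} [Fintype ι] [Fintype κ] [DecidableEq ι]
    (f : (ι → ℝ) → Pt ι κ → ℂ) (β K r w0 C : ℝ) (B : ℕ) (b γ K1 : ℝ) (S : ℂ) : Prop
    extends SeqData f β K r w0 C B where
  one_lt : 1 < γ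
  S_ne : S ≠ 0
  near : ∀ W j, Adm w0 W → Adm w0 (update W j (W j + 1)) →
    ∀ z ∈ dom β K r (update W j (W j + 1)),
      ‖inc f j W z‖ ≤ C * Real.exp (-W j) * W j ^ (-b) *
        ((1 + ‖sig β (W j) (z.1 j)‖) ^ (-γ) + W j ^ (-γ / 2))
  inner : ∀ (j : ι) (μ : ι → ℝ) (K' : ℝ), (∀ i, |μ i| ≤ 1) → μ j = 1 → K1 ≤ K' →
    ∃ (R : ℝ → ℂ) (ρ : ℝ), 0 < ρ ∧
      ∫ η : ℝ, R η * Complex.exp (-(η * Complex.I)) = ρ * S ∧
      ∀ (W : ℕ → ι → ℝ) (z : ℕ → Pt ι κ) (η : ℝ),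
        (∀ n, Adm w0 (W n) ∧ Adm w0 (update (W n) j (W n j + 1)) ∧
          z n ∈ dom β K r (update (W n) j (W n j + 1)) ∧ (z n).1 j ≠ 0 ∧
          ∀ i, |W n i - W n j| ≤ 1) →
        Tendsto (fun n => W n j) atTop atTop → Tendsto z atTop (𝓝 0) →
        (∀ i, Tendsto (fun n => (z n).1 i / (z n).1 j) atTop (𝓝 (μ i : ℂ))) →
        Tendsto (fun n => sig β (W n j) ((z n).1 j)) atTop (𝓝 (-K' + η * Complex.I)) →
        Tendsto (fun n => ((Real.exp (W n j) * W n j ^ b : ℝ) : ℂ) * inc f j (W n) (z n))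
          atTop (𝓝 (R η))

end Vale.Agent.P218SQ
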