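import Vale.Agent.P218SQ.Geo
import Vale.Agent.P218SQ.Unif
import Mathlib.Analysis.SpecialFunctions.PolynomialExp
import Mathlib.Analysis.Polynomial.Basic

/-! Estimates for the polar parts. -/

open Set Filter Topology

namespace Vale.Agent.P218SQ

/-- degree at most `q / 2` -/
def Half (d : ℕ → ℝ) (q : ℕ) : Prop := ∀ r, q < 2 * r → r < q → d r = 0

/-- coefficient of `√N` -/
noncomputable def mu (d : ℕ → ℝ) (q : ℕ) (υ : ℂ) : ℂ :=
  ∑ r ∈ Finset.range q, if 2 * r = q then (d r : ℂ) * υ ^ r else 0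

theorem pow_le_sqrt {y : ℝ} (hy : 1 ≤ y) {r q : ℕ} (h : 2 * r ≤ q) : y ^ r ≤ √(y ^ q) := by
  refine Real.le_sqrt_of_sq_le ?_
  rw [← pow_mul, mul_comm]
  exact pow_le_pow_right₀ hy h

theorem Half.sum_le {d : ℕ → ℝ} {q : ℕ} (h : Half d q) {F : ℕ → ℂ} {c : ℕ → ℝ} {X : ℝ}
    (hF : ∀ r, 2 * r ≤ q → ‖F r‖ ≤ c r * X) :
    ‖∑ r ∈ Finset.range q, (d r : ℂ) * F r‖ ≤ (∑ r ∈ Finset.range q, |d r| * c r) * X := by
  rw [Finset.sum_mul]
  refine norm_sum_le_of_le _ fun r hr => ?_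
  by_cases h1 : 2 * r ≤ q
  · rw [norm_mul, Complex.norm_real, Real.norm_eq_abs, mul_assoc]
    gcongr
    exact hF r h1
  · simp [h r (by omega) (Finset.mem_range.1 hr)]

theorem Half.bound {d : ℕ → ℝ} {q : ℕ} (h : Half d q) : ∃ C : ℝ, 0 ≤ C ∧ ∀ y : ℝ, 1 ≤ y →
    (∀ a b : ℂ, ‖a‖ ≤ 4 → ‖b‖ ≤ 4 → ‖Dp d q (y * a) - Dp d q (y * b)‖ ≤ C * √(y ^ q) * ‖a - b‖) ∧
    (∀ a : ℂ, ‖a‖ ≤ 4 → ‖Dp d q (y * a)‖ ≤ C * √(y ^ q)) ∧
    ∀ (y' : ℝ) (a : ℂ), 1 ≤ y' → ‖a‖ = 1 →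
      ‖Dp d q (y * a) - Dp d q (y' * a)‖ ≤ C * |√(y ^ q) - √(y' ^ q)| := by
  refine ⟨∑ r ∈ Finset.range q, |d r| * ((r + 1) * 4 ^ r), by positivity, fun y hy =>
    ⟨fun a b ha hb => ?_, fun a ha => ?_, fun y' a hy' ha => ?_⟩⟩
  · simp only [Dp, ← Finset.sum_sub_distrib, ← mul_sub]
    rw [mul_assoc]
    refine h.sum_le fun r hr => ?_
    rw [mul_pow, mul_pow, ← mul_sub, norm_mul, norm_pow, Complex.norm_real,
      Real.norm_of_nonneg (by linarith)]
    calc _ ≤ √(y ^ q) * ((r + 1) * 4 ^ r * ‖a - b‖) := by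
          gcongr
          · exact pow_le_sqrt hy hr
          · refine (pow_sub_pow_bound (by norm_num) ha hb r).trans ?_
            gcongr; linarith
      _ = _ := by ring
  · refine h.sum_le fun r hr => ?_
    rw [mul_pow, norm_mul, norm_pow, norm_pow, Complex.norm_real,
      Real.norm_of_nonneg (by linarith), mul_comm]
    gcongr
    · calc ‖a‖ ^ r ≤ 1 * 4 ^ r := by rw [one_mul]; gcongr
        _ ≤ _ := by gcongr; linarith [Nat.cast_nonneg (α := ℝ) r]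
    · exact pow_le_sqrt hy hr
  · simp only [Dp, ← Finset.sum_sub_distrib, ← mul_sub]
    refine h.sum_le fun r hr => ?_
    have key : ∀ s t : ℝ, 1 ≤ s → s ≤ t → t ^ r - s ^ r ≤ √(t ^ q) - √(s ^ q) := by
      intro s t hs hst
      have h1 : 1 ≤ t / s := (one_le_div (by linarith)).2 hst
      have h2 := pow_le_sqrt h1 hr
      have h3 := pow_le_sqrt hs hr
      have h4 : √(t ^ q) = √(s ^ q) * √((t / s) ^ q) := by
        rw [← Real.sqrt_mul (by positivity), ← mul_pow, mul_div_cancel₀ _ (by linarith)]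
      have h5 : t ^ r = s ^ r * (t / s) ^ r := by
        rw [← mul_pow, mul_div_cancel₀ _ (by linarith)]
      have h6 := one_le_pow₀ h1 (n := r)
      have h7 : 0 ≤ s ^ r := by positivity
      rw [h4, h5]
      nlinarith
    have h8 : |y ^ r - y' ^ r| ≤ |√(y ^ q) - √(y' ^ q)| := by
      rcases le_total y y' with h1 | h1
      · rw [abs_sub_comm, abs_sub_comm (√_),
          abs_of_nonneg (sub_nonneg.2 (pow_le_pow_left₀ (by linarith) h1 r))]
        exact (key y y' hy h1).trans (le_abs_self _)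
      · rw [abs_of_nonneg (sub_nonneg.2 (pow_le_pow_left₀ (by linarith) h1 r))]
        exact (key y' y hy' h1).trans (le_abs_self _)
    rw [mul_pow, mul_pow, ← sub_mul, norm_mul, norm_pow, ha, one_pow, mul_one,
      ← Complex.ofReal_pow, ← Complex.ofReal_pow, ← Complex.ofReal_sub, Complex.norm_real]
    refine h8.trans (le_mul_of_one_le_left (abs_nonneg _) ?_)
    exact one_le_mul_of_one_le_of_one_le (by linarith [Nat.cast_nonneg (α := ℝ) r])
      (one_le_pow₀ (by norm_num))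

theorem tendsto_sqrt_pow {a : ℕ → ℂ} {l : ℂ}
    (h : Tendsto (fun N : ℕ => ((√(N : ℝ) : ℝ) : ℂ) * (a N - 1)) atTop (𝓝 l)) (r : ℕ) :
    Tendsto (fun N : ℕ => ((√(N : ℝ) : ℝ) : ℂ) * (a N ^ r - 1)) atTop (𝓝 (r * l)) := by
  obtain ⟨Q, hQ, -, hQe⟩ := exists_binom r
  have h0 := tendsto_zero_of_sqrt h
  have h1 := (h.const_mul (r : ℂ)).add (h.mul (h0.mul ((hQ.tendsto 0).comp h0)))
  rw [zero_mul, mul_zero, add_zero] at h1
  refine h1.congr fun N => ?_
  have h7 := hQe (a N - 1)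
  rw [add_sub_cancel] at h7
  rw [h7, Function.comp_apply]
  ring

theorem tendsto_sqrt_root {a : ℕ → ℂ} {l : ℂ} {q : ℕ} (hq : 1 ≤ q)
    (h0 : Tendsto a atTop (𝓝 1))
    (h : Tendsto (fun N : ℕ => ((√(N : ℝ) : ℝ) : ℂ) * (a N ^ q - 1)) atTop (𝓝 l)) :
    Tendsto (fun N : ℕ => ((√(N : ℝ) : ℝ) : ℂ) * (a N - 1)) atTop (𝓝 (l / q)) := by
  have hq0 : (q : ℂ) ≠ 0 := by exact_mod_cast (by omega : q ≠ 0)
  have h1 : Tendsto (fun N => ∑ i ∈ Finset.range q, a N ^ i) atTop (𝓝 (q : ℂ)) := by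
    simpa using tendsto_finsetSum (Finset.range q) fun i _ => h0.pow i
  refine (h.div h1 hq0).congr' ?_
  filter_upwards [h1.eventually_ne hq0] with N hN
  rw [Pi.div_apply, div_eq_iff hN, mul_assoc, mul_geom_sum]

theorem tendsto_pow_div_sqrt {x : ℕ → ℝ} {q r : ℕ} (hx : ∀ N, 0 ≤ x N ∧ x N ^ q = N)
    (hr : 2 * r ≤ q) : Tendsto (fun N : ℕ => (x N : ℂ) ^ r / ((√(N : ℝ) : ℝ) : ℂ)) atTop
      (𝓝 (if 2 * r = q then 1 else 0)) := by
  split_ifs with h
  · refine tendsto_const_nhds.congr' ?_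
    filter_upwards [eventually_gt_atTop 0] with N hN
    have h1 : √(N : ℝ) = x N ^ r := by
      rw [← (hx N).2, ← h, mul_comm, pow_mul, Real.sqrt_sq (pow_nonneg (hx N).1 r)]
    have : ((√(N : ℝ) : ℝ) : ℂ) ≠ 0 := by
      exact_mod_cast (Real.sqrt_pos.2 (by exact_mod_cast hN)).ne'
    rw [eq_div_iff this, h1]; simp
  · have h1 : Tendsto x atTop atTop := tendsto_atTop.2 fun R =>
      (ev_large (q := q) one_pos R).mono fun N hN => (hN _ (hx N).1 (by simp [(hx N).2])).le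
    have h2 := tendsto_inv_atTop_zero.comp (Real.tendsto_sqrt_atTop.comp h1)
    refine squeeze_zero_norm' ?_ h2
    filter_upwards [h1.eventually (eventually_ge_atTop 1)] with N hN
    have h3 : √(x N) * x N ^ r ≤ √(N : ℝ) := by
      refine Real.le_sqrt_of_sq_le ?_
      rw [mul_pow, Real.sq_sqrt (hx N).1, ← pow_mul, ← pow_succ', ← (hx N).2]
      exact pow_le_pow_right₀ hN (by omega)
    have h4 : 0 < √(x N) := Real.sqrt_pos.2 (by linarith)
    have h5 : 0 < x N ^ r := by positivity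
    rw [norm_div, norm_pow, Complex.norm_real, Complex.norm_real, Real.norm_of_nonneg (hx N).1,
      Real.norm_of_nonneg (Real.sqrt_nonneg _), Function.comp_apply, Function.comp_apply,
      div_le_iff₀ (by nlinarith), ← div_eq_inv_mul, le_div_iff₀' h4]
    exact h3

theorem Half.tendsto {d : ℕ → ℝ} {q : ℕ} (h : Half d q) (υ : ℂ) {x : ℕ → ℝ}
    (hx : ∀ N, 0 ≤ x N ∧ x N ^ q = N) {a : ℕ → ℂ} {l : ℂ}
    (ha : Tendsto (fun N : ℕ => ((√(N : ℝ) : ℝ) : ℂ) * (a N - 1)) atTop (𝓝 l)) :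
    Tendsto (fun N => Dp d q (υ * x N * a N) - Dp d q (υ * x N)) atTop
      (𝓝 (mu d q υ * (q / 2 * l))) ∧
    Tendsto (fun N : ℕ => Dp d q (υ * x N * a N) / ((√(N : ℝ) : ℝ) : ℂ)) atTop (𝓝 (mu d q υ)) := by
  have h0 : Tendsto a atTop (𝓝 1) := by simpa using (tendsto_zero_of_sqrt ha).add_const 1
  constructor
  · simp only [Dp, mu, ← Finset.sum_sub_distrib, Finset.sum_mul]
    refine tendsto_finsetSum _ fun r hr => ?_
    by_cases h1 : 2 * r ≤ q
    · have h2 := ((tendsto_pow_div_sqrt hx h1).mul (tendsto_sqrt_pow ha r)).const_mul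
        ((d r : ℂ) * υ ^ r)
      convert h2.congr' (f₂ := fun N => d r * (υ * x N * a N) ^ r - d r * (υ * x N) ^ r) ?_
        using 2
      · split_ifs with h3
        · rw [← h3]; push_cast; ring
        · simp
      · filter_upwards [eventually_gt_atTop 0] with N hN
        have : ((√(N : ℝ) : ℝ) : ℂ) ≠ 0 := by
          exact_mod_cast (Real.sqrt_pos.2 (by exact_mod_cast hN)).ne'
        field_simp
        ring
    · simp [h r (by omega) (Finset.mem_range.1 hr)]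
  · simp only [Dp, mu, Finset.sum_div]
    refine tendsto_finsetSum _ fun r hr => ?_
    by_cases h1 : 2 * r ≤ q
    · have h2 := ((tendsto_pow_div_sqrt hx h1).mul (h0.pow r)).const_mul ((d r : ℂ) * υ ^ r)
      convert h2 using 2
      · ring
      · split_ifs <;> simp
    · simp [h r (by omega) (Finset.mem_range.1 hr)]

theorem mu_re_im (d : ℕ → ℝ) {q : ℕ} {υ : ℂ} {e : ℝ} (h : υ ^ q = e) :
    (mu d q υ).re * (mu d q υ).im = 0 := by
  by_cases h1 : ∃ r ∈ Finset.range q, 2 * r = q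
  · obtain ⟨r, hr, h2⟩ := h1
    rw [mu, Finset.sum_eq_single_of_mem r hr fun s _ hs => if_neg (by omega), if_pos h2]
    have h3 := congrArg Complex.im h
    rw [← h2, mul_comm, pow_mul, sq, Complex.mul_im, Complex.ofReal_im] at h3
    rw [Complex.re_ofReal_mul, Complex.im_ofReal_mul]
    linear_combination d r ^ 2 / 2 * h3
  · push Not at h1
    rw [mu, Finset.sum_eq_zero fun r hr => if_neg (h1 r hr)]; simp

theorem nontop_bound {d : ℕ → ℝ} {q r0 : ℕ} (h0 : r0 < q) (h1 : ∀ r, r0 < r → r < q → d r = 0)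
    {υ : ℂ} (h2 : 0 < (d r0 * υ ^ r0).re) : ∃ c κ R : ℝ, 0 < c ∧ 0 < κ ∧ ∀ (y : ℝ) (u m : ℂ),
      R ≤ y → ‖u - 1‖ ≤ κ → ‖m - 1‖ ≤ κ → c * y ^ r0 ≤ (Dp d q (υ * y * u) * m).re := by
  set F : ℝ × ℂ × ℂ → ℝ := fun z => ((∑ r ∈ Finset.range (r0 + 1),
    (d r : ℂ) * (υ * z.2.1) ^ r * (z.1 : ℂ) ^ (r0 - r)) * z.2.2).re with hF
  have hc : Continuous F := by fun_prop
  have hF0 : F (0, 1, 1) = (d r0 * υ ^ r0).re := by
    simp only [hF]
    rw [Finset.sum_range_succ, Finset.sum_eq_zero fun r hr => ?_]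
    · simp
    · simp [Nat.sub_ne_zero_of_lt (Finset.mem_range.1 hr)]
  obtain ⟨η, hη, h3⟩ := Metric.eventually_nhds_iff.1
    ((hc.tendsto (0, 1, 1)).eventually (lt_mem_nhds (hF0 ▸ half_lt_self h2)))
  refine ⟨(d r0 * υ ^ r0).re / 2, η / 2, 2 / η, by positivity, by positivity,
    fun y u m hy hu hm => ?_⟩
  have hy0 : 0 < y := lt_of_lt_of_le (by positivity) hy
  have h4 := h3 (y := (y⁻¹, u, m)) (by
    rw [Prod.dist_eq, Prod.dist_eq]
    simp only [dist_eq_norm, sub_zero, max_lt_iff, Real.norm_eq_abs]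
    refine ⟨?_, by linarith, by linarith⟩
    rw [abs_of_pos (by positivity), inv_lt_comm₀ hy0 hη]
    refine lt_of_lt_of_le ?_ hy
    rw [inv_eq_one_div]; gcongr; norm_num)
  have e : Dp d q (υ * y * u) * m = ((y ^ r0 : ℝ) : ℂ) * ((∑ r ∈ Finset.range (r0 + 1),
      (d r : ℂ) * (υ * u) ^ r * ((y⁻¹ : ℝ) : ℂ) ^ (r0 - r)) * m) := by
    rw [← mul_assoc, Dp, ← Finset.sum_subset (Finset.range_subset_range.2 h0) fun r hr hr' => by
      simp [h1 r (by simpa [Nat.lt_succ_iff] using hr') (Finset.mem_range.1 hr)], Finset.mul_sum]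
    congr 1
    refine Finset.sum_congr rfl fun r hr => ?_
    obtain ⟨k, rfl⟩ := Nat.exists_eq_add_of_le (Nat.lt_succ_iff.1 (Finset.mem_range.1 hr))
    have : (y : ℂ) ≠ 0 := by exact_mod_cast hy0.ne'
    rw [Nat.add_sub_cancel_left]
    push_cast
    rw [inv_pow]
    field_simp
    ring
  rw [e, Complex.re_ofReal_mul (y ^ r0), mul_comm _ (y ^ r0)]
  rw [hF0] at h4
  exact mul_le_mul_of_nonneg_left h4.le (by positivity)

theorem poly_dichotomy {c : ℕ → ℝ} {q : ℕ}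
    (h : ∃ᶠ y : ℝ in atTop, 0 ≤ ∑ r ∈ Finset.range q, c r * y ^ r) :
    (∀ r, 1 ≤ r → r < q → c r = 0) ∨
      Tendsto (fun y : ℝ => ∑ r ∈ Finset.range q, c r * y ^ r) atTop atTop := by
  set p : Polynomial ℝ := ∑ r ∈ Finset.range q, Polynomial.monomial r (c r) with hp
  have he : ∀ y, p.eval y = ∑ r ∈ Finset.range q, c r * y ^ r := fun y => by
    simp [hp, Polynomial.eval_finsetSum]
  simp only [← he] at h ⊢
  by_cases hd : 0 < p.degree
  · rcases le_total 0 p.leadingCoeff with h1 | h1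
    · exact Or.inr (p.tendsto_atTop_of_leadingCoeff_nonneg hd h1)
    · obtain ⟨y, h2, h3⟩ := (h.and_eventually ((p.tendsto_atBot_of_leadingCoeff_nonpos hd
        h1).eventually (eventually_lt_atBot 0))).exists
      linarith
  · refine Or.inl fun r h1 h2 => ?_
    have h3 : p.coeff r = 0 := Polynomial.coeff_eq_zero_of_degree_lt
      ((not_lt.1 hd).trans_lt (by exact_mod_cast h1))
    simpa [hp, Polynomial.coeff_monomial, h2] using h3

theorem exists_freq_min {α : Type*} (T : Finset α) (hT : T.Nonempty) (P : α → ℝ → ℝ) :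
    ∃ j1 ∈ T, ∃ᶠ y : ℝ in atTop, ∀ j ∈ T, P j1 y ≤ P j y := by
  by_contra hh
  push Not at hh
  obtain ⟨y, hy⟩ := ((Finset.eventually_all T).2 hh).exists
  obtain ⟨j, hj, h1⟩ := Finset.exists_min_image T (fun j => P j y) hT
  obtain ⟨k, hk, h2⟩ := hy j hj
  exact absurd (h1 k hk) (not_le.2 h2)

end Vale.Agent.P218SQ
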