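import Vale.Agent.P218SQ.Arc
import Vale.Agent.P218SQ.Dct

/-! Domination and pointwise limits of the contribution of one end. -/

open Set Filter Topology Function MeasureTheory

namespace Vale.Agent.P218SQ

variable {q : ℕ} {υ : ℂ} {e : ℝ}

/-- angle on the contour -/
noncomputable def an (q : ℕ) (υ : ℂ) (β K2 : ℝ) (d1 dz : ℕ → ℝ) (w η : ℝ) : ℝ :=
  ang q (Lw β K2 d1 q υ w) (Dp dz q (υ * rt q (Lw β K2 d1 q υ w))).im η

/-- point of the contour -/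
noncomputable def om (q : ℕ) (υ : ℂ) (β K2 : ℝ) (d1 dz : ℕ → ℝ) (w η : ℝ) : ℂ :=
  pt q υ (Lw β K2 d1 q υ w) (an q υ β K2 d1 dz w η)

/-- normalised integrand of one end -/
noncomputable def HH (q : ℕ) (υ : ℂ) (β b K2 : ℝ) (d1 dz dn : ℕ → ℝ) (Δ : ℕ → ℕ → ℂ → ℂ)
    (N w : ℕ) (η : ℝ) : ℂ :=
  hh q υ (b - β) N (Complex.exp (Dp dn q (υ * rt q N))) (Δ N w) (Lw β K2 d1 q υ w)
    (Dp dz q (υ * rt q (Lw β K2 d1 q υ w))).im η

/-- the bound for the increments on the contour -/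
def Near (q : ℕ) (υ : ℂ) (β b γ K2 C0 : ℝ) (d1 : ℕ → ℝ) (Δ : ℕ → ℕ → ℂ → ℂ) (a : ℕ → ℂ → ℂ) :
    Prop :=
  ∀ᶠ N : ℕ in atTop, ∀ w : ℕ, 8 * (N : ℝ) ≤ 25 * w → ∀ θ : ℝ,
    ‖Δ N w (pt q υ (Lw β K2 d1 q υ w) θ)‖ ≤ C0 * Real.exp (-w) * (w : ℝ) ^ (-b) *
      ((1 + ‖sig β w (a N (pt q υ (Lw β K2 d1 q υ w) θ))‖) ^ (-γ) + (w : ℝ) ^ (-γ / 2))

variable {β b γ K K2 A C0 c : ℝ} {d d1 dz dn : ℕ → ℝ} {Δ : ℕ → ℕ → ℂ → ℂ} {a : ℕ → ℂ → ℂ}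

theorem HH_le (hq : 1 ≤ q) (hυ : ‖υ‖ = 1) (hd1 : Half d1 q) (hR : Rad q υ β A d1)
    (hn : ∀ y : ℝ, 0 ≤ y → (Dp dn q (υ * y)).re - (Dp d1 q (υ * y)).re = c)
    (h : Near q υ β b γ K2 C0 d1 Δ a) : ∃ C : ℝ, 0 ≤ C ∧ ∀ᶠ N : ℕ in atTop, ∀ w : ℕ,
      8 * (N : ℝ) ≤ 25 * w → ∀ η, ‖HH q υ β b K2 d1 dz dn Δ N w η‖ ≤
        C * (1 + |((w : ℝ) - N) / √(N : ℝ)|) ^ (-γ) *
        (((1 + ‖sig β w (a N (om q υ β K2 d1 dz w η))‖) ^ (-γ) + (w : ℝ) ^ (-γ / 2)) *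
          Real.exp (-(1 / 18000 * (w * an q υ β K2 d1 dz w η ^ 2)))) := by
  obtain ⟨D, -, hD⟩ := hd1.bound
  obtain ⟨C, hC, h1⟩ := hh_le hq hυ β b γ K2 A D C0 (Real.exp c)
  refine ⟨C, hC, ?_⟩
  filter_upwards [h, ev_Nw (hR K2), eventually_ge_atTop 40] with N a1 a2 a3 w hw η
  obtain ⟨b1, b2, b3, b4⟩ := a2 w hw
  have hN : (40 : ℝ) ≤ N := by exact_mod_cast a3
  by_cases h2 : an q υ β K2 d1 dz w η ∈ Ioc (-Real.pi) Real.pi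
  · refine h1 N w _ _ η (Dp d1 q (υ * rt q N)).re _ _ _ _ a3 (by linarith) hw rfl b2 b3 b4 ?_ ?_
      (by positivity) h2 (a1 w hw _)
    · have := (hD (rt q w) (one_le_rt q (by linarith))).2.2 (rt q N) υ (one_le_rt q (by linarith))
        hυ
      rw [rt_pow hq (by linarith), rt_pow hq (by linarith), norm_sub_rev, mul_comm _ υ,
        mul_comm _ υ] at this
      exact (Complex.sub_re _ _).symm.trans_le ((Complex.re_le_norm _).trans this)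
    · rw [Complex.norm_exp, ← Real.exp_add, ← hn _ (rt_pos q (by linarith : (0 : ℝ) < N)).le]
      simp
  · rw [an] at h2
    rw [HH, hh, kk, indicator_of_notMem h2, mul_zero, norm_zero]; positivity

/-- the inner variable controls the contour parameter -/
def Cen (q : ℕ) (υ : ℂ) (β K2 : ℝ) (d1 dz : ℕ → ℝ) (a : ℕ → ℂ → ℂ) : Prop :=
  ∃ C : ℝ, ∀ᶠ N : ℕ in atTop, ∀ w : ℝ, 8 * (N : ℝ) ≤ 25 * w → ∀ η, 1 + |η| ≤
    C * (1 + ‖sig β w (a N (om q υ β K2 d1 dz w η))‖) * (1 + w * an q υ β K2 d1 dz w η ^ 2) ^ 2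

theorem an_sqrt (hq : 1 ≤ q) (hυ : ‖υ‖ = 1) (hυq : υ ^ q = e) (he : e = 1 ∨ e = -1)
    (hz : Half dz q) (hR : Rad q υ β A d1) (K2 : ℝ) : ∃ C : ℝ, 0 ≤ C ∧ ∀ᶠ w : ℝ in atTop, 1 ≤ w ∧
      ∀ η, 1 + |η| ≤ C * √w * (1 + w * an q υ β K2 d1 dz w η ^ 2) := by
  obtain ⟨C, hC, h⟩ := cen_top hq hυ hυq he β hz
  refine ⟨1 + C + 4 * q, by positivity, (hR K2).mono fun w ⟨b1, _, b3, b4⟩ =>
    ⟨by linarith, fun η => ?_⟩⟩
  exact cen_sqrt hq (by linarith) (by linarith) b4 (h w _ 0 0 b1 b3 b4).1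

theorem one_le_uu (hq : 1 ≤ q) (θ : ℝ) : 1 ≤ ‖uu (del q) θ‖ :=
  (ext_geo (del_pos hq).1 (del_pos hq).2 (uu_add _ _ (del_pos hq).1.le).ge).1

theorem Far.sqrt_le (hq : 1 ≤ q) (hR : Rad q υ β A d1) (h : Far q υ β K A a) (K2 : ℝ) :
    ∃ κ : ℝ, 0 < κ ∧ ∀ᶠ N : ℕ in atTop, ∀ w : ℝ, 8 * (N : ℝ) ≤ 25 * w → ∀ θ, |θ| ≤ κ →
      √w ≤ ‖sig β w (a N (pt q υ (Lw β K2 d1 q υ w) θ))‖ := by
  obtain ⟨κ, hκ, h⟩ := h
  refine ⟨κ / 2, by positivity, ?_⟩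
  filter_upwards [h, hR.rt hq K2] with N a1 a2 w hw θ hθ
  exact (a1 w hw _ _ (a2 w hw).1 (a2 w hw).2 (one_le_uu hq θ)
    (by linarith [(norm_uu_sub (del_pos hq).1.le (del_pos hq).2 θ).1])).2

theorem Far.cen (hq : 1 ≤ q) (hυ : ‖υ‖ = 1) (hυq : υ ^ q = e) (he : e = 1 ∨ e = -1)
    (hz : Half dz q) (hR : Rad q υ β A d1) (h : Far q υ β K A a) (K2 : ℝ) :
    Cen q υ β K2 d1 dz a := by
  obtain ⟨κ, hκ, h⟩ := h.sqrt_le hq hR K2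
  obtain ⟨C, hC, h1⟩ := an_sqrt hq hυ hυq he hz hR K2
  refine ⟨C * (1 + 1 / κ ^ 2), ?_⟩
  filter_upwards [h, ev_Nw h1] with N a1 a2 w hw η
  exact cen_far (a2 w hw).1 hκ (norm_nonneg _) hC (a1 w hw _) ((a2 w hw).2 η)

theorem Rad.two (hR : Rad q υ β A d1) (hq : 1 ≤ q) (hυ : ‖υ‖ = 1) (K2 : ℝ) :
    ∀ᶠ N : ℕ in atTop, ∀ w : ℝ, 8 * (N : ℝ) ≤ 25 * w → ∀ θ,
      2 * N ≤ 7 * ‖pt q υ (Lw β K2 d1 q υ w) θ‖ ^ q := by
  filter_upwards [ev_two hυ q A, hR.rt hq K2] with N a1 a2 w hw θ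
  exact a1 w hw _ _ (a2 w hw).1 (a2 w hw).2 (one_le_uu hq θ)

theorem Tip.cen (hq : 1 ≤ q) (hυ : ‖υ‖ = 1) (hυq : υ ^ q = e) (he : e = 1 ∨ e = -1)
    (hd : Half d q) (hR : Rad q υ β A d1) (h : Tip q e a d) (K2 : ℝ) : Cen q υ β K2 d1 d a := by
  obtain ⟨C', -, h⟩ := h
  obtain ⟨C, -, h1⟩ := cen_top hq hυ hυq he β hd
  refine ⟨C, ?_⟩
  filter_upwards [h, hR.two hq hυ K2, ev_Nw (hR K2), ev_large (q := q) (c := 2 / 7) (by norm_num) C']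
    with N a1 a2 a3 a4 w hw η
  obtain ⟨b1, -, b3, b4⟩ := a3 w hw
  have b5 := a2 w hw (an q υ β K2 d1 d w η)
  refine (h1 w _ η _ b1 b3 b4).2 ((a1 _ b5).2.trans ?_)
  exact div_le_one_of_le₀ (a4 _ (norm_nonneg _) (by linarith)).le (norm_nonneg _)

theorem HH_dom (hq : 1 ≤ q) (hυ : ‖υ‖ = 1) (hυq : υ ^ q = e) (he : e = 1 ∨ e = -1) (hγ : 0 ≤ γ)
    (hd1 : Half d1 q) (hz : Half dz q) (hR : Rad q υ β A d1)
    (hn : ∀ y : ℝ, 0 ≤ y → (Dp dn q (υ * y)).re - (Dp d1 q (υ * y)).re = c)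
    (h : Near q υ β b γ K2 C0 d1 Δ a) (hc : Cen q υ β K2 d1 dz a) :
    ∃ C : ℝ, ∀ᶠ N : ℕ in atTop, ∀ w : ℕ, 8 * (N : ℝ) ≤ 25 * w → ∀ η,
      ‖HH q υ β b K2 d1 dz dn Δ N w η‖ ≤
        C * (1 + |((w : ℝ) - N) / √(N : ℝ)|) ^ (-γ) * (1 + |η|) ^ (-γ) := by
  obtain ⟨C1, hC1, h1⟩ := HH_le (dz := dz) hq hυ hd1 hR hn h
  obtain ⟨C2, h2⟩ := hc
  obtain ⟨C3, hC3, h3⟩ := an_sqrt hq hυ hυq he hz hR K2
  obtain ⟨C4, -, h4⟩ := bracket_le hγ (max C2 C3)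
  refine ⟨C1 * C4, ?_⟩
  filter_upwards [h1, h2, ev_Nw h3] with N a1 a2 a3 w hw η
  have hτ : 0 ≤ w * an q υ β K2 d1 dz w η ^ 2 := by positivity
  have b1 := h4 w _ _ η (a3 w hw).1 (norm_nonneg _) hτ
    ((a2 w hw η).trans (by gcongr; exact le_max_left _ _))
    (((a3 w hw).2 η).trans (by gcongr; exacts [le_max_right _ _, by nlinarith]))
  refine (a1 w hw η).trans ((mul_le_mul_of_nonneg_left b1 (by positivity)).trans_eq (by ring))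

theorem ev_w {w : ℕ → ℝ} {u : ℝ} (hw : Tendsto (fun N : ℕ => (w N - N) / √(N : ℝ)) atTop (𝓝 u)) :
    ∀ᶠ N : ℕ in atTop, 8 * (N : ℝ) ≤ 25 * w N := by
  filter_upwards [(ratio_one hw).1.eventually (eventually_ge_nhds (show (8 / 25 : ℝ) < 1 by
    norm_num)), eventually_gt_atTop 0] with N h h0
  rw [le_div_iff₀ (by exact_mod_cast h0)] at h
  linarith

theorem HH_zero (hq : 1 ≤ q) (hυ : ‖υ‖ = 1) (hγ : 0 < γ) (hd1 : Half d1 q) (hR : Rad q υ β A d1)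
    (hn : ∀ y : ℝ, 0 ≤ y → (Dp dn q (υ * y)).re - (Dp d1 q (υ * y)).re = c)
    (h : Near q υ β b γ K2 C0 d1 Δ a) {u η : ℝ} {w : ℕ → ℕ}
    (hw : Tendsto (fun N : ℕ => ((w N : ℝ) - N) / √(N : ℝ)) atTop (𝓝 u))
    (hs : Tendsto (fun N => ‖sig β (w N) (a N (om q υ β K2 d1 dz (w N) η))‖) atTop atTop) :
    Tendsto (fun N => HH q υ β b K2 d1 dz dn Δ N (w N) η) atTop (𝓝 0) := by
  obtain ⟨C1, hC1, h1⟩ := HH_le (dz := dz) hq hυ hd1 hR hn h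
  have h2 := (((tendsto_rpow_neg_atTop hγ).comp (tendsto_atTop_add_const_left _ 1 hs)).add
    ((tendsto_rpow_neg_atTop (half_pos hγ)).comp (ratio_one hw).2)).const_mul C1
  simp only [add_zero, mul_zero, ← neg_div] at h2
  refine squeeze_zero_norm' ?_ h2
  filter_upwards [h1, ev_w hw] with N a1 a2
  refine (a1 _ a2 η).trans ?_
  have b1 : (1 + |((w N : ℝ) - N) / √(N : ℝ)|) ^ (-γ) ≤ 1 :=
    Real.rpow_le_one_of_one_le_of_nonpos (by linarith [abs_nonneg (((w N : ℝ) - N) / √(N : ℝ))])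
      (by linarith)
  have b2 : Real.exp (-(1 / 18000 * (w N * an q υ β K2 d1 dz (w N) η ^ 2))) ≤ 1 :=
    Real.exp_le_one_iff.2 (neg_nonpos.2 (by positivity))
  exact mul_le_mul (mul_le_of_le_one_right hC1 b1) (mul_le_of_le_one_right (by positivity) b2)
    (by positivity) hC1

/-- the limits on the contour -/
def LG (q : ℕ) (υ : ℂ) (d d1 : ℕ → ℝ) (k : ℝ) : Prop :=
  ∀ (β K2 u η : ℝ) (w L z : ℕ → ℝ),
    Tendsto (fun N : ℕ => (w N - N) / √(N : ℝ)) atTop (𝓝 u) →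
    (∀ N, L N = Lw β K2 d1 q υ (w N)) → (∀ N, z N = (Dp d q (υ * rt q (L N))).im) →
    Tendsto (fun N => ang q (L N) (z N) η) atTop (𝓝 0) ∧
    Tendsto (fun N : ℕ => N / L N * (rt q (L N) / rt q N)) atTop (𝓝 1) ∧
    Tendsto (fun N : ℕ => ((√(N : ℝ) : ℝ) : ℂ) * ((rt q (L N) / rt q N : ℝ) *
      uu (del q) (ang q (L N) (z N) η) - 1)) atTop
      (𝓝 ((u - ((mu d1 q υ).re + (mu d q υ).im * Complex.I)) / q)) ∧
    Tendsto (fun N : ℕ => L N * uu (del q) (ang q (L N) (z N) η) ^ q +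
      Dp d q (pt q υ (L N) (ang q (L N) (z N) η)) - ((w N + β * Real.log (w N) : ℝ) : ℂ) -
      (((Dp d q (υ * rt q (L N))).re - (Dp d1 q (υ * rt q (L N))).re : ℝ) : ℂ)) atTop
      (𝓝 ((K2 + k : ℝ) + η * Complex.I))

theorem Far.sig_atTop {k u : ℝ} (hq : 1 ≤ q) (hR : Rad q υ β A d1) (h : Far q υ β K A a)
    (hk : LG q υ dz d1 k) (K2 η : ℝ) {w : ℕ → ℝ}
    (hw : Tendsto (fun N : ℕ => (w N - N) / √(N : ℝ)) atTop (𝓝 u)) :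
    Tendsto (fun N => ‖sig β (w N) (a N (om q υ β K2 d1 dz (w N) η))‖) atTop atTop := by
  obtain ⟨κ, hκ, h⟩ := h.sqrt_le hq hR K2
  have h1 := (hk β K2 u η w _ _ hw (fun _ => rfl) fun _ => rfl).1.abs
  rw [abs_zero] at h1
  refine tendsto_atTop_mono' _ ?_ (Real.tendsto_sqrt_atTop.comp (ratio_one hw).2)
  filter_upwards [h, ev_w hw, h1.eventually (eventually_le_nhds hκ)] with N a1 a2 a3
  exact a1 _ a2 _ a3

theorem Tip.sig_lim {k u : ℝ} (hq : 1 ≤ q) (hυ : ‖υ‖ = 1) (hυq : υ ^ q = e) (he : e = 1 ∨ e = -1)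
    (hR : Rad q υ β A d1) (h : Tip q e a d) (hk : LG q υ d d1 k) (K2 η : ℝ) {w : ℕ → ℝ}
    (hw : Tendsto (fun N : ℕ => (w N - N) / √(N : ℝ)) atTop (𝓝 u)) :
    Tendsto (fun N => sig β (w N) (a N (om q υ β K2 d1 d (w N) η)) +
      (((Dp d q (υ * rt q (Lw β K2 d1 q υ (w N)))).re -
        (Dp d1 q (υ * rt q (Lw β K2 d1 q υ (w N)))).re : ℝ) : ℂ)) atTop
      (𝓝 (-((K2 + k : ℝ) + η * Complex.I))) := by
  obtain ⟨C, -, h⟩ := h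
  have h1 := (hk β K2 u η w _ _ hw (fun _ => rfl) fun _ => rfl).2.2.2
  have h2 : ∀ᶠ N : ℕ in atTop, 2 * N ≤ 7 * ‖om q υ β K2 d1 d (w N) η‖ ^ q := by
    filter_upwards [hR.two hq hυ K2, ev_w hw] with N a1 a2 using a1 _ a2 _
  have h3 := squeeze_zero_norm' ((h.and h2).mono fun N hN => (hN.1 _ hN.2).2)
    (tendsto_const_nhds.div_atTop (tendsto_norm_of h2))
  have h4 := h1.neg.sub h3
  rw [sub_zero] at h4
  refine h4.congr' ?_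
  filter_upwards [ev_Nw (hR K2), ev_w hw] with N a1 a2
  obtain ⟨b1, -, b3, -⟩ := a1 _ a2
  simp only [om, an, sig, pt_pow hq hυq he (show 0 ≤ Lw β K2 d1 q υ (w N) by linarith)]
  ring

theorem Tip.sig_atTop {k u : ℝ} (hq : 1 ≤ q) (hυ : ‖υ‖ = 1) (hυq : υ ^ q = e)
    (he : e = 1 ∨ e = -1) (hR : Rad q υ β A d1) (h : Tip q e a d) (hk : LG q υ d d1 k)
    (hP : Tendsto (fun y : ℝ => (Dp d q (υ * y)).re - (Dp d1 q (υ * y)).re) atTop atTop)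
    (K2 η : ℝ) {w : ℕ → ℝ} (hw : Tendsto (fun N : ℕ => (w N - N) / √(N : ℝ)) atTop (𝓝 u)) :
    Tendsto (fun N => ‖sig β (w N) (a N (om q υ β K2 d1 d (w N) η))‖) atTop atTop := by
  have h1 := (Complex.continuous_re.tendsto _).comp (h.sig_lim hq hυ hυq he hR hk K2 η hw)
  have h2 : Tendsto (fun N => Lw β K2 d1 q υ (w N)) atTop atTop := by
    refine tendsto_atTop_mono' _ ?_ ((ratio_one hw).2.atTop_div_const two_pos)
    filter_upwards [ev_Nw (hR K2), ev_w hw] with N a1 a2 using (a1 _ a2).2.2.1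
  refine tendsto_atTop_mono (fun N => ?_) ((hP.comp ((tendsto_rt hq).comp h2)).atTop_add h1.neg)
  simp only [Function.comp_def, Complex.add_re, Complex.ofReal_re]
  linarith [Complex.abs_re_le_norm (sig β (w N) (a N (om q υ β K2 d1 d (w N) η))),
    neg_abs_le (sig β (w N) (a N (om q υ β K2 d1 d (w N) η))).re]

theorem HH_tied {k K' u η : ℝ} (hq : 1 ≤ q) (hυ : ‖υ‖ = 1) (hd : Half d q) (hR : Rad q υ β A d1)
    (ht : Tie d d1 q υ) (hk : LG q υ d d1 k) (hK : K' = K2 + k + (d 0 - d1 0)) {w : ℕ → ℕ}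
    (hw : Tendsto (fun N : ℕ => ((w N : ℝ) - N) / √(N : ℝ)) atTop (𝓝 u)) {R : ℂ}
    (h : Tendsto (fun N => ((Real.exp (w N) * (w N : ℝ) ^ b : ℝ) : ℂ) *
      Δ N (w N) (om q υ β K2 d1 d (w N) η)) atTop (𝓝 R)) :
    Tendsto (fun N => HH q υ β b K2 d1 d d Δ N (w N) η) atTop
      (𝓝 (gp q (mu d q υ) u * (R * Complex.exp (K' + η * Complex.I)))) := by
  obtain ⟨h1, h2, h3, h4⟩ := hk β K2 u η (fun N => w N) _ _ hw (fun _ => rfl) fun _ => rfl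
  rw [← ht.1, Complex.re_add_im] at h3
  have hx : ∀ N : ℕ, 0 ≤ rt q N ∧ rt q N ^ q = N := fun N =>
    ⟨Real.rpow_nonneg (Nat.cast_nonneg N) _, rt_pow hq (Nat.cast_nonneg N)⟩
  have h5 := (hd.tendsto υ hx h3).1
  have h6 := tendsto_psi q h3
  have h7 : Tendsto (fun N : ℕ => (((b - β) * Real.log (w N / N) : ℝ) : ℂ)) atTop (𝓝 0) := by
    simpa using (((ratio_one hw).1.log one_ne_zero).const_mul (b - β)).ofReal
  have h8 := ((h.mul h6).mul (h2.ofReal.mul (h1.ofReal.mul_const Complex.I).cexp)).mul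
    (((h4.add_const ((d 0 - d1 0 : ℝ) : ℂ)).sub h5).sub h7).cexp
  convert h8.congr' ?_ using 2
  · rw [gp, hK]
    simp only [sub_eq_add_neg, Complex.exp_add, add_zero, neg_zero, Complex.ofReal_add,
      Complex.ofReal_zero, Complex.ofReal_one, zero_mul, Complex.exp_zero]
    ring
  filter_upwards [ev_Nw (hR K2), ev_w hw, eventually_gt_atTop 0,
    h1.eventually (Ioc_mem_nhds (neg_lt_zero.2 Real.pi_pos) Real.pi_pos)] with N a1 a2 a3 a4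
  obtain ⟨b1, -, b3, -⟩ := a1 _ a2
  have hN : (0 : ℝ) < N := by exact_mod_cast a3
  have hw0 : (0 : ℝ) < w N := by linarith
  have hL : 0 < Lw β K2 d1 q υ (w N) := by linarith
  rw [HH, hh_eq hq hυ _ a3 _ _ hL a4, ht.re (rt_pos q hL).le, om, an]
  generalize ang q (Lw β K2 d1 q υ (w N)) _ η = θ
  generalize Lw β K2 d1 q υ (w N) = L at *
  have c1 : υ * rt q N * ((rt q L / rt q N : ℝ) * uu (del q) θ) = pt q υ L θ := by
    have : (rt q N : ℂ) ≠ 0 := by exact_mod_cast (rt_pos q hN).ne'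
    rw [pt]; push_cast; field_simp
  have c2 : (N : ℂ) * ((rt q L / rt q N : ℝ) * uu (del q) θ) ^ q = L * uu (del q) θ ^ q := by
    rw [mul_pow, ← Complex.ofReal_pow, div_pow, rt_pow hq hL.le, rt_pow hq hN.le, ← mul_assoc]
    congr 1
    have : (N : ℂ) ≠ 0 := by exact_mod_cast hN.ne'
    push_cast; field_simp
  have c3 : Complex.exp (Dp d q (υ * rt q N)) * (((N : ℝ) ^ (b - β) : ℝ) : ℂ) =
      ((Real.exp (w N) * (w N : ℝ) ^ b : ℝ) : ℂ) * Complex.exp (-(L * uu (del q) θ ^ q)) *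
      Complex.exp (L * uu (del q) θ ^ q + Dp d q (pt q υ L θ) -
        ((w N + β * Real.log (w N) : ℝ) : ℂ) - ((d 0 - d1 0 : ℝ) : ℂ) + ((d 0 - d1 0 : ℝ) : ℂ) -
        (Dp d q (pt q υ L θ) - Dp d q (υ * rt q N)) - (((b - β) * Real.log (w N / N) : ℝ) : ℂ)) := by
    rw [Real.rpow_def_of_pos hN, Real.rpow_def_of_pos hw0, ← Real.exp_add, Complex.ofReal_exp,
      Complex.ofReal_exp, ← Complex.exp_add, ← Complex.exp_add, ← Complex.exp_add,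
      Real.log_div hw0.ne' hN.ne']
    congr 1
    generalize Real.log (w N) = x
    generalize Real.log N = y
    push_cast; ring
  simp only [add_sub_cancel, c1, c2]
  rw [c3]; ring

end Vale.Agent.P218SQ
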