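import Mathlib.Analysis.SpecialFunctions.Trigonometric.Basic
import Mathlib.Analysis.SpecialFunctions.Sqrt
import Mathlib.Analysis.SpecificLimits.Basic

/-! A trigonometric sum in `√N` that tends to zero has no constant term. -/

open Set Filter Topology

namespace Vale.Agent.P218SQ

theorem exp_sum_real {α : Type*} (e : α → ℝ) (n : ℕ) : ∀ (T : Finset α) (c : α → ℂ),
    T.card = n → Tendsto (fun t : ℝ => ∑ i ∈ T, c i * Complex.exp (e i * t * Complex.I)) atTop
      (𝓝 0) → ∑ i ∈ T with e i = 0, c i = 0 := by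
  classical
  induction n with
  | zero => intro T c h _; rw [Finset.card_eq_zero.1 h]; simp
  | succ n ih =>
    intro T c hT h
    by_cases h0 : ∀ i ∈ T, e i = 0
    · rw [Finset.filter_true_of_mem h0]
      refine tendsto_nhds_unique tendsto_const_nhds (h.congr fun t => ?_)
      exact Finset.sum_congr rfl fun i hi => by simp [h0 i hi]
    · push Not at h0
      obtain ⟨i0, hi0, he⟩ := h0
      have h1 := (h.comp (tendsto_atTop_add_const_right atTop (Real.pi / e i0) tendsto_id)).add h
      rw [add_zero] at h1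
      have h2 := ih (T.erase i0)
        (fun i => c i * (Complex.exp (e i * (Real.pi / e i0 : ℝ) * Complex.I) + 1))
        (by rw [Finset.card_erase_of_mem hi0, hT]; rfl) (h1.congr fun t => ?_)
      · rw [Finset.filter_erase, Finset.erase_eq_of_notMem (by simp [he])] at h2
        have h3 : ∑ i ∈ T with e i = 0,
            c i * (Complex.exp (e i * (Real.pi / e i0 : ℝ) * Complex.I) + 1) =
            (∑ i ∈ T with e i = 0, c i) * 2 := by
          rw [Finset.sum_mul]
          refine Finset.sum_congr rfl fun i hi => ?_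
          rw [(Finset.mem_filter.1 hi).2]; norm_num
        rw [h3] at h2
        simpa using h2
      · have h4 : Complex.exp (e i0 * (Real.pi / e i0 : ℝ) * Complex.I) = -1 := by
          have : (e i0 : ℂ) ≠ 0 := by exact_mod_cast he
          rw [← Complex.exp_pi_mul_I]; congr 2; push_cast; field_simp
        rw [Finset.sum_erase _ (by rw [h4]; simp)]
        simp only [Function.comp_def, id, ← Finset.sum_add_distrib]
        refine Finset.sum_congr rfl fun i _ => ?_
        rw [mul_assoc (c i), add_mul, ← Complex.exp_add]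
        push_cast
        ring_nf

theorem exp_sum {α : Type*} (e : α → ℝ) (T : Finset α) (c : α → ℂ)
    (h : Tendsto (fun N : ℕ => ∑ i ∈ T, c i * Complex.exp (e i * (√(N : ℝ) : ℝ) * Complex.I))
      atTop (𝓝 0)) : ∑ i ∈ T with e i = 0, c i = 0 := by
  refine exp_sum_real e _ T c rfl ?_
  have h1 : Tendsto (fun t : ℝ => ⌊t ^ 2⌋₊) atTop atTop :=
    tendsto_nat_floor_atTop.comp (tendsto_pow_atTop two_ne_zero)
  have h2 : Tendsto (fun t : ℝ => t - √(⌊t ^ 2⌋₊ : ℝ)) atTop (𝓝 0) := by
    refine tendsto_of_tendsto_of_tendsto_of_le_of_le' tendsto_const_nhds tendsto_inv_atTop_zero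
      ?_ ?_
    · filter_upwards [eventually_gt_atTop 0] with t ht
      rw [sub_nonneg, Real.sqrt_le_left ht.le]
      exact Nat.floor_le (by positivity)
    · filter_upwards [eventually_gt_atTop 0] with t ht
      have h3 := Nat.lt_floor_add_one (t ^ 2)
      have h4 := Real.sq_sqrt (Nat.cast_nonneg (α := ℝ) ⌊t ^ 2⌋₊)
      have h5 := Real.sqrt_nonneg (⌊t ^ 2⌋₊ : ℝ)
      have h6 : √(⌊t ^ 2⌋₊ : ℝ) ≤ t := by
        rw [Real.sqrt_le_left ht.le]; exact Nat.floor_le (by positivity)
      rw [inv_eq_one_div, le_div_iff₀ ht]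
      nlinarith
  have h3 : Tendsto (fun t : ℝ => ∑ i ∈ T, c i *
      (Complex.exp (e i * (√(⌊t ^ 2⌋₊ : ℝ) : ℝ) * Complex.I) *
      (Complex.exp (e i * (t - √(⌊t ^ 2⌋₊ : ℝ) : ℝ) * Complex.I) - 1))) atTop
      (𝓝 (∑ i ∈ T, c i * 0)) := by
    refine tendsto_finsetSum _ fun i _ => Tendsto.const_mul _ ?_
    have h4 : Tendsto (fun t : ℝ => Complex.exp (e i * (t - √(⌊t ^ 2⌋₊ : ℝ) : ℝ) * Complex.I) - 1)
        atTop (𝓝 0) := by
      have : Continuous fun s : ℝ => Complex.exp (e i * s * Complex.I) - 1 := by fun_prop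
      simpa [Function.comp_def] using (this.tendsto 0).comp h2
    refine squeeze_zero_norm (fun t => le_of_eq ?_) (by simpa using h4.norm)
    rw [norm_mul, ← Complex.ofReal_mul, Complex.norm_exp_ofReal_mul_I, one_mul]
    simp
  simp only [mul_zero, Finset.sum_const_zero] at h3
  have h5 := (h.comp h1).add h3
  rw [add_zero] at h5
  refine h5.congr fun t => ?_
  simp only [Function.comp_def, ← Finset.sum_add_distrib]
  refine Finset.sum_congr rfl fun i _ => ?_
  rw [← mul_add, mul_sub, mul_one, add_sub_cancel, ← Complex.exp_add]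
  congr 2
  push_cast
  ring

end Vale.Agent.P218SQ
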