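import Vale.Agent.P218SQ.NoArc
import Vale.Agent.P218GV.GV18
import Vale.Agent.P218OUT.Out

/-! The gradient inequality for the reduced action. -/

namespace Vale.Agent.P218SQ

theorem TipData.lojOut {ι κ : Type*} [Fintype ι] [Fintype κ] [DecidableEq ι]
    {f : (ι → ℝ) → Pt ι κ → ℂ} {β K r w0 C b γ K1 : ℝ} {B : ℕ} {S : ℂ}
    (h : TipData f β K r w0 C B b γ K1 S) : LojOut f := by
  obtain ⟨F0, h1, h2⟩ := P218GV.hasTrunc h.toSeqData
  refine lojOut_of h.toSeqData (fun hf => ?_) h1 h2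
  obtain ⟨q, U, g, hg⟩ := P218GV.arcData h.toSeqData hf
  exact no_arc h hg

end Vale.Agent.P218SQ
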