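import Vale.Agent.P218SQ.Psi
import Mathlib.Analysis.SpecialFunctions.Trigonometric.Bounds

/-! Geometry of the shifted circle. -/

open Set Filter Topology

namespace Vale.Agent.P218SQ

/-- the shifted circle -/
noncomputable def uu (δ θ : ℝ) : ℂ := (1 + δ) * Complex.exp (θ * Complex.I) - δ

theorem norm_polar_add {p δ : ℝ} {n : ℂ} (hn : ‖n‖ = 1) :
    ‖p * n + δ‖ ^ 2 = (p + δ) ^ 2 - p * δ * ‖n - 1‖ ^ 2 := by
  have h0 : n.re ^ 2 + n.im ^ 2 = 1 := by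
    have := Complex.sq_norm n
    rw [hn, Complex.normSq_apply] at this
    nlinarith
  rw [Complex.sq_norm, Complex.sq_norm (n - 1), Complex.normSq_apply, Complex.normSq_apply]
  simp only [Complex.add_re, Complex.one_re, Complex.mul_re, Complex.ofReal_re,
    Complex.ofReal_im, Complex.add_im, Complex.one_im, Complex.mul_im, Complex.sub_re,
    Complex.sub_im]
  linear_combination (p ^ 2 + p * δ) * h0

theorem polar {u : ℂ} (hu : u ≠ 0) : u = (‖u‖ : ℝ) * (u / (‖u‖ : ℝ)) ∧ ‖u / (‖u‖ : ℝ)‖ = 1 := by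
  have h : ((‖u‖ : ℝ) : ℂ) ≠ 0 := by exact_mod_cast norm_ne_zero_iff.2 hu
  exact ⟨by field_simp, by simp [hu]⟩

theorem ext_geo {δ : ℝ} (h0 : 0 < δ) (h1 : δ ≤ 1 / 4) {u : ℂ} (hu : 1 + δ ≤ ‖u + δ‖) :
    1 ≤ ‖u‖ ∧ δ * ‖u / (‖u‖ : ℝ) - 1‖ ^ 2 ≤ 3 * (‖u‖ - 1) ∧
      (‖u + δ‖ = 1 + δ → ‖u‖ ≤ 1 + δ * ‖u / (‖u‖ : ℝ) - 1‖ ^ 2) := by
  have h2 : 1 ≤ ‖u‖ := by
    have := norm_add_le u δ
    rw [Complex.norm_real, Real.norm_of_nonneg h0.le] at this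
    linarith
  obtain ⟨h3, h4⟩ := polar (norm_pos_iff.1 (lt_of_lt_of_le one_pos h2))
  have h5 := norm_polar_add (p := ‖u‖) (δ := δ) h4
  rw [← h3] at h5
  have h6 : (1 + δ) ^ 2 ≤ ‖u + δ‖ ^ 2 := by gcongr
  have h7 : 0 ≤ δ * ‖u / (‖u‖ : ℝ) - 1‖ ^ 2 := by positivity
  rw [mul_assoc] at h5
  generalize δ * ‖u / (‖u‖ : ℝ) - 1‖ ^ 2 = d at *
  refine ⟨h2, ?_, fun h => ?_⟩
  · by_contra hh
    nlinarith
  · rw [h] at h5
    by_contra hh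
    nlinarith

theorem norm_sub_one_le {u : ℂ} (h : 1 ≤ ‖u‖) :
    ‖u - 1‖ ≤ (‖u‖ - 1) + ‖u / (‖u‖ : ℝ) - 1‖ ∧ ‖u / (‖u‖ : ℝ) - 1‖ ≤ 2 * ‖u - 1‖ := by
  obtain ⟨h3, h4⟩ := polar (norm_pos_iff.1 (lt_of_lt_of_le one_pos h))
  have h1 : ‖u - u / (‖u‖ : ℝ)‖ = ‖u‖ - 1 := by
    have : u - u / (‖u‖ : ℝ) = ((‖u‖ - 1 : ℝ) : ℂ) * (u / (‖u‖ : ℝ)) := by
      push_cast; linear_combination h3
    rw [this, norm_mul, h4, mul_one, Complex.norm_real, Real.norm_of_nonneg (by linarith)]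
  have h2 : ‖u‖ - 1 ≤ ‖u - 1‖ := by simpa using norm_sub_norm_le u 1
  constructor
  · linarith [norm_sub_le_norm_sub_add_norm_sub u (u / (‖u‖ : ℝ)) 1]
  · linarith [norm_sub_le_norm_sub_add_norm_sub (u / (‖u‖ : ℝ)) u 1,
      norm_sub_rev (u / (‖u‖ : ℝ)) u]

theorem ext_near {δ : ℝ} (h0 : 0 < δ) (h1 : δ ≤ 1 / 4) {κ : ℝ} (hκ : 0 < κ) :
    ∃ κ' : ℝ, 0 < κ' ∧ ∀ u : ℂ, 1 + δ ≤ ‖u + δ‖ → ‖u‖ < 1 + κ' → ‖u - 1‖ ≤ κ := by
  refine ⟨min (κ / 2) (δ * (κ / 2) ^ 2 / 3), by positivity, fun u hu hu' => ?_⟩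
  obtain ⟨h2, h3, -⟩ := ext_geo h0 h1 hu
  have h4 := min_le_left (κ / 2) (δ * (κ / 2) ^ 2 / 3)
  have h5 := min_le_right (κ / 2) (δ * (κ / 2) ^ 2 / 3)
  have h6 : ‖u / (‖u‖ : ℝ) - 1‖ ≤ κ / 2 :=
    le_of_sq_le_sq (le_of_mul_le_mul_left (by linarith) h0) (by positivity)
  linarith [(norm_sub_one_le h2).1]

theorem uu_add (δ θ : ℝ) (h0 : 0 ≤ δ) : ‖uu δ θ + δ‖ = 1 + δ := by
  rw [uu, sub_add_cancel, norm_mul, Complex.norm_exp_ofReal_mul_I, mul_one]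
  exact_mod_cast Real.norm_of_nonneg (by linarith : 0 ≤ 1 + δ)

theorem uu_sub (δ θ : ℝ) : uu δ θ - 1 = (1 + δ) * (Complex.exp (θ * Complex.I) - 1) := by
  rw [uu]; ring

theorem norm_uu_sub {δ : ℝ} (h0 : 0 ≤ δ) (h1 : δ ≤ 1 / 4) (θ : ℝ) :
    ‖uu δ θ - 1‖ ≤ 2 * |θ| ∧ ‖uu δ θ - 1‖ ≤ 3 ∧ (|θ| ≤ Real.pi → |θ| ≤ 2 * ‖uu δ θ - 1‖) := by
  have h2 : ‖(1 + δ : ℂ)‖ = 1 + δ := by
    exact_mod_cast Real.norm_of_nonneg (by linarith : 0 ≤ 1 + δ)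
  have h3 := Real.norm_exp_I_mul_ofReal_sub_one_le (x := θ)
  have h4 := Complex.norm_exp_I_mul_ofReal_sub_one θ
  rw [mul_comm] at h3 h4
  have h5 := norm_sub_le (Complex.exp (θ * Complex.I)) 1
  rw [Complex.norm_exp_ofReal_mul_I, norm_one] at h5
  rw [uu_sub, norm_mul, h2]
  rw [Real.norm_eq_abs] at h3 h4
  have h6 := norm_nonneg (Complex.exp (θ * Complex.I) - 1)
  refine ⟨by nlinarith, by nlinarith, fun h => ?_⟩
  have h7 := Real.mul_abs_le_abs_sin (x := θ / 2) (by rw [abs_div, abs_two]; linarith)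
  rw [abs_mul, abs_two] at h4
  rw [abs_div, abs_two, div_mul_eq_mul_div, div_le_iff₀ Real.pi_pos] at h7
  nlinarith [Real.pi_le_four, abs_nonneg (Real.sin (θ / 2))]

theorem norm_exp_sub_lin (θ : ℝ) :
    ‖Complex.exp (θ * Complex.I) - 1 - θ * Complex.I‖ ≤ 3 * θ ^ 2 := by
  have h0 : ‖(θ : ℂ) * Complex.I‖ = |θ| := by simp
  by_cases h : |θ| ≤ 1
  · have := Complex.norm_exp_sub_one_sub_id_le (x := θ * Complex.I) (by rw [h0]; exact h)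
    rw [h0, sq_abs] at this
    nlinarith [sq_nonneg θ]
  · have h5 := norm_sub_le (Complex.exp (θ * Complex.I)) 1
    rw [Complex.norm_exp_ofReal_mul_I, norm_one] at h5
    have h6 := norm_sub_le (Complex.exp (θ * Complex.I) - 1) (θ * Complex.I)
    rw [h0] at h6
    rw [← sq_abs]
    nlinarith

theorem uu_pow_bound (q : ℕ) : ∃ C : ℝ, 0 ≤ C ∧ ∀ δ θ : ℝ, 0 ≤ δ → δ ≤ 1 / 4 →
    ‖uu δ θ ^ q - 1 - q * (1 + δ) * θ * Complex.I‖ ≤ C * θ ^ 2 := by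
  obtain ⟨Q, hQ, -, hQe⟩ := exists_binom q
  obtain ⟨C, hC⟩ := (isCompact_closedBall (0 : ℂ) 3).exists_bound_of_continuousOn hQ.continuousOn
  have hC0 : 0 ≤ C := (norm_nonneg _).trans (hC 0 (by simp))
  refine ⟨q * 2 * 3 + 4 * C, by positivity, fun δ θ h0 h1 => ?_⟩
  obtain ⟨h2, h3, -⟩ := norm_uu_sub h0 h1 θ
  have h4 := hQe (uu δ θ - 1)
  rw [add_sub_cancel] at h4
  have e : uu δ θ ^ q - 1 - q * (1 + δ) * θ * Complex.I =
      q * (1 + δ) * (Complex.exp (θ * Complex.I) - 1 - θ * Complex.I) +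
        (uu δ θ - 1) ^ 2 * Q (uu δ θ - 1) := by
    rw [h4, uu_sub]; ring
  have h5 : ‖(1 + δ : ℂ)‖ ≤ 2 := by
    have : ‖(1 + δ : ℂ)‖ = 1 + δ := by
      exact_mod_cast Real.norm_of_nonneg (by linarith : 0 ≤ 1 + δ)
    linarith
  rw [e]
  refine (norm_add_le _ _).trans ?_
  rw [norm_mul, norm_mul, norm_mul, norm_pow, Complex.norm_natCast]
  calc _ ≤ q * 2 * (3 * θ ^ 2) + (2 * |θ|) ^ 2 * C := by
        gcongr
        · exact norm_exp_sub_lin θ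
        · exact hC _ (by simpa using h3)
    _ = _ := by rw [mul_pow, sq_abs]; ring

theorem tendsto_uu {δ τ : ℝ} {θ : ℕ → ℝ}
    (h : Tendsto (fun N : ℕ => √(N : ℝ) * θ N) atTop (𝓝 τ)) (q : ℕ) :
    Tendsto (fun N : ℕ => ((√(N : ℝ) : ℝ) : ℂ) * (uu δ (θ N) - 1)) atTop
      (𝓝 ((1 + δ) * τ * Complex.I)) ∧
    Tendsto (fun N : ℕ => (N : ℂ) * (uu δ (θ N) ^ q - 1 - q * (1 + δ) * θ N * Complex.I)) atTop
      (𝓝 (-((q * (1 + δ) / 2 + q * (q - 1) / 2 * (1 + δ) ^ 2) * τ ^ 2 : ℝ))) := by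
  have h1 : Tendsto (fun N : ℕ => ((√(N : ℝ) : ℝ) : ℂ) * (θ N * Complex.I)) atTop
      (𝓝 (τ * Complex.I)) := by
    simpa [Function.comp_def, mul_assoc] using
      ((Complex.continuous_ofReal.tendsto _).comp h).mul_const Complex.I
  have h0 := tendsto_zero_of_sqrt h1
  have h2 : Tendsto (fun N : ℕ => (N : ℂ) * (Complex.exp (θ N * Complex.I) - 1 - θ N * Complex.I
      - (θ N * Complex.I) ^ 2 / 2)) atTop (𝓝 0) := by
    have h3 := ((h1.pow 2).mul h0).norm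
    rw [mul_zero, norm_zero] at h3
    refine squeeze_zero_norm' ?_ h3
    have h4 := h0.norm
    rw [norm_zero] at h4
    filter_upwards [h4.eventually (ge_mem_nhds one_pos)] with N hN
    have h5 := Complex.exp_bound hN (n := 3) (by norm_num)
    rw [mul_pow (_ : ℂ) (θ N * Complex.I), sqrt_sq_cast, norm_mul, mul_assoc, norm_mul,
      ← pow_succ, norm_pow]
    gcongr
    refine le_trans (le_of_eq ?_) (h5.trans ?_)
    · congr 1; simp [Finset.sum_range_succ]; ring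
    · refine mul_le_of_le_one_right (by positivity) ?_
      simp [Nat.factorial]; norm_num
  have h3 : Tendsto (fun N : ℕ => (N : ℂ) * (Complex.exp (θ N * Complex.I) - 1 - θ N * Complex.I))
      atTop (𝓝 (0 + (τ * Complex.I) ^ 2 / 2)) := by
    refine (h2.add ((h1.pow 2).div_const 2)).congr fun N => ?_
    rw [mul_pow (_ : ℂ) (θ N * Complex.I), sqrt_sq_cast]; ring
  have h4 : Tendsto (fun N : ℕ => ((√(N : ℝ) : ℝ) : ℂ) * (uu δ (θ N) - 1)) atTop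
      (𝓝 ((1 + δ) * τ * Complex.I)) := by
    have h5 := ((tendsto_sqrt_inv.mul h3).add h1).const_mul (1 + δ : ℂ)
    rw [zero_mul, zero_add, ← mul_assoc] at h5
    refine h5.congr' ?_
    filter_upwards [eventually_gt_atTop 0] with N hN
    have : ((√(N : ℝ) : ℝ) : ℂ) ≠ 0 := by
      exact_mod_cast (Real.sqrt_pos.2 (by exact_mod_cast hN)).ne'
    rw [uu_sub, ← sqrt_sq_cast N]
    field_simp
    ring
  refine ⟨h4, ?_⟩
  obtain ⟨Q, hQ, hQ0, hQe⟩ := exists_binom q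
  have h6 := (h3.const_mul (q * (1 + δ) : ℂ)).add
    ((h4.pow 2).mul ((hQ.tendsto 0).comp (tendsto_zero_of_sqrt h4)))
  convert h6 using 2
  · rename_i N
    have h7 := hQe (uu δ (θ N) - 1)
    rw [add_sub_cancel] at h7
    rw [h7, mul_pow, sqrt_sq_cast, Function.comp_apply, uu_sub]
    ring
  · rw [hQ0]; push_cast
    linear_combination (-(q * (1 + δ) / 2 + q * (q - 1) / 2 * (1 + δ) ^ 2) * τ ^ 2) *
      Complex.I_sq

theorem pow_sub_pow_bound {a b : ℂ} {R : ℝ} (hR : 1 ≤ R) (ha : ‖a‖ ≤ R) (hb : ‖b‖ ≤ R) (r : ℕ) :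
    ‖a ^ r - b ^ r‖ ≤ r * R ^ r * ‖a - b‖ := by
  induction r with
  | zero => simp
  | succ r ih =>
    have e : a ^ (r + 1) - b ^ (r + 1) = a * (a ^ r - b ^ r) + b ^ r * (a - b) := by ring
    have h1 : ‖b‖ ^ r ≤ R ^ (r + 1) :=
      (pow_le_pow_left₀ (norm_nonneg _) hb r).trans (pow_le_pow_right₀ hR (by omega))
    rw [e]
    refine (norm_add_le _ _).trans ?_
    rw [norm_mul, norm_mul, norm_pow]
    calc _ ≤ R * (r * R ^ r * ‖a - b‖) + R ^ (r + 1) * ‖a - b‖ := by gcongr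
      _ = _ := by push_cast; ring

theorem abs_sub_one_le_pow {q : ℕ} (hq : 1 ≤ q) {x : ℝ} (hx : 0 ≤ x) : |x - 1| ≤ |x ^ q - 1| := by
  rcases le_total x 1 with h | h
  · have := pow_le_of_le_one hx h (show q ≠ 0 by omega)
    rw [abs_of_nonpos (by linarith), abs_of_nonpos (by linarith)]; linarith
  · have := le_self_pow₀ h (show q ≠ 0 by omega)
    rw [abs_of_nonneg (by linarith), abs_of_nonneg (by linarith)]; linarith

end Vale.Agent.P218SQ
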