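import Vale.Agent.P218SQ.Bound

/-! Centering estimates and pointwise limits on the contour. -/

open Set Filter Topology

namespace Vale.Agent.P218SQ

variable {q : ℕ} {υ : ℂ} {e : ℝ}

theorem cen_far {w s θ η κ C : ℝ} (hw : 1 ≤ w) (hκ : 0 < κ) (hs : 0 ≤ s) (hC : 0 ≤ C)
    (h : |θ| ≤ κ → √w ≤ s) (h1 : 1 + |η| ≤ C * √w * (1 + w * θ ^ 2)) :
    1 + |η| ≤ C * (1 + 1 / κ ^ 2) * (1 + s) * (1 + w * θ ^ 2) ^ 2 := by
  have h2 : 0 ≤ w * θ ^ 2 := by positivity
  have h3 : 0 ≤ 1 / κ ^ 2 := by positivity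
  have h4 : √w ≤ (1 + 1 / κ ^ 2) * (1 + s) * (1 + w * θ ^ 2) := by
    by_cases h5 : |θ| ≤ κ
    · calc √w ≤ 1 * (1 + s) * 1 := by linarith [h h5]
        _ ≤ _ := by gcongr <;> linarith
    · have h6 : κ ^ 2 ≤ θ ^ 2 := by rw [← sq_abs θ]; gcongr; exact (not_le.1 h5).le
      have h7 : √w ≤ w := by
        rw [Real.sqrt_le_left (by linarith)]; nlinarith
      calc √w ≤ 1 / κ ^ 2 * 1 * (w * κ ^ 2) := h7.trans (le_of_eq (by field_simp))
        _ ≤ _ := by gcongr ?_ * ?_ * ?_ <;> nlinarith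
  calc _ ≤ C * ((1 + 1 / κ ^ 2) * (1 + s) * (1 + w * θ ^ 2)) * (1 + w * θ ^ 2) :=
        h1.trans (by gcongr)
    _ = _ := by ring

theorem pt_pow (hq : 1 ≤ q) (hυq : υ ^ q = e) (he : e = 1 ∨ e = -1) {L : ℝ} (hL : 0 ≤ L) (θ : ℝ) :
    e * pt q υ L θ ^ q = L * uu (del q) θ ^ q := by
  have he2 : (e : ℂ) * e = 1 := by rcases he with rfl | rfl <;> simp
  rw [pt, mul_pow, mul_pow, hυq, ← Complex.ofReal_pow, rt_pow hq hL]
  linear_combination (L * uu (del q) θ ^ q : ℂ) * he2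

theorem cen_top (hq : 1 ≤ q) (hυ : ‖υ‖ = 1) (hυq : υ ^ q = e) (he : e = 1 ∨ e = -1) (β : ℝ)
    {d : ℕ → ℝ} (hd : Half d q) : ∃ C : ℝ, 0 ≤ C ∧ ∀ (w L η : ℝ) (a : ℂ), 2 ≤ w → w / 2 ≤ L →
      L ≤ 2 * w → |(Dp d q (υ * rt q L)).im| ≤ C * √w ∧
      (‖a⁻¹ - (e * pt q υ L (ang q L (Dp d q (υ * rt q L)).im η) ^ q +
        Dp d q (pt q υ L (ang q L (Dp d q (υ * rt q L)).im η)))‖ ≤ 1 →
      1 + |η| ≤ C * (1 + ‖sig β w a‖) * (1 + w * ang q L (Dp d q (υ * rt q L)).im η ^ 2) ^ 2) := by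
  obtain ⟨D, hD, h1⟩ := hd.bound
  obtain ⟨U, hU, h2⟩ := uu_pow_bound q
  obtain ⟨hδ, hδ1⟩ := del_pos hq
  refine ⟨2 + 2 * U + 4 * D, by positivity, fun w L η a hw h3 h4 => ?_⟩
  obtain ⟨h5, h6, -⟩ := h1 _ (one_le_rt q (show 1 ≤ L by linarith))
  rw [rt_pow hq (by linarith)] at h5 h6
  have h7 : √L ≤ 2 * √w := by
    rw [Real.sqrt_le_left (by positivity), mul_pow, Real.sq_sqrt (by linarith)]; linarith
  have hs := Real.sqrt_nonneg w
  constructor
  · have := (Complex.abs_im_le_norm _).trans (h6 υ (by rw [hυ]; norm_num))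
    rw [mul_comm _ υ] at this
    nlinarith
  intro h8
  have hq' : (0 : ℝ) < q := by exact_mod_cast hq
  have h9 : η = q * (1 + del q) * L * ang q L (Dp d q (υ * rt q L)).im η +
      (Dp d q (υ * rt q L)).im := by
    have : 0 < L := by linarith
    rw [ang]; field_simp; ring
  rw [pt_pow hq hυq he (by linarith)] at h8
  generalize ang q L (Dp d q (υ * rt q L)).im η = θ at *
  obtain ⟨g1, g2, -⟩ := norm_uu_sub hδ.le hδ1 θ
  have g3 := h5 (υ * uu (del q) θ) υ (by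
    rw [norm_mul, hυ, one_mul]
    linarith [norm_sub_norm_le (uu (del q) θ) 1, norm_one (α := ℂ)]) (by rw [hυ]; norm_num)
  rw [← mul_sub_one, norm_mul, hυ, one_mul, ← mul_assoc, mul_comm _ υ] at g3
  have g4 := h2 (del q) θ hδ.le hδ1
  have e1 : ((η : ℝ) : ℂ) * Complex.I = -sig β w a - (a⁻¹ - (L * uu (del q) θ ^ q +
      Dp d q (pt q υ L θ))) - L * (uu (del q) θ ^ q - 1 - q * (1 + del q) * θ * Complex.I) -
      (Dp d q (υ * rt q L * uu (del q) θ) - Dp d q (υ * rt q L)) +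
      ((w + β * Real.log w - L - (Dp d q (υ * rt q L)).re : ℝ) : ℂ) := by
    rw [sig, pt]
    nth_rewrite 1 [h9]
    have := Complex.re_add_im (Dp d q (υ * rt q L))
    push_cast
    linear_combination this
  have e2 := congrArg Complex.im e1
  rw [Complex.add_im, Complex.ofReal_im, add_zero, Complex.mul_I_im, Complex.ofReal_re] at e2
  have g5 : ‖L * (uu (del q) θ ^ q - 1 - q * (1 + del q) * θ * Complex.I)‖ ≤
      2 * w * (U * θ ^ 2) := by
    rw [norm_mul, Complex.norm_real, Real.norm_of_nonneg (by linarith)]; gcongr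
  have g6 : √w * |θ| ≤ 1 + w * θ ^ 2 := by
    rw [← sq_abs]
    nlinarith [sq_nonneg (√w * |θ| - 1), abs_nonneg θ, Real.mul_self_sqrt (show 0 ≤ w by linarith)]
  have g7 : D * √L * ‖uu (del q) θ - 1‖ ≤ D * (2 * √w) * (2 * |θ|) := by gcongr
  have g8 : |η| ≤ ‖sig β w a‖ + 1 + 2 * w * (U * θ ^ 2) + D * (2 * √w) * (2 * |θ|) := by
    rw [e2]
    refine (Complex.abs_im_le_norm _).trans (norm_sub_le_of_le (norm_sub_le_of_le
      (norm_sub_le_of_le (norm_neg _).le h8) g5) (g3.trans g7))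
  have g9 : 0 ≤ w * θ ^ 2 := by positivity
  have g10 := norm_nonneg (sig β w a)
  have g11 := mul_le_mul_of_nonneg_left g6 hD
  calc _ ≤ (2 + 2 * U + 4 * D) * (1 + ‖sig β w a‖) * (1 + w * θ ^ 2) := by
        have := mul_nonneg hU g10
        have := mul_nonneg hD g10
        have := mul_nonneg g9 g10
        have := mul_nonneg hU (mul_nonneg g9 g10)
        have := mul_nonneg hD (mul_nonneg g9 g10)
        linarith
    _ ≤ _ := by gcongr; nlinarith

/-- level of the contour -/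
noncomputable def Lw (β K2 : ℝ) (d1 : ℕ → ℝ) (q : ℕ) (υ : ℂ) (w : ℝ) : ℝ :=
  w + β * Real.log w + K2 - (Dp d1 q (υ * rt q w)).re

theorem ev_Lw (hq : 1 ≤ q) (hυ : ‖υ‖ = 1) {d1 : ℕ → ℝ} (hd : Half d1 q) (β : ℝ) :
    ∃ A : ℝ, ∀ K2, ∀ᶠ w : ℝ in atTop, 2 ≤ w ∧ |Lw β K2 d1 q υ w - w| ≤ A * √w ∧
      w / 2 ≤ Lw β K2 d1 q υ w ∧ Lw β K2 d1 q υ w ≤ 2 * w := by
  obtain ⟨D, hD, h1⟩ := hd.bound
  refine ⟨D + 1, fun K2 => ?_⟩
  filter_upwards [eventually_ge_atTop 2, ev_log β |K2| one_pos, ev_sqrt (D + 1) one_half_pos]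
    with w hw h2 h3
  have h4 := (Complex.abs_re_le_norm _).trans
    ((h1 _ (one_le_rt q (show 1 ≤ w by linarith))).2.1 υ (by rw [hυ]; norm_num))
  rw [rt_pow hq (by linarith), mul_comm _ υ] at h4
  have h5 : |Lw β K2 d1 q υ w - w| ≤ (D + 1) * √w := by
    rw [Lw, abs_le]
    constructor <;> linarith [abs_le.1 h4, le_abs_self K2, neg_abs_le K2,
      le_abs_self (β * Real.log w), neg_abs_le (β * Real.log w)]
  exact ⟨hw, h5, by linarith [abs_le.1 h5], by linarith [abs_le.1 h5]⟩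

theorem tendsto_sqrt_nat : Tendsto (fun N : ℕ => √(N : ℝ)) atTop atTop :=
  Real.tendsto_sqrt_atTop.comp tendsto_natCast_atTop_atTop

theorem ratio_one {t : ℕ → ℝ} {u : ℝ}
    (h : Tendsto (fun N : ℕ => (t N - N) / √(N : ℝ)) atTop (𝓝 u)) :
    Tendsto (fun N : ℕ => t N / N) atTop (𝓝 1) ∧ Tendsto t atTop atTop := by
  have h1 : Tendsto (fun N : ℕ => t N / N) atTop (𝓝 1) := by
    have h2 := (h.mul (tendsto_inv_atTop_zero.comp tendsto_sqrt_nat)).add_const 1
    rw [mul_zero, zero_add] at h2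
    refine h2.congr' ?_
    filter_upwards [eventually_gt_atTop 0] with N hN
    have h3 : (0 : ℝ) < N := by exact_mod_cast hN
    rw [Function.comp_apply, div_eq_mul_inv, mul_assoc, ← mul_inv, Real.mul_self_sqrt h3.le]
    field_simp; ring
  refine ⟨h1, (h1.pos_mul_atTop one_pos tendsto_natCast_atTop_atTop).congr' ?_⟩
  filter_upwards [eventually_gt_atTop 0] with N hN
  have h3 : (0 : ℝ) < N := by exact_mod_cast hN
  field_simp

theorem root_scale (hq : 1 ≤ q) {t : ℕ → ℝ} {u : ℝ}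
    (h : Tendsto (fun N : ℕ => (t N - N) / √(N : ℝ)) atTop (𝓝 u)) :
    Tendsto (fun N : ℕ => rt q (t N) / rt q N) atTop (𝓝 1) ∧
    Tendsto (fun N : ℕ => ((√(N : ℝ) : ℝ) : ℂ) * (((rt q (t N) / rt q N : ℝ) : ℂ) - 1)) atTop
      (𝓝 (u / q)) := by
  obtain ⟨h1, h2⟩ := ratio_one h
  have h3 : Tendsto (fun N : ℕ => rt q (t N) / rt q N) atTop (𝓝 1) := by
    have := h1.rpow_const (p := (q : ℝ)⁻¹) (Or.inl one_ne_zero)
    rw [Real.one_rpow] at this
    refine this.congr' ?_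
    filter_upwards [h2.eventually (eventually_ge_atTop 0)] with N hN
    rw [Real.div_rpow hN (Nat.cast_nonneg N)]; rfl
  refine ⟨h3, tendsto_sqrt_root hq ((Complex.continuous_ofReal.tendsto _).comp h3)
    (((Complex.continuous_ofReal.tendsto _).comp h).congr' ?_)⟩
  filter_upwards [h2.eventually (eventually_ge_atTop 0), eventually_gt_atTop 0] with N hN hN0
  have h4 : (0 : ℝ) < N := by exact_mod_cast hN0
  have h5 := Real.sqrt_pos.2 h4
  rw [Function.comp_apply, ← Complex.ofReal_pow, div_pow, rt_pow hq hN, rt_pow hq h4.le,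
    ← Complex.ofReal_one, ← Complex.ofReal_sub, ← Complex.ofReal_mul]
  congr 1
  rw [div_eq_iff h5.ne', mul_right_comm, Real.mul_self_sqrt h4.le]
  field_simp

theorem log_div_sqrt {t : ℕ → ℝ} {u : ℝ}
    (h : Tendsto (fun N : ℕ => (t N - N) / √(N : ℝ)) atTop (𝓝 u)) (β K2 : ℝ) :
    Tendsto (fun N : ℕ => (β * Real.log (t N) + K2) / √(N : ℝ)) atTop (𝓝 0) := by
  obtain ⟨h1, h2⟩ := ratio_one h
  refine Metric.tendsto_nhds.2 fun ε hε => ?_
  filter_upwards [h2.eventually (ev_log β |K2| (show 0 < ε / 4 by positivity)),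
    h1.eventually (gt_mem_nhds (show (1 : ℝ) < 4 by norm_num)), eventually_gt_atTop 0]
    with N h3 h4 hN
  have h5 : (0 : ℝ) < N := by exact_mod_cast hN
  have h6 := Real.sqrt_pos.2 h5
  rw [div_lt_iff₀ h5] at h4
  have h7 : √(t N) ≤ 2 * √(N : ℝ) := by
    rw [Real.sqrt_le_left (by positivity), mul_pow, Real.sq_sqrt h5.le]; linarith
  rw [dist_zero_right, norm_div, Real.norm_of_nonneg h6.le, div_lt_iff₀ h6, Real.norm_eq_abs]
  nlinarith [abs_add_le (β * Real.log (t N)) K2]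

theorem lim_geo (hq : 1 ≤ q) (hυq : υ ^ q = e) {d d1 : ℕ → ℝ} (hd : Half d q) (hd1 : Half d1 q) :
    ∃ k : ℝ, ∀ (β K2 u η : ℝ) (w L z : ℕ → ℝ),
      Tendsto (fun N : ℕ => (w N - N) / √(N : ℝ)) atTop (𝓝 u) →
      (∀ N, L N = Lw β K2 d1 q υ (w N)) → (∀ N, z N = (Dp d q (υ * rt q (L N))).im) →
      Tendsto (fun N => ang q (L N) (z N) η) atTop (𝓝 0) ∧
      Tendsto (fun N : ℕ => N / L N * (rt q (L N) / rt q N)) atTop (𝓝 1) ∧
      Tendsto (fun N : ℕ => ((√(N : ℝ) : ℝ) : ℂ) * ((rt q (L N) / rt q N : ℝ) *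
        uu (del q) (ang q (L N) (z N) η) - 1)) atTop
        (𝓝 ((u - ((mu d1 q υ).re + (mu d q υ).im * Complex.I)) / q)) ∧
      Tendsto (fun N : ℕ => L N * uu (del q) (ang q (L N) (z N) η) ^ q +
        Dp d q (pt q υ (L N) (ang q (L N) (z N) η)) - ((w N + β * Real.log (w N) : ℝ) : ℂ) -
        (((Dp d q (υ * rt q (L N))).re - (Dp d1 q (υ * rt q (L N))).re : ℝ) : ℂ)) atTop
        (𝓝 ((K2 + k : ℝ) + η * Complex.I)) := by
  obtain ⟨hδ, -⟩ := del_pos hq
  have hq0 : (0 : ℝ) < q := by exact_mod_cast hq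
  have hqc : (q : ℂ) ≠ 0 := by exact_mod_cast hq0.ne'
  set τ : ℝ := -(mu d q υ).im / (q * (1 + del q)) with hτ
  refine ⟨-((q * (1 + del q) / 2 + q * (q - 1) / 2 * (1 + del q) ^ 2) * τ ^ 2) +
    (mu d q υ).im ^ 2 / 2 - (mu d1 q υ).re ^ 2 / 2, fun β K2 u η w L z hw hL hz => ?_⟩
  have hx : ∀ N : ℕ, 0 ≤ rt q N ∧ rt q N ^ q = N := fun N =>
    ⟨Real.rpow_nonneg (Nat.cast_nonneg N) _, rt_pow hq (Nat.cast_nonneg N)⟩
  have hxe : ∀ᶠ N : ℕ in atTop, ∀ t : ℝ, υ * rt q N * ((t / rt q N : ℝ) : ℂ) = υ * t := by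
    filter_upwards [eventually_gt_atTop 0] with N hN t
    have : (rt q N : ℂ) ≠ 0 := by exact_mod_cast (rt_pos q (by exact_mod_cast hN)).ne'
    push_cast; field_simp
  have re_div : ∀ {F : ℕ → ℂ} {l : ℂ}, Tendsto (fun N : ℕ => F N / ((√(N : ℝ) : ℝ) : ℂ)) atTop
      (𝓝 l) → Tendsto (fun N : ℕ => (F N).re / √(N : ℝ)) atTop (𝓝 l.re) ∧
      Tendsto (fun N : ℕ => (F N).im / √(N : ℝ)) atTop (𝓝 l.im) := fun h =>
    ⟨((Complex.continuous_re.tendsto _).comp h).congr fun N => Complex.div_ofReal_re _ _,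
      ((Complex.continuous_im.tendsto _).comp h).congr fun N => Complex.div_ofReal_im _ _⟩
  obtain ⟨-, a1⟩ := root_scale hq hw
  obtain ⟨b1, b2⟩ := hd1.tendsto υ hx a1
  have hL1 : Tendsto (fun N : ℕ => (L N - N) / √(N : ℝ)) atTop (𝓝 (u - (mu d1 q υ).re)) := by
    have := (hw.add (log_div_sqrt hw β K2)).sub (re_div b2).1
    rw [add_zero] at this
    refine this.congr' (hxe.mono fun N hN => ?_)
    simp only [hN, hL, Lw]; ring
  obtain ⟨a2', a2⟩ := root_scale hq hL1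
  obtain ⟨c1, c2⟩ := ratio_one hL1
  obtain ⟨b3, -⟩ := hd1.tendsto υ hx a2
  obtain ⟨b4, b5⟩ := hd.tendsto υ hx a2
  have c3 := c1.inv₀ one_ne_zero
  simp only [inv_div, inv_one] at c3
  have hθ : Tendsto (fun N : ℕ => √(N : ℝ) * ang q (L N) (z N) η) atTop (𝓝 τ) := by
    have := (((tendsto_const_nhds (x := η)).div_atTop tendsto_sqrt_nat).sub (re_div b5).2).mul
      c3 |>.div_const (q * (1 + del q))
    rw [zero_sub, mul_one] at this
    refine this.congr' ?_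
    filter_upwards [hxe, eventually_gt_atTop 0, c2.eventually (eventually_gt_atTop 0)]
      with N hN hN0 hL0
    have h5 := Real.sqrt_pos.2 (show (0 : ℝ) < N by exact_mod_cast hN0)
    simp only [hN, ← hz, ang]
    rw [← sub_div, div_mul_div_comm, div_div, eq_comm, ← mul_div_assoc,
      div_eq_div_iff (by positivity) (by positivity)]
    linear_combination ((η - z N) * L N * (q * (1 + del q))) *
      Real.mul_self_sqrt (Nat.cast_nonneg (α := ℝ) N)
  obtain ⟨u1, u2⟩ := tendsto_uu (δ := del q) hθ q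
  have u0 : Tendsto (fun N => uu (del q) (ang q (L N) (z N) η)) atTop (𝓝 1) := by
    simpa using (tendsto_zero_of_sqrt u1).add_const 1
  have hτ' : (1 + del q : ℂ) * τ = -(mu d q υ).im / q := by
    have : (1 + del q : ℂ) ≠ 0 := by exact_mod_cast (by linarith : 1 + del q ≠ 0)
    rw [hτ]; push_cast; field_simp
  have a3 : Tendsto (fun N : ℕ => ((√(N : ℝ) : ℝ) : ℂ) * ((rt q (L N) / rt q N : ℝ) *
      uu (del q) (ang q (L N) (z N) η) - 1)) atTop
      (𝓝 ((u - ((mu d1 q υ).re + (mu d q υ).im * Complex.I)) / q)) := by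
    convert (a2.mul u0).add u1 using 2
    · ring
    · rw [hτ']; push_cast; ring
  refine ⟨?_, by simpa using c3.mul a2', a3, ?_⟩
  · have := hθ.mul (tendsto_inv_atTop_zero.comp tendsto_sqrt_nat)
    rw [mul_zero] at this
    refine this.congr' ?_
    filter_upwards [eventually_gt_atTop 0] with N hN0
    have h5 := Real.sqrt_pos.2 (show (0 : ℝ) < N by exact_mod_cast hN0)
    rw [Function.comp_apply]
    field_simp
  obtain ⟨b6, -⟩ := hd.tendsto υ hx a3
  have c4 := (Complex.continuous_ofReal.tendsto _).comp c1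
  have c5 := (Complex.continuous_ofReal.tendsto _).comp
    ((Complex.continuous_re.tendsto _).comp (b3.sub b1))
  have c6 := (((c4.mul u2).add (b6.sub b4)).add c5).add_const (K2 + η * Complex.I)
  have m1 := mu_re_im d hυq
  convert c6.congr' ?_ using 2
  · have e1 : (mu d1 q υ * (q / 2 * (((u - (mu d1 q υ).re : ℝ) : ℂ) / q)) -
        mu d1 q υ * (q / 2 * (u / q))) = mu d1 q υ * ((-(mu d1 q υ).re / 2 : ℝ) : ℂ) := by
      push_cast; field_simp; ring
    have e2 : ((mu d q υ).re : ℂ) * (mu d q υ).im = 0 := by exact_mod_cast m1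
    rw [e1, Complex.re_mul_ofReal]
    have e3 := Complex.re_add_im (mu d q υ)
    generalize (mu d q υ).re = m at *
    generalize (mu d q υ).im = m' at *
    rw [← e3]
    push_cast
    field_simp
    linear_combination Complex.I * e2 + (m' : ℂ) ^ 2 * Complex.I_sq
  · filter_upwards [hxe, eventually_gt_atTop 0, c2.eventually (eventually_gt_atTop 0)]
      with N hN hN0 hL0
    have h1 : (N : ℂ) ≠ 0 := by exact_mod_cast hN0.ne'
    have h2 : ((q * (1 + del q) * L N * ang q (L N) (z N) η : ℝ) : ℂ) = ((η - z N : ℝ) : ℂ) := by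
      congr 1; rw [ang]; field_simp
    have h3 := Complex.re_add_im (Dp d q (υ * rt q (L N)))
    have h4 := congrArg Complex.ofReal (hL N)
    rw [← hz] at h3
    simp only [Function.comp_def, ← mul_assoc, hN, pt, Complex.sub_re, Lw] at h4 ⊢
    push_cast at h2 h4 ⊢
    field_simp
    linear_combination (-Complex.I) * h2 + h3 - h4

end Vale.Agent.P218SQ
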