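import Vale.Agent.P218SQ.Tel
import Vale.Agent.P218SQ.ExpSum

/-! The Stokes obstruction: no formal critical arc leaves the axis. -/

open Set Filter Topology Function MeasureTheory

namespace Vale.Agent.P218SQ

variable {q : ℕ} {υ : ℂ} {e : ℝ} {ι κ : Type*} [Fintype ι] [Fintype κ] [DecidableEq ι]
  {f : (ι → ℝ) → Pt ι κ → ℂ} {β K r w0 C C1 b γ K1 K2 A : ℝ} {B : ℕ} {S : ℂ} {lam : ι → ℝ}
  {G : ℕ → ℂ → Pt ι κ} {d d1 dz dn : ℕ → ℝ}

/-- the limit of the total contribution of one end -/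
def Lim (H : ℕ → ℕ → ℝ → ℂ) (c : ℂ) : Prop :=
  (∀ᶠ N : ℕ in atTop, Summable fun k => ∫ η, H N (33 * N / 100 + k) η) ∧
    Tendsto (fun N : ℕ => ((√(N : ℝ) : ℝ) : ℂ)⁻¹ * ∑' k, ∫ η, H N (33 * N / 100 + k) η) atTop (𝓝 c)

theorem lim_of (h : TipData f β K r w0 C B b γ K1 S) (hN : NArc f q lam G C1) (hυ : ‖υ‖ = 1)
    (hυq : υ ^ q = e) (he : e = 1 ∨ e = -1) (hd1 : Half d1 q) (hz : Half dz q)
    (hR : Rad q υ β A d1) (hG : Good q υ β K r w0 K2 d1 G) (i : ι) {c : ℝ}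
    (hn : ∀ y : ℝ, 0 ≤ y → (Dp dn q (υ * y)).re - (Dp d1 q (υ * y)).re = c)
    (hc : Cen q υ β K2 d1 dz fun N ω => (G N ω).1 i) {p R : ℝ → ℂ}
    (hl : ∀ (u η : ℝ) (w : ℕ → ℕ), Tendsto (fun N : ℕ => ((w N : ℝ) - N) / √(N : ℝ)) atTop (𝓝 u) →
      Tendsto (fun N => HH q υ β b K2 d1 dz dn (Dl f G i) N (w N) η) atTop (𝓝 (p u * R η))) :
    Lim (HH q υ β b K2 d1 dz dn (Dl f G i)) ((∫ u, p u) * ∫ η, R η) := by
  obtain ⟨C2, h2⟩ := HH_dom hN.one_le hυ hυq he (by linarith [h.one_lt]) hd1 hz hR hn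
    (hG.near h hN.one_le i) hc
  refine dct2 (C := C2) h.one_lt (fun N => by omega) ?_ ?_ hl
  · filter_upwards [hG.res (b := b) h.toSeqData hN hυ, ev_w1] with N a1 a2 w hw
    exact ((a1 w (a2 w hw)).2 i dz dn).1
  · filter_upwards [h2, ev_w1] with N a1 a2 w hw using a1 w (a2 w hw)

theorem lim_zero (h : TipData f β K r w0 C B b γ K1 S) (hN : NArc f q lam G C1) (hυ : ‖υ‖ = 1)
    (hυq : υ ^ q = e) (he : e = 1 ∨ e = -1) (hd1 : Half d1 q) (hz : Half dz q)
    (hR : Rad q υ β A d1) (hG : Good q υ β K r w0 K2 d1 G) (i : ι)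
    (hc : Cen q υ β K2 d1 dz fun N ω => (G N ω).1 i)
    (hs : ∀ (u η : ℝ) (w : ℕ → ℝ), Tendsto (fun N : ℕ => (w N - N) / √(N : ℝ)) atTop (𝓝 u) →
      Tendsto (fun N => ‖sig β (w N) ((G N (om q υ β K2 d1 dz (w N) η)).1 i)‖) atTop atTop) :
    Lim (HH q υ β b K2 d1 dz d1 (Dl f G i)) 0 := by
  simpa using lim_of h hN hυ hυq he hd1 hz hR hG i (fun _ _ => sub_self _) hc (p := fun _ => 0)
    (R := fun _ => 0) fun u η w hw => by
      rw [mul_zero]
      exact HH_zero hN.one_le hυ (by linarith [h.one_lt]) hd1 hR (fun _ _ => sub_self _)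
        (hG.near h hN.one_le i) hw (hs u η _ hw)

theorem lim_tied (h : TipData f β K r w0 C B b γ K1 S) (hN : NArc f q lam G C1) (hυ : ‖υ‖ = 1)
    (hυq : υ ^ q = e) (he : e = 1 ∨ e = -1) (hd1 : Half d1 q) (hd : Half d q)
    (hR : Rad q υ β A d1) (hG : Good q υ β K r w0 K2 d1 G) {i : ι} (hi : lam i = e)
    (hT : Tip q e (fun N ω => (G N ω).1 i) d) (ht : Tie d d1 q υ) {k : ℝ} (hk : LG q υ d d1 k)
    (hK : K1 ≤ K2 + k + (d 0 - d1 0)) : ∃ ρ : ℝ, 0 < ρ ∧
      Lim (HH q υ β b K2 d1 d d (Dl f G i)) ((∫ u, gp q (mu d q υ) u) * (ρ * S)) := by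
  have hq := hN.one_le
  have he1 : |e| = 1 := by rcases he with rfl | rfl <;> simp
  have he2 : e * e = 1 := by rcases he with rfl | rfl <;> simp
  have he0 : e ≠ 0 := by rintro rfl; simp at he2
  obtain ⟨R, ρ, h1, h2, h3⟩ := h.inner_ev i (fun j => lam j * e) _
    (fun j => by rw [abs_mul, he1, mul_one]; exact hN.le_one j) (by rw [hi, he2]) hK
  generalize hK' : K2 + k + (d 0 - d1 0) = K' at *
  refine ⟨Real.exp K' * ρ, by positivity, ?_⟩
  have h4 : ∫ η : ℝ, R (-η) * Complex.exp (K' + η * Complex.I) = (Real.exp K' * ρ : ℝ) * S := by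
    rw [← integral_neg_eq_self, Complex.ofReal_mul, mul_assoc, ← h2, ← integral_const_mul]
    congr 1; funext η
    rw [neg_neg, Complex.exp_add, Complex.ofReal_neg, neg_mul, Complex.ofReal_exp]; ring
  rw [← h4]
  refine lim_of h hN hυ hυq he hd1 hd hR hG i (fun y hy => ht.re hy)
    (hT.cen hq hυ hυq he hd hR K2) (R := fun η => R (-η) * Complex.exp (K' + η * Complex.I))
    fun u η w hw => HH_tied hq hυ hd hR ht hk hK'.symm hw ?_
  have b1 : ∀ᶠ N : ℕ in atTop, 2 * N ≤ 7 * ‖om q υ β K2 d1 d (w N) η‖ ^ q := by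
    filter_upwards [hR.two hq hυ K2, ev_w hw] with N a1 a2 using a1 _ a2 _
  obtain ⟨b2, b3⟩ := hN.seq b1
  obtain ⟨C', -, b4⟩ := id hT
  have b5 := (hT.sig_lim hq hυ hυq he hR hk K2 η hw).sub_const ((d 0 - d1 0 : ℝ) : ℂ)
  have := h3 (fun N => cut (w N) (rk i)) (fun N => G N (om q υ β K2 d1 d (w N) η)) (-η) ?_
    (by simpa only [cut_self] using (ratio_one hw).2) b2 (fun j => ?_) ?_
  · simpa only [cut_self, Dl] using this
  · filter_upwards [hG, ev_w hw, b1, b4] with N a1 a2 a3 a4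
    rw [update_cut]
    refine ⟨((a1 _ a2).2 _).1, ((a1 _ a2).2 _).1,
      (((a1 _ a2).2 _).2 _ (uu_add _ _ (del_pos hq).1.le).ge).1, (a4 _ a3).1, fun j => ?_⟩
    rw [cut_self]
    rcases cut_mem (w N) (rk i) j with c | c <;> rw [c] <;> simp
  · convert b3 j i (hi ▸ he0) using 2
    rw [hi, eq_div_iff (by exact_mod_cast he0)]
    exact_mod_cast (by rw [mul_assoc, he2, mul_one] : lam j * e * e = lam j)
  · simp only [cut_self]
    convert b5.congr' ?_ using 2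
    · rw [← hK']; push_cast; ring
    · filter_upwards [hG, ev_w hw] with N a1 a2
      rw [ht.re (rt_pos q (a1 _ a2).1).le, add_sub_cancel_right]

theorem Tie.refl (d : ℕ → ℝ) (q : ℕ) (υ : ℂ) : Tie d d q υ := ⟨rfl, fun _ _ => by simp⟩

theorem no_arc {U : ι → Polynomial ℝ} {g : ℕ → ℂ → Pt ι κ}
    (h : TipData f β K r w0 C B b γ K1 S) (hg : ArcData f q U g) : False := by
  classical
  obtain ⟨e, lam, G, C1, d, he, hN, hT, j0, hj0, hj0'⟩ := normalise h.toSeqData hg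
  have hq := hN.one_le
  obtain ⟨υ, hυ, hυq, hp, hn⟩ := exists_ups hq he
  obtain ⟨j1, hj1, htie⟩ := exists_ref_end (d := d) hq hp
    (Finset.univ.filter fun j => lam j = e ∧ Half (d j) q)
    ⟨j0, by simpa using ⟨hj0, fun r _ hr => hj0' r hr⟩⟩ fun j hj => (Finset.mem_filter.1 hj).2.2
  simp only [Finset.mem_filter, Finset.mem_univ, true_and] at hj1 htie
  obtain ⟨A, hR⟩ : ∃ A, Rad q υ β A (d j1) := ev_Lw hq hυ hj1.2 β
  have hfar : ∀ j, ¬(lam j = e ∧ Half (d j) q) → Far q υ β K A fun N ω => (G N ω).1 j :=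
    fun j hj => classify hυ hυq he hn β K (hN.le_one j) (hN.lead j) (hT j) hj A
  have hk : ∀ j, ∃ k, Half (d j) q → LG q υ (d j) (d j1) k := fun j => by
    by_cases hj : Half (d j) q
    · exact (lim_geo hq hυq hj hj1.2).imp fun k hk _ => hk
    · exact ⟨0, fun h => (hj h).elim⟩
  choose k hk using hk
  obtain ⟨K2, hK2⟩ : ∃ K2, ∀ j, (InDom q υ β K K2 (d j1) fun N ω => (G N ω).1 j) ∧
      K1 ≤ K2 + k j + (d j 0 - d j1 0) := by
    refine (eventually_all.2 fun j => Eventually.and ?_ ((eventually_ge_atTop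
      (K1 - k j - (d j 0 - d j1 0))).mono fun _ _ => by linarith)).exists (f := atTop)
    by_cases hj : lam j = e ∧ Half (d j) q
    · refine top_inDom (D := d j 0 - d j1 0) hq hυ hυq he hR (hN.le_one j) (hN.lead j)
        (hT j hj.1).1 hj.2 ?_
      rcases htie j hj with h1 | h1
      · exact (eventually_ge_atTop 0).mono fun y hy => (h1.re hy).ge
      · exact h1.eventually (eventually_ge_atTop _)
    · exact .of_forall ((hfar j hj).inDom hq hυ hυq he hR (hN.le_one j) (hN.lead j))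
  have hG := good_of hN h.r_pos hυ hR (fun j => (hK2 j).1) w0
  set P : ι → Prop := fun j => (lam j = e ∧ Half (d j) q) ∧ Tie (d j) (d j1) q υ with hP
  have key : ∀ j, ∃ (dz dn : ℕ → ℝ) (ρ : ℝ), Tie dn (d j1) q υ ∧ (P j → 0 < ρ ∧ dn = d j) ∧
      (¬P j → ρ = 0) ∧ Lim (HH q υ β b K2 (d j1) dz dn (Dl f G j))
        ((∫ u, gp q (mu dn q υ) u) * (ρ * S)) := by
    intro j
    by_cases h1 : P j
    · obtain ⟨ρ, h2, h3⟩ := lim_tied h hN hυ hυq he hj1.2 h1.1.2 hR hG h1.1.1 (hT j h1.1.1).1 h1.2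
        (hk j h1.1.2) (hK2 j).2
      exact ⟨_, _, ρ, h1.2, fun _ => ⟨h2, rfl⟩, fun h => (h h1).elim, h3⟩
    by_cases hj : lam j = e ∧ Half (d j) q
    · refine ⟨d j, _, 0, Tie.refl _ _ _, fun h => (h1 h).elim, fun _ => rfl, ?_⟩
      simpa using lim_zero h hN hυ hυq he hj1.2 hj.2 hR hG j
        ((hT j hj.1).1.cen hq hυ hυq he hj.2 hR K2) fun u η w hw =>
        (hT j hj.1).1.sig_atTop hq hυ hυq he hR (hk j hj.2)
          ((htie j hj).resolve_left fun h => h1 ⟨hj, h⟩) K2 η hw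
    · refine ⟨d j1, _, 0, Tie.refl _ _ _, fun h => (h1 h).elim, fun _ => rfl, ?_⟩
      simpa using lim_zero h hN hυ hυq he hj1.2 hj1.2 hR hG j
        ((hfar j hj).cen hq hυ hυq he hj1.2 hR K2) fun u η w hw =>
        (hfar j hj).sig_atTop hq hR (hk j1 hj1.2) K2 η hw
  choose dz dn ρ k1 k2 k3 k4 using key
  have hx : ∀ N : ℕ, 0 ≤ rt q N := fun N => Real.rpow_nonneg (Nat.cast_nonneg N) _
  have t1 := telescope (a := fun N k => Complex.exp (Dp (d j1) q (υ * rt q N)) *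
      kap q υ (b - β) N * rs q υ (fun ω => f (fun _ => ((33 * N / 100 + k : ℕ) : ℝ)) (G N ω)) N)
    (m := fun j N => Complex.exp (-(Dp (dn j) q (υ * rt q N) - Dp (d j1) q (υ * rt q N)))) ?_ k4
    (fun j => ⟨Real.exp (-(dn j 0 - d j1 0)), fun N => by
      rw [Complex.norm_exp, Complex.neg_re, Complex.sub_re, (k1 j).re (hx N)]⟩)
    (first_small h.toSeqData hN hυ hυq he hj1.2 _)
  · have t2 := exp_sum (fun j => -((mu (dn j) q υ).im - (mu (d j1) q υ).im)) Finset.univ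
      (fun j => Real.exp (-(dn j 0 - d j1 0)) * ((∫ u, gp q (mu (dn j) q υ) u) * (ρ j * S)))
      (t1.congr fun N => Finset.sum_congr rfl fun j _ => by
        rw [(k1 j).2 _ (hx N), rt_pow hq (Nat.cast_nonneg N), neg_add, Complex.exp_add,
          Complex.ofReal_exp, mul_right_comm]
        congr 3 <;> push_cast <;> ring)
    rw [Finset.sum_congr rfl (g := fun j => ((Real.exp (-(dn j 0 - d j1 0)) * ρ j : ℝ) : ℂ) *
      ((∫ u, gp q (mu (d j1) q υ) u) * S)) fun j hj => by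
        rw [Complex.ext (k1 j).1 (by linarith [(Finset.mem_filter.1 hj).2])]
        push_cast; ring, ← Finset.sum_mul, ← Complex.ofReal_sum] at t2
    refine mul_ne_zero (Complex.ofReal_ne_zero.2 (ne_of_gt ?_))
      (mul_ne_zero (integral_gp_ne hq _) h.S_ne) t2
    have hP1 := k2 j1 ⟨hj1, Tie.refl _ _ _⟩
    refine Finset.sum_pos' (fun j _ => mul_nonneg (Real.exp_pos _).le ?_)
      ⟨j1, by simp [hP1.2], mul_pos (Real.exp_pos _) hP1.1⟩
    by_cases hj : P j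
    exacts [(k2 j hj).1.le, (k3 j hj).ge]
  · filter_upwards [hG.res (b := b) h.toSeqData hN hυ, ev_w1, hN.lim, eventually_ge_atTop 1]
      with N a1 a2 a3 a4
    refine ⟨fun k => ?_, ?_⟩
    · obtain ⟨b1, b2⟩ := a1 _ (a2 (33 * N / 100 + k) (Nat.le_add_right _ _))
      rw [← mul_sub, ← add_assoc, b1, Finset.mul_sum]
      refine Finset.sum_congr rfl fun j _ => ?_
      rw [(b2 j _ _).2, ← mul_assoc, ← mul_assoc, ← Complex.exp_add]
      congr 3; ring
    · have := ((a3 _ (diff_psi q N (υ * rt q N)) ⟨_, psi_growth q N (by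
        rw [norm_mul, hυ, one_mul, Complex.norm_real, Real.norm_of_nonneg (hx N)]
        exact one_le_rt q (by exact_mod_cast a4))⟩).comp
        (tendsto_add_atTop_nat (33 * N / 100))).const_mul
        (Complex.exp (Dp (d j1) q (υ * rt q N)) * kap q υ (b - β) N)
      rw [mul_zero] at this
      simpa only [Function.comp_def, add_comm _ (33 * N / 100), rs] using this

end Vale.Agent.P218SQ
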