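import Mathlib.Algebra.Polynomial.Identities
import Mathlib.Algebra.Polynomial.Div
import Mathlib.Order.PiLex
import Mathlib.Topology.Algebra.Polynomial
import Mathlib.Analysis.Complex.Basic

/-! Polynomial uniformisers and the choice of the reference end. -/

open Set Filter Topology Polynomial

namespace Vale.Agent.P218SQ

theorem sub_dvd_comp_sub (U a b : ℝ[X]) : a - b ∣ U.comp a - U.comp b := by
  induction U using Polynomial.induction_on' with
  | add p r hp hr =>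
    rw [add_comp, add_comp, add_sub_add_comm]
    exact dvd_add hp hr
  | monomial n c =>
    rw [monomial_comp, monomial_comp, ← mul_sub]
    exact (sub_dvd_pow_sub_pow a b n).mul_left _

theorem lead_comp {Z P : ℝ[X]} (hZ : Z.coeff 0 = 1) (k : ℕ) {n : ℕ} (h : X ^ n ∣ P) :
    X ^ n ∣ Z ^ k * P.comp (X * Z) ∧ (Z ^ k * P.comp (X * Z)).coeff n = P.coeff n := by
  obtain ⟨R, rfl⟩ := h
  have e : Z ^ k * (X ^ n * R).comp (X * Z) = X ^ n * (Z ^ k * Z ^ n * R.comp (X * Z)) := by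
    simp only [mul_comp, pow_comp, X_comp, mul_pow]; ring
  rw [e]
  refine ⟨dvd_mul_right _ _, ?_⟩
  have h1 := coeff_X_pow_mul (Z ^ k * Z ^ n * R.comp (X * Z)) n 0
  have h2 := coeff_X_pow_mul R n 0
  rw [zero_add] at h1 h2
  rw [coeff_zero_eq_eval_zero] at hZ
  rw [h1, h2, coeff_zero_eq_eval_zero, coeff_zero_eq_eval_zero]
  simp [eval_comp, hZ]

theorem exists_unif {q : ℕ} (hq : 1 ≤ q) {U : ℝ[X]} {e : ℝ} (he : e ≠ 0) (hU : U.coeff 0 = e)
    (n : ℕ) : ∃ Z : ℝ[X], Z.coeff 0 = 1 ∧ X ^ (n + 1) ∣ Z ^ q * U.comp (X * Z) - C e := by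
  rw [coeff_zero_eq_eval_zero] at hU
  induction n with
  | zero =>
    refine ⟨1, by simp, ?_⟩
    rw [zero_add, pow_one, X_dvd_iff, coeff_zero_eq_eval_zero]
    simp [hU]
  | succ n ih =>
    obtain ⟨Z, hZ, R, hR⟩ := ih
    rw [coeff_zero_eq_eval_zero] at hZ
    set c : ℝ := -(R.eval 0) / (q * e) with hc
    have hq0 : (q : ℝ) ≠ 0 := by exact_mod_cast (by omega : q ≠ 0)
    refine ⟨Z + C c * X ^ (n + 1), by simp [coeff_zero_eq_eval_zero, hZ], ?_⟩
    obtain ⟨k, hk⟩ := powAddExpansion Z (C c * X ^ (n + 1)) q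
    obtain ⟨m, hm⟩ := sub_dvd_comp_sub U (X * (Z + C c * X ^ (n + 1))) (X * Z)
    obtain ⟨T, hT⟩ : X ∣ R + (q : ℝ[X]) * Z ^ (q - 1) * C c * U.comp (X * Z) := by
      rw [X_dvd_iff, coeff_zero_eq_eval_zero]
      simp only [eval_add, eval_mul, eval_natCast, eval_pow, hZ, one_pow, eval_C, eval_comp,
        eval_X, zero_mul, hU, hc]
      field_simp
      ring
    refine ⟨T + k * C c ^ 2 * X ^ n * U.comp (X * Z) +
      (Z + C c * X ^ (n + 1)) ^ q * C c * m, ?_⟩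
    have e1 : U.comp (X * (Z + C c * X ^ (n + 1))) = U.comp (X * Z) + C c * X ^ (n + 2) * m := by
      rw [← sub_eq_iff_eq_add', hm]; ring
    rw [e1, mul_add]
    nth_rewrite 1 [hk]
    linear_combination hR + X ^ (n + 1) * hT

theorem poly_bound {P : ℝ[X]} {n : ℕ} (h : X ^ n ∣ P) :
    ∃ C : ℝ, 0 ≤ C ∧ ∀ s : ℂ, ‖s‖ ≤ 1 → ‖aeval s P‖ ≤ C * ‖s‖ ^ n := by
  obtain ⟨R, rfl⟩ := h
  obtain ⟨C, hC⟩ := (isCompact_closedBall (0 : ℂ) 1).exists_bound_of_continuousOn
    (R.continuous_aeval (A := ℂ)).continuousOn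
  refine ⟨max C 0, le_max_right _ _, fun s hs => ?_⟩
  rw [map_mul, map_pow, aeval_X, norm_mul, norm_pow, mul_comm]
  gcongr
  exact (hC s (by simpa using hs)).trans (le_max_left _ _)

theorem poly_trunc (V : ℝ[X]) (n : ℕ) :
    X ^ n ∣ V - ∑ k ∈ Finset.range n, monomial k (V.coeff k) := by
  rw [X_pow_dvd_iff]
  intro d hd
  simp [coeff_monomial, hd]

/-- the reference end: lexicographically maximal -/
theorem exists_ref {ι : Type*} [Fintype ι] (q : ℕ) (U : ι → ℝ[X]) {e : ℝ} (he : e ≠ 0)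
    (h : ∃ j, (U j).coeff 0 = e) : ∃ j0, (U j0).coeff 0 = e ∧ ∀ j, (U j).coeff 0 = e →
      X ^ (q + 1) ∣ U j - U j0 ∨
        ∃ n, 1 ≤ n ∧ n ≤ q ∧ X ^ n ∣ U j - U j0 ∧ e * (U j - U j0).coeff n < 0 := by
  classical
  obtain ⟨j1, hj1⟩ := h
  obtain ⟨j0, h0, h1⟩ := Finset.exists_max_image (Finset.univ.filter fun j => (U j).coeff 0 = e)
    (fun j => toLex fun n : Fin (q + 1) => e * (U j).coeff n) ⟨j1, by simp [hj1]⟩
  simp only [Finset.mem_filter, Finset.mem_univ, true_and] at h0 h1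
  refine ⟨j0, h0, fun j hj => ?_⟩
  rcases (h1 j hj).eq_or_lt with h2 | h2
  · left
    rw [X_pow_dvd_iff]
    intro d hd
    have h3 := congrFun (toLex.injective h2) ⟨d, hd⟩
    rw [coeff_sub, sub_eq_zero]
    exact mul_left_cancel₀ he h3
  · right
    obtain ⟨i, h3, h4⟩ := h2
    refine ⟨i, ?_, by omega, ?_, ?_⟩
    · by_contra hi
      have : (i : ℕ) = 0 := by omega
      simp only [Pi.toLex_apply, this, hj, h0, lt_self_iff_false] at h4
    · rw [X_pow_dvd_iff]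
      intro d hd
      have h5 := h3 ⟨d, by omega⟩ hd
      rw [coeff_sub, sub_eq_zero]
      exact mul_left_cancel₀ he h5
    · simp only [Pi.toLex_apply] at h4
      rw [coeff_sub, mul_sub]
      linarith

end Vale.Agent.P218SQ
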