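import Mathlib.Analysis.SpecialFunctions.Complex.LogBounds
import Mathlib.Analysis.Complex.ExponentialBounds

/-! The test polynomial: global bound and Gaussian limit. -/

open Set Filter Topology

namespace Vale.Agent.P218SQ

/-- normalised test polynomial -/
noncomputable def psi (q N : ℕ) (u : ℂ) : ℂ :=
  u ^ (q * (N - N / 20)) * ((1 + u) / 2) ^ (2 * q * (N / 20)) * Complex.exp N

theorem div20 (N : ℕ) : (N : ℝ) / 20 - 1 ≤ ((N / 20 : ℕ) : ℝ) ∧ ((N / 20 : ℕ) : ℝ) ≤ N / 20 := by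
  have h1 : N < 20 * (N / 20) + 20 := by omega
  have h2 : 20 * (N / 20) ≤ N := by omega
  have h3 : (N : ℝ) < 20 * ((N / 20 : ℕ) : ℝ) + 20 := by exact_mod_cast h1
  have h4 : 20 * ((N / 20 : ℕ) : ℝ) ≤ N := by exact_mod_cast h2
  constructor <;> linarith

theorem cast_sub20 (N : ℕ) : ((N - N / 20 : ℕ) : ℝ) = N - ((N / 20 : ℕ) : ℝ) :=
  Nat.cast_sub (Nat.div_le_self _ _)

theorem log_le_gauss {P : ℝ} (hP : 0 < P) :
    Real.log P - P + 1 ≤ -((P - 1) ^ 2 / (2 * (1 + P))) := by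
  obtain ⟨s, hs, rfl⟩ : ∃ s : ℝ, 0 < s ∧ P = s ^ 2 :=
    ⟨√P, Real.sqrt_pos.2 hP, (Real.sq_sqrt hP.le).symm⟩
  have h1 := Real.log_le_sub_one_of_pos hs
  have h2 : (s ^ 2 - 1) ^ 2 / (2 * (1 + s ^ 2)) ≤ (s - 1) ^ 2 := by
    rw [div_le_iff₀ (by positivity)]
    nlinarith [sq_nonneg (s - 1), sq_nonneg ((s - 1) ^ 2)]
  rw [Real.log_pow]
  push_cast
  nlinarith

theorem norm_one_add_le {p : ℝ} (hp : 0 < p) {n : ℂ} (hn : ‖n‖ = 1) :
    ‖(1 + p * n) / 2‖ ^ 2 ≤ Real.exp (p - 1 - p * ‖n - 1‖ ^ 2 / (1 + p) ^ 2) := by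
  have h0 : n.re ^ 2 + n.im ^ 2 = 1 := by
    have := Complex.sq_norm n
    rw [hn, Complex.normSq_apply] at this
    nlinarith
  have h1 : ‖(1 + p * n) / 2‖ ^ 2 = ((1 + p) / 2) ^ 2 * (1 - p * ‖n - 1‖ ^ 2 / (1 + p) ^ 2) := by
    rw [norm_div, div_pow, Complex.sq_norm, Complex.sq_norm (n - 1), Complex.normSq_apply,
      Complex.normSq_apply]
    simp only [Complex.add_re, Complex.one_re, Complex.mul_re, Complex.ofReal_re,
      Complex.ofReal_im, Complex.add_im, Complex.one_im, Complex.mul_im, Complex.sub_re,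
      Complex.sub_im, Complex.norm_ofNat]
    field_simp
    nlinarith
  have h2 : ((1 + p) / 2) ^ 2 ≤ Real.exp (p - 1) := by
    have h3 := Real.add_one_le_exp ((p - 1) / 2)
    have h4 : Real.exp (p - 1) = Real.exp ((p - 1) / 2) ^ 2 := by
      rw [← Real.exp_nat_mul]; congr 1; push_cast; ring
    rw [h4]
    exact pow_le_pow_left₀ (by positivity) (by linarith) 2
  have h3 := Real.add_one_le_exp (-(p * ‖n - 1‖ ^ 2 / (1 + p) ^ 2))
  rw [h1, sub_eq_add_neg (p - 1), Real.exp_add]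
  calc _ ≤ ((1 + p) / 2) ^ 2 * Real.exp (-(p * ‖n - 1‖ ^ 2 / (1 + p) ^ 2)) := by
        gcongr; linarith
    _ ≤ _ := by gcongr

theorem psi_key {q : ℕ} (hq : 1 ≤ q) {p d N : ℝ} (hp : 0 < p) (hd0 : 0 ≤ d) (hd4 : d ≤ 4)
    (hN0 : 0 ≤ N) : N * p ^ q * d / 400 ≤
      N * (47 / 100) * ((p ^ q - 1) ^ 2 / (1 + p ^ q)) + N / 40 * (p * d / (1 + p) ^ 2) := by
  have hP : 0 < p ^ q := by positivity
  have hG0 : 0 ≤ (p ^ q - 1) ^ 2 / (1 + p ^ q) := by positivity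
  have hA0 : 0 ≤ p * d / (1 + p) ^ 2 := by positivity
  by_cases hc : 1 / 2 ≤ p ^ q ∧ p ^ q ≤ 2
  · have hp2 : p ≤ 2 := by
      by_contra hh
      have := le_self_pow₀ (show 1 ≤ p by linarith) (show q ≠ 0 by omega)
      linarith [hc.2]
    have hp1 : 1 / 2 ≤ p := by
      by_contra hh
      have := pow_le_of_le_one hp.le (show p ≤ 1 by linarith) (show q ≠ 0 by omega)
      linarith [hc.1]
    have h5 : 2 / 9 * d ≤ p * d / (1 + p) ^ 2 := by
      rw [le_div_iff₀ (by positivity)]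
      have : 2 / 9 * (1 + p) ^ 2 ≤ p := by nlinarith
      nlinarith
    have h6 : p ^ q * d ≤ 2 * d := by gcongr; exact hc.2
    have h7 := mul_le_mul_of_nonneg_left h6 hN0
    have h8 := mul_le_mul_of_nonneg_left h5 hN0
    have h9 := mul_nonneg hN0 hG0
    have h10 := mul_nonneg hN0 hd0
    linarith
  · have h5 : p ^ q / 9 ≤ (p ^ q - 1) ^ 2 / (1 + p ^ q) := by
      rw [le_div_iff₀ (by positivity)]
      generalize p ^ q = P at *
      rcases not_and_or.1 hc with h | h <;> nlinarith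
    have h6 : p ^ q * d ≤ p ^ q * 4 := by gcongr
    have h7 := mul_le_mul_of_nonneg_left h6 hN0
    have h8 := mul_le_mul_of_nonneg_left h5 hN0
    have h9 := mul_nonneg hN0 hA0
    have h10 := mul_nonneg hN0 hP.le
    linarith

theorem psi_le {q N : ℕ} (hq : 1 ≤ q) (hN : 40 ≤ N) {p : ℝ} (hp : 0 < p) {n : ℂ}
    (hn : ‖n‖ = 1) :
    ‖psi q N (p * n)‖ ≤ Real.exp (N * p ^ q - N * (p ^ q - 1) ^ 2 / (1 + p ^ q) / 400
      - N * p ^ q * ‖n - 1‖ ^ 2 / 400) := by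
  obtain ⟨hM1, hM2⟩ := div20 N
  have hK := cast_sub20 N
  set M : ℕ := N / 20
  set K : ℕ := N - M
  have hN' : (40 : ℝ) ≤ N := by exact_mod_cast hN
  have hq' : (1 : ℝ) ≤ q := by exact_mod_cast hq
  set P := p ^ q with hPdef
  have hP : 0 < P := by positivity
  set d := ‖n - 1‖ ^ 2 with hd
  have hd0 : 0 ≤ d := by positivity
  have hd4 : d ≤ 4 := by
    have := norm_sub_le n 1
    rw [hn, norm_one] at this
    nlinarith [norm_nonneg (n - 1)]
  have h1 : ‖(p * n : ℂ) ^ (q * K)‖ = Real.exp (K * Real.log P) := by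
    rw [norm_pow, norm_mul, hn, mul_one, Complex.norm_real, Real.norm_of_nonneg hp.le, pow_mul,
      Real.exp_nat_mul, Real.exp_log hP]
  have h2 : ‖((1 + p * n) / 2 : ℂ) ^ (2 * q * M)‖ ≤
      Real.exp ((q * M : ℕ) * (p - 1 - p * d / (1 + p) ^ 2)) := by
    rw [norm_pow, mul_assoc, pow_mul, Real.exp_nat_mul]
    exact pow_le_pow_left₀ (by positivity) (norm_one_add_le hp hn) _
  have h3 : ‖Complex.exp (N : ℂ)‖ = Real.exp N := by
    rw [Complex.norm_exp]; simp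
  have hB : 1 + q * (p - 1) ≤ P := one_add_mul_sub_le_pow (by linarith) q
  have hL := log_le_gauss hP
  have hG0 : 0 ≤ (P - 1) ^ 2 / (1 + P) := by positivity
  have hG : (P - 1) ^ 2 / (2 * (1 + P)) = (P - 1) ^ 2 / (1 + P) / 2 := by field_simp
  have hA0 : 0 ≤ p * d / (1 + p) ^ 2 := by positivity
  rw [psi, norm_mul, norm_mul, h1, h3]
  refine (mul_le_mul_of_nonneg_right (mul_le_mul_of_nonneg_left h2 (Real.exp_pos _).le)
    (Real.exp_pos _).le).trans ?_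
  rw [← Real.exp_add, ← Real.exp_add, Real.exp_le_exp, mul_div_assoc (N : ℝ) ((P - 1) ^ 2)]
  push_cast
  rw [hG] at hL
  set G := (P - 1) ^ 2 / (1 + P)
  set A := p * d / (1 + p) ^ 2
  have hM0 : (0 : ℝ) ≤ M := Nat.cast_nonneg _
  have e1 : (K : ℝ) * Real.log P ≤ K * (P - 1 - G / 2) := by
    gcongr; linarith
  have e2 : (M : ℝ) * (q * (p - 1)) ≤ M * (P - 1) := by
    gcongr; linarith
  have e3 : (N : ℝ) / 40 * A ≤ q * M * A := by
    gcongr; nlinarith
  have e4 : (N : ℝ) * (19 / 20) * G ≤ K * G := by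
    gcongr; linarith
  have key := psi_key hq hp hd0 hd4 (show (0 : ℝ) ≤ N by positivity)
  have h9 : 0 ≤ (N : ℝ) * G := by positivity
  rw [hK] at e1 e4 ⊢
  change N * P * d / 400 ≤ N * (47 / 100) * G + N / 40 * A at key
  linarith

theorem psi_le_third {q N : ℕ} {u : ℂ} (hu : ‖u‖ ^ q = 1 / 3) :
    ‖psi q N u‖ ≤ Real.exp (-(N / 40)) := by
  obtain ⟨hM1, hM2⟩ := div20 N
  have hK := cast_sub20 N
  have hu1 : ‖u‖ ≤ 1 := by
    by_contra hh
    have := one_le_pow₀ (show 1 ≤ ‖u‖ by linarith) (n := q)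
    linarith
  have h1 : ‖((1 + u) / 2) ^ (2 * q * (N / 20))‖ ≤ 1 := by
    rw [norm_pow]
    refine pow_le_one₀ (norm_nonneg _) ?_
    rw [norm_div, Complex.norm_ofNat, div_le_one two_pos]
    linarith [norm_add_le 1 u, norm_one (α := ℂ)]
  have h3 : ‖Complex.exp (N : ℂ)‖ = Real.exp N := by
    rw [Complex.norm_exp]; simp
  have h4 : (1 : ℝ) / 3 ≤ Real.exp (-(109 / 100)) := by
    have h5 : Real.exp (9 / 100) ≤ 100 / 91 := by
      have := Real.add_one_le_exp (-(9 / 100 : ℝ))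
      rw [Real.exp_neg, le_inv_comm₀ (by norm_num) (Real.exp_pos _)] at this
      linarith
    have h6 : Real.exp (109 / 100) = Real.exp 1 * Real.exp (9 / 100) := by
      rw [← Real.exp_add]; norm_num
    have h7 := Real.exp_one_lt_d9
    rw [Real.exp_neg, le_inv_comm₀ (by norm_num) (Real.exp_pos _), h6]
    nlinarith [Real.exp_pos (9 / 100 : ℝ)]
  have h2 : ‖u ^ (q * (N - N / 20))‖ ≤ Real.exp ((N - N / 20 : ℕ) * (-(109 / 100))) := by
    rw [norm_pow, pow_mul, hu, Real.exp_nat_mul]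
    exact pow_le_pow_left₀ (by norm_num) h4 _
  rw [psi, norm_mul, norm_mul, h3]
  calc _ ≤ Real.exp ((N - N / 20 : ℕ) * (-(109 / 100))) * 1 * Real.exp N := by gcongr
    _ ≤ _ := by
      rw [mul_one, ← Real.exp_add, Real.exp_le_exp, hK]
      have : (0 : ℝ) ≤ N := by positivity
      linarith

theorem exists_binom (q : ℕ) : ∃ Q : ℂ → ℂ, Continuous Q ∧ Q 0 = q * (q - 1) / 2 ∧
    ∀ y : ℂ, (1 + y) ^ q = 1 + q * y + y ^ 2 * Q y := by
  induction q with
  | zero => exact ⟨fun _ => 0, continuous_const, by simp, by simp⟩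
  | succ q ih =>
    obtain ⟨Q, h1, h2, h3⟩ := ih
    refine ⟨fun y => q + Q y + y * Q y, by fun_prop, ?_, fun y => ?_⟩
    · simp only [h2]; push_cast; ring
    · rw [pow_succ, h3]; push_cast; ring

theorem log_rem {y : ℂ} (hy : ‖y‖ ≤ 1 / 2) :
    ‖Complex.log (1 + y) - (y - y ^ 2 / 2)‖ ≤ ‖y‖ ^ 3 := by
  have h1 := Complex.norm_log_sub_logTaylor_le 2 (z := y) (by linarith)
  have h2 : Complex.logTaylor (2 + 1) y = y - y ^ 2 / 2 := by
    simp [Complex.logTaylor, Finset.sum_range_succ]; ring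
  rw [h2] at h1
  refine h1.trans ?_
  have h3 : (1 - ‖y‖)⁻¹ ≤ 2 := by
    rw [inv_le_comm₀ (by linarith) two_pos]; linarith
  have h4 : 0 ≤ ‖y‖ ^ 3 := by positivity
  have h5 : ‖y‖ ^ (2 + 1) * (1 - ‖y‖)⁻¹ ≤ ‖y‖ ^ 3 * 2 := by gcongr
  push_cast
  linarith

theorem tendsto_div20 : Tendsto (fun N : ℕ => (((N / 20 : ℕ) : ℝ) : ℂ) / N) atTop (𝓝 (1 / 20)) := by
  have h1 : Tendsto (fun N : ℕ => ((N / 20 : ℕ) : ℝ) / N) atTop (𝓝 (1 / 20)) := by
    have h2 : Tendsto (fun N : ℕ => (1 / 20 : ℝ) - (N : ℝ)⁻¹) atTop (𝓝 (1 / 20 - 0)) :=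
      tendsto_const_nhds.sub tendsto_inv_atTop_nhds_zero_nat
    rw [sub_zero] at h2
    refine tendsto_of_tendsto_of_tendsto_of_le_of_le' h2 tendsto_const_nhds ?_ ?_
    · filter_upwards [eventually_gt_atTop 0] with N hN
      have : (0 : ℝ) < N := by exact_mod_cast hN
      rw [le_div_iff₀ this, sub_mul, inv_mul_cancel₀ this.ne']
      linarith [(div20 N).1]
    · filter_upwards [eventually_gt_atTop 0] with N hN
      have : (0 : ℝ) < N := by exact_mod_cast hN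
      rw [div_le_iff₀ this]
      linarith [(div20 N).2]
  have h3 := (Complex.continuous_ofReal.tendsto _).comp h1
  simp only [Function.comp_def] at h3
  convert h3 using 2 <;> push_cast <;> rfl

theorem tendsto_sqrt_inv : Tendsto (fun N : ℕ => ((√(N : ℝ) : ℝ) : ℂ)⁻¹) atTop (𝓝 0) := by
  have h1 : Tendsto (fun N : ℕ => (√(N : ℝ))⁻¹) atTop (𝓝 0) :=
    tendsto_inv_atTop_zero.comp (Real.tendsto_sqrt_atTop.comp tendsto_natCast_atTop_atTop)
  have h3 := (Complex.continuous_ofReal.tendsto _).comp h1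
  simpa [Function.comp_def] using h3

theorem tendsto_zero_of_sqrt {y : ℕ → ℂ} {l : ℂ}
    (h : Tendsto (fun N : ℕ => ((√(N : ℝ) : ℝ) : ℂ) * y N) atTop (𝓝 l)) :
    Tendsto y atTop (𝓝 0) := by
  have h1 := tendsto_sqrt_inv.mul h
  rw [zero_mul] at h1
  refine h1.congr' ?_
  filter_upwards [eventually_gt_atTop 0] with N hN
  have : ((√(N : ℝ) : ℝ) : ℂ) ≠ 0 := by
    exact_mod_cast (Real.sqrt_pos.2 (by exact_mod_cast hN)).ne'
  field_simp

theorem sqrt_sq_cast (N : ℕ) : ((√(N : ℝ) : ℝ) : ℂ) ^ 2 = N := by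
  rw [← Complex.ofReal_pow, Real.sq_sqrt (Nat.cast_nonneg N)]; rfl

theorem tendsto_log_rem {y : ℕ → ℂ} {l : ℂ}
    (h : Tendsto (fun N : ℕ => ((√(N : ℝ) : ℝ) : ℂ) * y N) atTop (𝓝 l)) :
    Tendsto (fun N : ℕ => (N : ℂ) * (Complex.log (1 + y N) - (y N - y N ^ 2 / 2))) atTop
      (𝓝 0) := by
  have h0 := tendsto_zero_of_sqrt h
  have h1 := ((h.pow 2).mul h0).norm
  rw [mul_zero, norm_zero] at h1
  refine squeeze_zero_norm' ?_ h1
  have h2 := h0.norm
  rw [norm_zero] at h2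
  filter_upwards [h2.eventually (ge_mem_nhds (show (0 : ℝ) < 1 / 2 by norm_num))] with N hN
  rw [mul_pow, sqrt_sq_cast, norm_mul, mul_assoc, norm_mul, ← pow_succ, norm_pow]
  gcongr
  exact log_rem hN

/-- Gaussian limit of the test polynomial -/
theorem tendsto_psi (q : ℕ) {y : ℕ → ℂ} {l : ℂ}
    (h : Tendsto (fun N : ℕ => ((√(N : ℝ) : ℝ) : ℂ) * y N) atTop (𝓝 l)) :
    Tendsto (fun N : ℕ => psi q N (1 + y N) * Complex.exp (-(N * (1 + y N) ^ q))) atTop
      (𝓝 (Complex.exp (-(q / 2 * (q - 1 / 40)) * l ^ 2))) := by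
  obtain ⟨Q, hQ, hQ0, hQe⟩ := exists_binom q
  have h0 := tendsto_zero_of_sqrt h
  have h' : Tendsto (fun N : ℕ => ((√(N : ℝ) : ℝ) : ℂ) * (y N / 2)) atTop (𝓝 (l / 2)) := by
    simpa [mul_div_assoc] using h.div_const 2
  have r1 := tendsto_log_rem h
  have r2 := tendsto_log_rem h'
  have hM := tendsto_div20
  have hQy := (hQ.tendsto 0).comp h0
  have hE := (((h.pow 2).mul ((((hM.const_sub 1).const_mul (-(q : ℂ) / 2)).sub
    (hM.const_mul ((q : ℂ) / 4))).sub hQy)).add (((hM.const_sub 1).const_mul (q : ℂ)).mul r1)).add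
    ((hM.const_mul (2 * (q : ℂ))).mul r2)
  have hE' := (Complex.continuous_exp.tendsto _).comp hE
  have e : l ^ 2 * (-(q : ℂ) / 2 * (1 - 1 / 20) - q / 4 * (1 / 20) - Q 0) + q * (1 - 1 / 20) * 0
      + 2 * q * (1 / 20) * 0 = -(q / 2 * (q - 1 / 40)) * l ^ 2 := by
    rw [hQ0]; ring
  rw [e] at hE'
  refine hE'.congr' ?_
  have h2 := h0.norm
  rw [norm_zero] at h2
  filter_upwards [h2.eventually (ge_mem_nhds (show (0 : ℝ) < 1 / 2 by norm_num)),
    eventually_gt_atTop 0] with N hN hN0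
  have hN1 : (N : ℂ) ≠ 0 := by exact_mod_cast hN0.ne'
  have n1 : 1 + y N ≠ 0 := by
    intro hh
    have : y N = -1 := by linear_combination hh
    rw [this] at hN; norm_num at hN
  have n2 : 1 + y N / 2 ≠ 0 := by
    intro hh
    have : y N = -2 := by linear_combination 2 * hh
    rw [this] at hN; norm_num at hN
  have e1 : (1 + (1 + y N)) / 2 = 1 + y N / 2 := by ring
  simp only [Function.comp_def]
  rw [psi, e1, ← Complex.exp_log n1, ← Complex.exp_log n2, ← Complex.exp_nat_mul,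
    ← Complex.exp_nat_mul, ← Complex.exp_add, ← Complex.exp_add, ← Complex.exp_add,
    Complex.exp_log n1, Complex.exp_log n2, hQe, mul_pow, sqrt_sq_cast]
  congr 1
  have hK : ((N - N / 20 : ℕ) : ℂ) = N - ((N / 20 : ℕ) : ℂ) := Nat.cast_sub (Nat.div_le_self _ _)
  simp only [Nat.cast_mul, hK, Complex.ofReal_natCast, Nat.cast_ofNat]
  field_simp
  ring

end Vale.Agent.P218SQ
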