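import Vale.Agent.P218SQ.End
import Vale.Agent.P218SQ.Defs2

/-! The residues of the reduced action along the arc: first term and increments. -/

open Set Filter Topology Function MeasureTheory

namespace Vale.Agent.P218SQ

variable {q : ℕ} {υ : ℂ} {e : ℝ} {ι κ : Type*} [Fintype ι] [Fintype κ] [DecidableEq ι]
  {f : (ι → ℝ) → Pt ι κ → ℂ} {β K r w0 C C1 b γ K1 K2 A : ℝ} {B : ℕ} {S : ℂ} {lam : ι → ℝ}
  {G : ℕ → ℂ → Pt ι κ} {d1 : ℕ → ℝ}

theorem TipData.inner_ev (h : TipData f β K r w0 C B b γ K1 S) (j : ι) (μ : ι → ℝ) (K' : ℝ)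
    (h1 : ∀ i, |μ i| ≤ 1) (h2 : μ j = 1) (h3 : K1 ≤ K') : ∃ (R : ℝ → ℂ) (ρ : ℝ), 0 < ρ ∧
      ∫ η : ℝ, R η * Complex.exp (-(η * Complex.I)) = ρ * S ∧
      ∀ (W : ℕ → ι → ℝ) (z : ℕ → Pt ι κ) (η : ℝ),
        (∀ᶠ n in atTop, Adm w0 (W n) ∧ Adm w0 (update (W n) j (W n j + 1)) ∧
          z n ∈ dom β K r (update (W n) j (W n j + 1)) ∧ (z n).1 j ≠ 0 ∧
          ∀ i, |W n i - W n j| ≤ 1) →
        Tendsto (fun n => W n j) atTop atTop → Tendsto z atTop (𝓝 0) →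
        (∀ i, Tendsto (fun n => (z n).1 i / (z n).1 j) atTop (𝓝 (μ i : ℂ))) →
        Tendsto (fun n => sig β (W n j) ((z n).1 j)) atTop (𝓝 (-K' + η * Complex.I)) →
        Tendsto (fun n => ((Real.exp (W n j) * W n j ^ b : ℝ) : ℂ) * inc f j (W n) (z n))
          atTop (𝓝 (R η)) := by
  obtain ⟨R, ρ, a1, a2, a3⟩ := h.inner j μ K' h1 h2 h3
  refine ⟨R, ρ, a1, a2, fun W z η b1 b2 b3 b4 b5 => ?_⟩
  obtain ⟨n0, b1⟩ := eventually_atTop.1 b1
  have t := tendsto_add_atTop_nat n0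
  exact (tendsto_add_atTop_iff_nat n0).1 (a3 (fun n => W (n + n0)) (fun n => z (n + n0)) η
    (fun n => b1 _ (Nat.le_add_left _ _)) (b2.comp t) (b3.comp t) (fun i => (b4 i).comp t)
    (b5.comp t))

theorem diff_comp (h : SeqData f β K r w0 C B) (hN : NArc f q lam G C1) {W : ι → ℝ}
    (hW : Adm w0 W) {N : ℕ} {ω : ℂ} (h1 : G N ω ∈ dom β K r W) (h2 : ω ≠ 0) :
    DifferentiableAt ℂ (fun ω => f W (G N ω)) ω :=
  ((h.holo W hW).differentiableAt ((isOpen_dom β K r W).mem_nhds h1)).comp ω (hN.diff N ω h2)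

theorem ev_w1 : ∀ᶠ N : ℕ in atTop, ∀ w : ℕ, 33 * N / 100 ≤ w → 8 * (N : ℝ) ≤ 25 * w := by
  filter_upwards [eventually_ge_atTop 100] with N hN w hw
  exact_mod_cast (by omega : 8 * N ≤ 25 * w)

/-- the residue at the cut `w` -/
noncomputable def rs (q : ℕ) (υ : ℂ) (F : ℂ → ℂ) (N : ℕ) : ℂ :=
  res fun ω => F ω * psi q N (ω / (υ * rt q N))

theorem first_small (h : SeqData f β K r w0 C B) (hN : NArc f q lam G C1) (hυ : ‖υ‖ = 1)
    (hυq : υ ^ q = e) (he : e = 1 ∨ e = -1) (hd1 : Half d1 q) (b' : ℝ) :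
    Tendsto (fun N : ℕ => ((√(N : ℝ) : ℝ) : ℂ)⁻¹ * (Complex.exp (Dp d1 q (υ * rt q N)) *
      kap q υ b' N * rs q υ (fun ω => f (fun _ => ((33 * N / 100 : ℕ) : ℝ)) (G N ω)) N))
      atTop (𝓝 0) := by
  have hq := hN.one_le
  have hq0 : (0 : ℝ) < q := by exact_mod_cast hq
  obtain ⟨D, -, hD⟩ := hd1.bound
  have h1 := ((tendsto_rpow_mul_exp_neg_mul_atTop_nhds_zero (b' + 2) (1 / 80) (by norm_num)).comp
    tendsto_natCast_atTop_atTop).const_mul (q * (2 * Real.pi * C))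
  rw [mul_zero] at h1
  refine squeeze_zero_norm' ?_ h1
  filter_upwards [ev_w1, hN.small, hN.snd h.r_pos, eventually_ge_atTop 3,
    ev_Nw (dom_outer hq hυ hυq he β K 0 C1 (κ := 1 / (200 * q)) (by positivity)),
    ev_Nw (endDom_succ β K), ev_Nw (eventually_ge_atTop (max w0 1)),
    tendsto_natCast_atTop_atTop.eventually (ev_sqrt D (ε := 1 / 80) (by norm_num))]
    with N a1 a2 a3 a4 a5 a6 a7 a8
  have hw := a1 _ le_rfl
  have hw' : ((33 * N / 100 : ℕ) : ℝ) ≤ 33 * N / 100 := by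
    exact_mod_cast Nat.cast_div_le (α := ℝ) (m := 33 * N) (n := 100)
  generalize ((33 * N / 100 : ℕ) : ℝ) = w at *
  have hN3 : (3 : ℝ) ≤ N := by exact_mod_cast a4
  have hw1 : 1 ≤ w := (le_max_right _ _).trans (a7 w hw)
  have hA : Adm w0 fun _ : ι => w := fun _ =>
    ⟨(le_max_left _ _).trans (a7 w hw), fun _ => by linarith⟩
  have hρ := rt_pos q (show (0 : ℝ) < N / 3 by linarith)
  have hx := one_le_rt q (show (1 : ℝ) ≤ N by linarith)
  have hy := rt_pos q (show 0 < w by linarith)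
  have key : ∀ ω : ℂ, rt q (N / 3) ≤ ‖ω‖ → G N ω ∈ dom β K r (fun _ => w) ∧ ω ≠ 0 := by
    intro ω hω
    have b1 := pow_le_pow_left₀ hρ.le hω q
    rw [rt_pow hq (by linarith)] at b1
    have b2 : 2 * N ≤ 7 * ‖ω‖ ^ q := by linarith
    have b3 : υ * rt q w ≠ 0 := mul_ne_zero (norm_pos_iff.1 (by linarith)) (by exact_mod_cast hy.ne')
    refine ⟨⟨fun j => a6 w hw (a5 w hw (rt q w) (lam j) (ω / (υ * rt q w)) _ hy
      (by rw [rt_pow hq (by linarith)]; simp) ?_ (hN.le_one j) ?_), (a3 ω b2).1⟩, (a3 ω b2).2⟩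
    · have b4 : q * (1 / (200 * q) : ℝ) = 1 / 200 := by field_simp
      refine le_of_pow_le_pow_left₀ (by omega : q ≠ 0) (norm_nonneg _)
        ((pow_le_lin (by positivity) (by rw [b4]; norm_num)).trans ?_)
      rw [b4, norm_div, norm_mul, hυ, one_mul, Complex.norm_real, Real.norm_of_nonneg hy.le,
        div_pow, rt_pow hq (by linarith), le_div_iff₀ (by linarith)]
      linarith
    · rw [mul_div_cancel₀ _ b3]; exact (a2 ω b2).1 j
  have hC : 0 ≤ C := (norm_nonneg _).trans (h.bdd _ hA _ (zero_mem_dom β K h.r_pos _))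
  have c1 : ‖rs q υ (fun ω => f (fun _ => w) (G N ω)) N‖ ≤
      2 * Real.pi * rt q (N / 3) * (C * Real.exp (-(N / 40))) := by
    refine norm_res_le hρ (fun ω hω => (diff_comp h hN hA (key ω hω).1 (key ω hω).2).mul
      (diff_psi q N _ ω)) fun ω hω => ?_
    rw [norm_mul]
    refine mul_le_mul (h.bdd _ hA _ (key ω hω.ge).1) (psi_le_third ?_) (norm_nonneg _) hC
    rw [norm_div, norm_mul, hυ, one_mul, Complex.norm_real, Real.norm_of_nonneg (by linarith),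
      div_pow, hω, rt_pow hq (by linarith), rt_pow hq (by linarith)]
    field_simp
  have c2 : rt q (N / 3) ≤ N := by
    have := le_self_pow₀ (one_le_rt q (show (1 : ℝ) ≤ N / 3 by linarith)) (by omega : q ≠ 0)
    rw [rt_pow hq (by linarith)] at this; linarith
  have c3 : ‖Complex.exp (Dp d1 q (υ * rt q N))‖ ≤ Real.exp (1 / 80 * N) := by
    have := (hD _ hx).2.1 υ (by linarith)
    rw [rt_pow hq (by linarith), mul_comm _ υ] at this
    rw [Complex.norm_exp]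
    exact Real.exp_le_exp.2 ((Complex.re_le_norm _).trans (this.trans a8))
  have c4 : ‖kap q υ b' N‖ ≤ (N : ℝ) ^ b' * (q * N) := by
    rw [kap, norm_mul, norm_div, norm_mul, norm_mul, norm_mul, hυ, Complex.norm_I,
      Complex.norm_real, Complex.norm_real, Real.norm_of_nonneg (by positivity),
      Real.norm_of_nonneg (by linarith), Complex.norm_natCast, Complex.norm_natCast]
    gcongr
    exact div_le_self (by positivity) (by linarith)
  have c5 : ‖((√(N : ℝ) : ℝ) : ℂ)⁻¹‖ ≤ 1 := by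
    rw [norm_inv, Complex.norm_real, Real.norm_of_nonneg (Real.sqrt_nonneg _)]
    exact inv_le_one_of_one_le₀ (Real.one_le_sqrt.2 (by linarith))
  rw [norm_mul, norm_mul, norm_mul]
  calc _ ≤ 1 * (Real.exp (1 / 80 * N) * ((N : ℝ) ^ b' * (q * N)) *
        (2 * Real.pi * N * (C * Real.exp (-(N / 40))))) := by
        gcongr; exact c1.trans (by gcongr)
    _ = _ := by
        have : Real.exp (-(1 / 80) * N) = Real.exp (1 / 80 * N) * Real.exp (-(N / 40)) := by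
          rw [← Real.exp_add]; congr 1; ring
        simp only [Function.comp_def]
        rw [this, Real.rpow_add (by linarith), Real.rpow_two]; ring

/-- all cuts between `w` and `w + 1` are admissible on the exterior of the contour -/
def Good (q : ℕ) (υ : ℂ) (β K r w0 K2 : ℝ) (d1 : ℕ → ℝ) (G : ℕ → ℂ → Pt ι κ) : Prop :=
  ∀ᶠ N : ℕ in atTop, ∀ w : ℝ, 8 * (N : ℝ) ≤ 25 * w → 0 < Lw β K2 d1 q υ w ∧
    ∀ k, Adm w0 (cut w k : ι → ℝ) ∧ ∀ u : ℂ, 1 + del q ≤ ‖u + del q‖ →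
      G N (υ * rt q (Lw β K2 d1 q υ w) * u) ∈ dom β K r (cut w k) ∧
      υ * rt q (Lw β K2 d1 q υ w) * u ≠ 0

omit [DecidableEq ι] in
theorem good_of (hN : NArc f q lam G C1) (hr : 0 < r) (hυ : ‖υ‖ = 1) (hR : Rad q υ β A d1)
    (h : ∀ j, InDom q υ β K K2 d1 fun N ω => (G N ω).1 j) (w0 : ℝ) :
    Good q υ β K r w0 K2 d1 G := by
  obtain ⟨hδ, hδ1⟩ := del_pos hN.one_le
  filter_upwards [eventually_all.2 h, hN.snd hr, ev_two hυ q A, hR.rt hN.one_le K2, ev_Nw (hR K2),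
    ev_Nw (endDom_succ β K), ev_Nw (eventually_ge_atTop w0)] with N a1 a2 a3 a4 a5 a6 a7 w hw
  obtain ⟨b1, -, b3, -⟩ := a5 w hw
  refine ⟨by linarith, fun k => ⟨adm_cut (a7 w hw) (by linarith) k, fun u hu => ?_⟩⟩
  have := a2 _ (a3 w hw _ u (a4 w hw).1 (a4 w hw).2 (ext_geo hδ hδ1 hu).1)
  exact ⟨dom_cut (a6 w hw) k ⟨fun j => a1 j w hw u hu, this.1⟩, this.2⟩

/-- increments along the arc -/
noncomputable def Dl (f : (ι → ℝ) → Pt ι κ → ℂ) (G : ℕ → ℂ → Pt ι κ) (i : ι) (N w : ℕ) (ω : ℂ) : ℂ :=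
  inc f i (cut w (rk i)) (G N ω)

theorem Good.near (h : TipData f β K r w0 C B b γ K1 S) (hq : 1 ≤ q)
    (hG : Good q υ β K r w0 K2 d1 G) (i : ι) :
    Near q υ β b γ K2 C d1 (Dl f G i) fun N ω => (G N ω).1 i := by
  filter_upwards [hG] with N a1 w hw θ
  have := h.near (cut w (rk i)) i ((a1 w hw).2 _).1 (by rw [update_cut]; exact ((a1 w hw).2 _).1) _
    (by rw [update_cut]; exact (((a1 w hw).2 _).2 _ (uu_add _ θ (del_pos hq).1.le).ge).1)
  rwa [cut_self] at this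

theorem Good.res (h : SeqData f β K r w0 C B) (hN : NArc f q lam G C1) (hυ : ‖υ‖ = 1)
    (hG : Good q υ β K r w0 K2 d1 G) : ∀ᶠ N : ℕ in atTop, ∀ w : ℕ, 8 * (N : ℝ) ≤ 25 * w →
      rs q υ (fun ω => f (fun _ => ((w + 1 : ℕ) : ℝ)) (G N ω)) N -
        rs q υ (fun ω => f (fun _ => (w : ℝ)) (G N ω)) N = ∑ i, rs q υ (Dl f G i N w) N ∧
      ∀ i dz dn, AEStronglyMeasurable (HH q υ β b K2 d1 dz dn (Dl f G i) N w) volume ∧
        ∫ η, HH q υ β b K2 d1 dz dn (Dl f G i) N w η = Complex.exp (Dp dn q (υ * rt q N)) *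
          kap q υ (b - β) N * rs q υ (Dl f G i N w) N := by
  have hq := hN.one_le
  have hq0 : (0 : ℝ) < q := by exact_mod_cast hq
  obtain ⟨hδ, -⟩ := del_pos hq
  have hc : ∀ L : ℝ, 0 < L → υ * rt q L ≠ 0 := fun L hL =>
    mul_ne_zero (norm_pos_iff.1 (by linarith)) (by exact_mod_cast (rt_pos q hL).ne')
  filter_upwards [hG] with N a1 w hw
  have b1 : ∀ w : ℝ, 8 * (N : ℝ) ≤ 25 * w → ∀ k (u : ℂ), 1 + del q ≤ ‖u + del q‖ →
      DifferentiableAt ℂ (fun ω => f (cut w k) (G N ω)) (υ * rt q (Lw β K2 d1 q υ w) * u) :=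
    fun w hw k u hu => diff_comp h hN ((a1 w hw).2 k).1 (((a1 w hw).2 k).2 u hu).1
      (((a1 w hw).2 k).2 u hu).2
  have b2 : ∀ w : ℝ, 8 * (N : ℝ) ≤ 25 * w →
      Ext fun ω => f (fun _ => w) (G N ω) * psi q N (ω / (υ * rt q N)) := fun w hw =>
    ext_of_exterior (hc _ (a1 w hw).1) hδ.le fun u hu => (b1 w hw 0 u hu).mul (diff_psi q N _ _)
  have b3 : ∀ i (u : ℂ), 1 + del q ≤ ‖u + del q‖ → DifferentiableAt ℂ
      (fun ω => Dl f G i N w ω * psi q N (ω / (υ * rt q N))) (υ * rt q (Lw β K2 d1 q υ w) * u) := by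
    intro i u hu
    simp only [Dl, inc, update_cut]
    exact ((b1 w hw _ u hu).sub (b1 w hw _ u hu)).mul (diff_psi q N _ _)
  have b4 := fun i => ext_of_exterior (hc _ (a1 w hw).1) hδ.le (b3 i)
  refine ⟨?_, fun i dz dn => ?_⟩
  · simp only [rs]
    rw [← res_sub (b2 _ (by push_cast; linarith)) (b2 _ hw), ← res_sum _ fun i _ => b4 i]
    congr 1; funext ω
    simp only [Dl]
    rw [← Finset.sum_mul, sum_inc, Nat.cast_succ, sub_mul]
  · obtain ⟨c1, c2⟩ := res_param (b4 i) (hc _ (a1 w hw).1) hδ.le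
      (a := q * (1 + del q) * Lw β K2 d1 q υ w) (by have := (a1 w hw).1; positivity)
      (Dp dz q (υ * rt q (Lw β K2 d1 q υ w))).im (b3 i)
    exact ⟨(c1.const_mul _).aestronglyMeasurable, by rw [rs, c2, ← integral_const_mul]; rfl⟩

end Vale.Agent.P218SQ
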